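import Vale.Agent.P146.Super.Graph
import Mathlib.GroupTheory.Perm.Basic

/-!
# P146, superconcentration: clean walks

The end configurations of walks all of whose steps go to fresh vertices, their sums, their number,
the symmetry between them, and the extraction of such a walk from a multigraph of small degrees.
-/

namespace Vale.Agent.P146.Super

open Finset

noncomputable section

variable {n : ℕ}

/-- The configurations one fresh step after `s`. -/
def freshStep (M : Finset (Fin n)) (s : Fin n × MG n) : Finset (Fin n × MG n) :=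
  (univ.filter fun l => s.1 ≠ l ∧ Fresh M s.2 l).image fun l =>
    if h : s.1 ≠ l then (l, addE s.2 (mkEdge s.1 l h)) else s

/-- The end configurations of the walks of `r` fresh steps. -/
def pts (M : Finset (Fin n)) : ℕ → Fin n → MG n → Finset (Fin n × MG n)
  | 0, u, G => {(u, G)}
  | r + 1, u, G => (pts M r u G).biUnion (freshStep M)

lemma pts_zero (M : Finset (Fin n)) (u : Fin n) (G : MG n) : pts M 0 u G = {(u, G)} := rfl

lemma pts_succ (M : Finset (Fin n)) (r : ℕ) (u : Fin n) (G : MG n) :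
    pts M (r + 1) u G = (pts M r u G).biUnion (freshStep M) := rfl

lemma mem_freshStep {M : Finset (Fin n)} {s p : Fin n × MG n} :
    p ∈ freshStep M s ↔
      ∃ l, ∃ h : s.1 ≠ l, Fresh M s.2 l ∧ p = (l, addE s.2 (mkEdge s.1 l h)) := by
  simp only [freshStep, mem_image, mem_filter, mem_univ, true_and]
  constructor
  · rintro ⟨l, ⟨h, hf⟩, rfl⟩
    exact ⟨l, h, hf, by rw [dif_pos h]⟩
  · rintro ⟨l, h, hf, rfl⟩
    exact ⟨l, ⟨h, hf⟩, by rw [dif_pos h]⟩

/-- A fresh step can be undone in one way only. -/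
lemma freshStep_inj {M : Finset (Fin n)} {s s' p : Fin n × MG n} (h : p ∈ freshStep M s)
    (h' : p ∈ freshStep M s') : s = s' := by
  obtain ⟨l, hl, hf, rfl⟩ := mem_freshStep.1 h
  obtain ⟨l', hl', hf', he⟩ := mem_freshStep.1 h'
  simp only [Prod.mk.injEq] at he
  obtain ⟨rfl, he⟩ := he
  have hd : deg (addE s.2 (mkEdge s.1 l hl)) l = 1 := by
    rw [deg_addE, if_pos (inc_mkEdge_right _ _ hl), hf.1]
  have hp : 0 < addE s.2 (mkEdge s.1 l hl) (mkEdge s'.1 l hl') := by
    rw [he]; simp
  have hE := unique_edge_of_deg_one hd (inc_mkEdge_right _ _ hl) (inc_mkEdge_right _ _ hl')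
    (by simp) hp
  have h1 : s.1 = s'.1 := mkEdge_inj hl.symm hl'.symm (by rwa [mkEdge_symm _ _ hl, mkEdge_symm _ _ hl'])
  refine Prod.ext h1 ?_
  rw [hE] at he
  have h2 := congrArg (fun H => delE H (mkEdge s'.1 l hl')) he
  simpa only [delE_addE] using h2

lemma pts_disjoint (M : Finset (Fin n)) (S : Finset (Fin n × MG n)) :
    (S : Set (Fin n × MG n)).PairwiseDisjoint (freshStep M) := by
  intro s _ s' _ hne
  exact Finset.disjoint_left.2 fun p hp hp' => hne (freshStep_inj hp hp')

/-- A step pushed to the end of the walk. -/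
lemma cleanVal_succ (M : Finset (Fin n)) (r : ℕ) :
    ∀ (u : Fin n) (G : MG n) (f : Fin n → MG n → ℝ),
      cleanVal M (r + 1) u G f = cleanVal M r u G (fun v H => cleanVal M 1 v H f) := by
  induction r with
  | zero => intro u G f; simp [cleanVal]
  | succ r ih =>
    intro u G f
    rw [cleanVal.eq_2 M u G f (r + 1), cleanVal.eq_2 M u G _ r]
    refine sum_congr rfl fun l _ => ?_
    split_ifs
    · rfl
    · rw [ih]
    · rfl

lemma cleanVal_one (M : Finset (Fin n)) (s : Fin n × MG n) (f : Fin n → MG n → ℝ) :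
    cleanVal M 1 s.1 s.2 f = (∑ p ∈ freshStep M s, f p.1 p.2) / Real.sqrt n := by
  rw [freshStep, sum_image, sum_filter, Finset.sum_div]
  · simp only [cleanVal]
    refine sum_congr rfl fun l _ => ?_
    by_cases h : s.1 = l
    · simp [h]
    · by_cases hf : Fresh M s.2 l <;> simp [h, hf]
  · intro l hl l' hl' he
    simp only [coe_filter, mem_univ, true_and, Set.mem_ofPred_eq] at hl hl'
    simp only [dif_pos hl.1, dif_pos hl'.1, Prod.mk.injEq] at he
    exact he.1

/-- A clean walk sum is a sum over end configurations. -/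
theorem cleanVal_eq_sum (M : Finset (Fin n)) (r : ℕ) (u : Fin n) (G : MG n)
    (f : Fin n → MG n → ℝ) :
    cleanVal M r u G f = (∑ p ∈ pts M r u G, f p.1 p.2) / Real.sqrt n ^ r := by
  induction r generalizing f with
  | zero => simp [cleanVal, pts]
  | succ r ih =>
    rw [cleanVal_succ, ih, pts_succ, sum_biUnion (pts_disjoint M _),
      sum_congr rfl fun p _ => cleanVal_one M p f, ← sum_div, div_div, ← pow_succ']

/-- Walks from marked starts with a common end configuration are the same. -/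
theorem pts_inj {M : Finset (Fin n)} {r r' : ℕ} {u u' : Fin n} {G G' : MG n} {p : Fin n × MG n}
    (hu : u ∈ M) (hu' : u' ∈ M) (h : p ∈ pts M r u G) (h' : p ∈ pts M r' u' G') :
    r = r' ∧ u = u' ∧ G = G' := by
  induction r generalizing r' p with
  | zero =>
    rw [pts_zero, mem_singleton] at h
    subst h
    cases r' with
    | zero =>
      rw [pts_zero, mem_singleton, Prod.mk.injEq] at h'
      exact ⟨rfl, h'.1, h'.2⟩
    | succ r' =>
      rw [pts_succ, mem_biUnion] at h'
      obtain ⟨s, -, hs⟩ := h'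
      obtain ⟨l, hl, hf, he⟩ := mem_freshStep.1 hs
      have hul : u = l := congrArg Prod.fst he
      exact absurd (hul ▸ hu) hf.2
  | succ r ih =>
    rw [pts_succ, mem_biUnion] at h
    obtain ⟨s, hs, hsp⟩ := h
    obtain ⟨l, hl, hf, he⟩ := mem_freshStep.1 hsp
    cases r' with
    | zero =>
      rw [pts_zero, mem_singleton] at h'
      have hul : u' = l := congrArg Prod.fst (h'.symm.trans he)
      exact absurd (hul ▸ hu') hf.2
    | succ r' =>
      rw [pts_succ, mem_biUnion] at h'
      obtain ⟨s', hs', hsp'⟩ := h'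
      obtain rfl := freshStep_inj hsp hsp'
      obtain ⟨e1, e2, e3⟩ := ih hs hs'
      exact ⟨by rw [e1], e2, e3⟩

lemma pts_size {M : Finset (Fin n)} {r : ℕ} {v : Fin n} {G0 : MG n} {p : Fin n × MG n}
    (h : p ∈ pts M r v G0) : size p.2 = size G0 + r := by
  induction r generalizing p with
  | zero => rw [pts_zero, mem_singleton] at h; subst h; rfl
  | succ r ih =>
    rw [pts_succ, mem_biUnion] at h
    obtain ⟨s, hs, hsp⟩ := h
    obtain ⟨l, hl, hf, rfl⟩ := mem_freshStep.1 hsp
    show size (addE s.2 _) = _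
    rw [size_addE, ih hs]; omega

lemma pts_deg_le {M : Finset (Fin n)} {r : ℕ} {v : Fin n} {G0 : MG n} {p : Fin n × MG n}
    (h : p ∈ pts M r v G0) (w : Fin n) : deg G0 w ≤ deg p.2 w := by
  induction r generalizing p with
  | zero => rw [pts_zero, mem_singleton] at h; subst h; rfl
  | succ r ih =>
    rw [pts_succ, mem_biUnion] at h
    obtain ⟨s, hs, hsp⟩ := h
    obtain ⟨l, hl, hf, rfl⟩ := mem_freshStep.1 hsp
    show deg G0 w ≤ deg (addE s.2 _) w
    rw [deg_addE]
    exact (ih hs).trans (Nat.le_add_right _ _)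

/-- The shape of the end configuration of a clean walk from a marked vertex without edges. -/
theorem pts_spec {M : Finset (Fin n)} {r : ℕ} {v u : Fin n} {G0 G : MG n} (hv : v ∈ M)
    (hd : deg G0 v = 0) (hr : 1 ≤ r) (h : (u, G) ∈ pts M r v G0) :
    u ∉ M ∧ deg G u = 1 ∧ deg G0 u = 0 ∧ deg G v = 1 ∧ size G = size G0 + r ∧
      ∀ w, w ≠ u → w ≠ v →
        deg G w = deg G0 w ∨ (w ∉ M ∧ deg G0 w = 0 ∧ deg G w = 2) := by
  induction r, hr using Nat.le_induction generalizing u G with
  | base =>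
    rw [pts_succ, pts_zero, singleton_biUnion] at h
    obtain ⟨l, hl, hf, he⟩ := mem_freshStep.1 h
    simp only [Prod.mk.injEq] at he
    obtain ⟨rfl, rfl⟩ := he
    refine ⟨hf.2, ?_, hf.1, ?_, size_addE _ _, fun w h1 h2 => Or.inl ?_⟩
    · rw [deg_addE, if_pos (inc_mkEdge_right _ _ hl), hf.1]
    · rw [deg_addE, if_pos (inc_mkEdge_left _ _ hl), hd]
    · rw [deg_addE, if_neg]
      · rfl
      · rw [inc_mkEdge]; tauto
  | succ r hr ih =>
    rw [pts_succ, mem_biUnion] at h
    obtain ⟨⟨u₁, G₁⟩, hs, hsp⟩ := h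
    obtain ⟨l, hl, hf, he⟩ := mem_freshStep.1 hsp
    simp only [Prod.mk.injEq] at he
    obtain ⟨rfl, rfl⟩ := he
    obtain ⟨a1, a2, a3, a4, a5, a6⟩ := ih hs
    have h0 : deg G0 u = 0 := Nat.le_zero.1 (hf.1 ▸ pts_deg_le hs u)
    have hvu₁ : v ≠ u₁ := fun e => a1 (e ▸ hv)
    have hvu : v ≠ u := fun e => hf.2 (e ▸ hv)
    refine ⟨hf.2, ?_, h0, ?_, ?_, fun w h1 h2 => ?_⟩
    · rw [deg_addE, if_pos (inc_mkEdge_right _ _ hl), hf.1]
    · rw [deg_addE, if_neg, a4]
      rw [inc_mkEdge]; tauto
    · rw [size_addE, a5]; omega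
    · rw [deg_addE]
      by_cases h3 : w = u₁
      · subst h3
        exact Or.inr ⟨a1, a3, by rw [a2, if_pos (inc_mkEdge_left _ _ hl)]⟩
      · rw [if_neg (by rw [inc_mkEdge]; tauto), add_zero]
        exact a6 w h3 h2

lemma card_freshStep (M : Finset (Fin n)) (s : Fin n × MG n) :
    (freshStep M s).card = (univ.filter fun l => s.1 ≠ l ∧ Fresh M s.2 l).card := by
  refine card_image_of_injOn fun l hl l' hl' he => ?_
  simp only [coe_filter, mem_univ, true_and, Set.mem_ofPred_eq] at hl hl'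
  simp only [dif_pos hl.1, dif_pos hl'.1, Prod.mk.injEq] at he
  exact he.1

lemma card_freshStep_ge (M : Finset (Fin n)) (s : Fin n × MG n) :
    n - (2 * size s.2 + M.card + 1) ≤ (freshStep M s).card := by
  rw [card_freshStep]
  have h1 : ((univ : Finset (Fin n)).filter fun l => ¬(s.1 ≠ l ∧ Fresh M s.2 l)).card
      ≤ 2 * size s.2 + M.card + 1 := by
    refine (card_le_card (t := (univ.filter fun l => ¬ Fresh M s.2 l) ∪ {s.1}) ?_).trans
      ((card_union_le _ _).trans ?_)
    · intro l hl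
      simp only [mem_filter, mem_univ, true_and, mem_union, mem_singleton] at hl ⊢
      tauto
    · rw [card_singleton]; exact Nat.add_le_add_right (card_old_le M s.2) 1
  have h2 := card_filter_add_card_filter_not (s := (univ : Finset (Fin n)))
    (fun l => s.1 ≠ l ∧ Fresh M s.2 l)
  rw [card_univ, Fintype.card_fin] at h2
  omega

/-- At most `n ^ r` end configurations. -/
theorem card_pts_le (M : Finset (Fin n)) (r : ℕ) (u : Fin n) (G : MG n) :
    (pts M r u G).card ≤ n ^ r := by
  induction r with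
  | zero => simp [pts_zero]
  | succ r ih =>
    rw [pts_succ, card_biUnion (pts_disjoint M _), pow_succ]
    refine (sum_le_card_nsmul _ _ n fun s _ => ?_).trans ?_
    · rw [card_freshStep]; exact (card_filter_le _ _).trans (by simp)
    · rw [smul_eq_mul]; exact Nat.mul_le_mul_right n ih

/-- At least `(n - 2 (size G + r) - #M - 1) ^ r` end configurations. -/
theorem le_card_pts (M : Finset (Fin n)) (r : ℕ) (u : Fin n) (G : MG n) :
    (n - (2 * (size G + r) + M.card + 1)) ^ r ≤ (pts M r u G).card := by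
  suffices h : ∀ i ≤ r, (n - (2 * (size G + r) + M.card + 1)) ^ i ≤ (pts M i u G).card from
    h r le_rfl
  intro i hi
  induction i with
  | zero => simp [pts_zero]
  | succ i ih =>
    rw [pts_succ, card_biUnion (pts_disjoint M _), pow_succ]
    refine (Nat.mul_le_mul_right _ (ih (by omega))).trans ?_
    rw [← smul_eq_mul]
    refine card_nsmul_le_sum _ _ _ fun s hs => ?_
    have h1 := pts_size hs
    refine le_trans ?_ (card_freshStep_ge M s)
    omega

/-! ### Relabellings -/

lemma mapEdge_mkEdge (π : Equiv.Perm (Fin n)) (u l : Fin n) (h : u ≠ l) :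
    mapEdge π (mkEdge u l h) = mkEdge (π u) (π l) (fun e => h (π.injective e)) := by
  rcases lt_or_gt_of_ne h with h1 | h1
  · have e : mkEdge u l h = ⟨(u, l), h1⟩ := dif_pos h1
    rw [e]; rfl
  · have e : mkEdge u l h = ⟨(l, u), h1⟩ := dif_neg (not_lt.2 h1.le)
    rw [e]; exact mkEdge_symm (π u) (π l) _

lemma edge_eq_mkEdge (e : Edge n) : mkEdge e.1.1 e.1.2 (ne_of_lt e.2) = e := by
  rw [mkEdge, dif_pos e.2]

lemma mapEdge_symm_mapEdge (π : Equiv.Perm (Fin n)) (e : Edge n) :
    mapEdge π.symm (mapEdge π e) = e := by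
  conv_lhs => rw [← edge_eq_mkEdge e, mapEdge_mkEdge, mapEdge_mkEdge]
  simp only [Equiv.symm_apply_apply]
  exact edge_eq_mkEdge e

lemma mapEdge_mapEdge_symm (π : Equiv.Perm (Fin n)) (e : Edge n) :
    mapEdge π (mapEdge π.symm e) = e := mapEdge_symm_mapEdge π.symm e

lemma inc_mapEdge (π : Equiv.Perm (Fin n)) (v : Fin n) (e : Edge n) :
    inc (π v) (mapEdge π e) ↔ inc v e := by
  rw [mapEdge, inc_mkEdge, π.injective.eq_iff, π.injective.eq_iff]
  unfold inc
  tauto

lemma deg_mapMG_apply (π : Equiv.Perm (Fin n)) (G : MG n) (v : Fin n) :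
    deg (mapMG π G) (π v) = deg G v := by
  refine (Fintype.sum_equiv ⟨mapEdge π, mapEdge π.symm, mapEdge_symm_mapEdge π,
    mapEdge_mapEdge_symm π⟩ _ _ fun e => ?_).symm
  simp only [Equiv.coe_fn_mk, inc_mapEdge, mapMG, mapEdge_symm_mapEdge]

lemma mapMG_mul (π ρ : Equiv.Perm (Fin n)) (G : MG n) :
    mapMG (π * ρ) G = mapMG π (mapMG ρ G) := by
  funext e
  simp only [mapMG]
  congr 1
  conv_rhs => rw [← edge_eq_mkEdge e, mapEdge_mkEdge, mapEdge_mkEdge]
  rfl

lemma mapMG_addE (π : Equiv.Perm (Fin n)) (G : MG n) (e : Edge n) :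
    mapMG π (addE G e) = addE (mapMG π G) (mapEdge π e) := by
  funext f
  by_cases h : f = mapEdge π e
  · subst h
    simp only [mapMG, mapEdge_symm_mapEdge, addE_self]
  · rw [addE_of_ne _ h, mapMG, addE_of_ne]
    · rfl
    · intro h'
      exact h (by rw [← h', mapEdge_mapEdge_symm])

lemma mapMG_eq_self (π : Equiv.Perm (Fin n)) (G : MG n)
    (h : ∀ v, 0 < deg G v → π v = v) : mapMG π G = G := by
  funext e
  have key : ∀ f, 0 < G f → mapEdge π f = f := fun f hf => by
    have h1 := h _ (lt_of_lt_of_le hf (le_deg G (e := f) (v := f.1.1) (Or.inl rfl)))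
    have h2 := h _ (lt_of_lt_of_le hf (le_deg G (e := f) (v := f.1.2) (Or.inr rfl)))
    unfold mapEdge
    simp only [h1, h2]
    exact edge_eq_mkEdge f
  unfold mapMG
  rcases Nat.eq_zero_or_pos (G e) with h0 | h0
  · rcases Nat.eq_zero_or_pos (G (mapEdge π.symm e)) with h1 | h1
    · rw [h0, h1]
    · have := key _ h1
      rw [mapEdge_mapEdge_symm] at this
      rw [← this]
  · have := congrArg (mapEdge π.symm) (key e h0)
    rw [mapEdge_symm_mapEdge] at this
    rw [← this]

/-- The walks of one length from one marked start are permuted transitively. -/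
theorem pts_transitive {M : Finset (Fin n)} {r : ℕ} {v : Fin n} {G0 : MG n}
    {p q : Fin n × MG n} (hp : p ∈ pts M r v G0) (hq : q ∈ pts M r v G0) :
    ∃ π : Equiv.Perm (Fin n), (∀ w ∈ M, π w = w) ∧ (∀ w, 0 < deg G0 w → π w = w) ∧
      π p.1 = q.1 ∧ mapMG π p.2 = q.2 ∧ mapMG π G0 = G0 := by
  induction r generalizing p q with
  | zero =>
    rw [pts_zero, mem_singleton] at hp hq
    subst hp; subst hq
    exact ⟨1, fun _ _ => rfl, fun _ _ => rfl, rfl, mapMG_eq_self 1 _ (fun _ _ => rfl),
      mapMG_eq_self 1 _ (fun _ _ => rfl)⟩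
  | succ r ih =>
    rw [pts_succ, mem_biUnion] at hp hq
    obtain ⟨s, hs, hsp⟩ := hp
    obtain ⟨t, ht, htq⟩ := hq
    obtain ⟨l, hl, hf, rfl⟩ := mem_freshStep.1 hsp
    obtain ⟨l', hl', hf', rfl⟩ := mem_freshStep.1 htq
    obtain ⟨π, h1, h2, h3, h4, -⟩ := ih hs ht
    have hπl : deg t.2 (π l) = 0 := by rw [← h4, deg_mapMG_apply, hf.1]
    have hπlM : π l ∉ M := fun h => hf.2 (by
      have := π.injective (h1 _ h)
      rwa [this] at h)
    have hfix : ∀ w, 0 < deg t.2 w → Equiv.swap (π l) l' w = w := fun w hw =>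
      Equiv.swap_apply_of_ne_of_ne (fun e => by rw [e, hπl] at hw; omega)
        (fun e => by rw [e, hf'.1] at hw; omega)
    have hM : ∀ w ∈ M, Equiv.swap (π l) l' w = w := fun w hw =>
      Equiv.swap_apply_of_ne_of_ne (fun e => hπlM (e ▸ hw)) (fun e => hf'.2 (e ▸ hw))
    have ht1 : Equiv.swap (π l) l' t.1 = t.1 :=
      Equiv.swap_apply_of_ne_of_ne (fun e => hl (π.injective (h3.trans e))) hl'
    have g2 : ∀ w, 0 < deg G0 w → (Equiv.swap (π l) l' * π) w = w := fun w hw => by
      rw [Equiv.Perm.mul_apply, h2 w hw, hfix w (lt_of_lt_of_le hw (pts_deg_le ht w))]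
    refine ⟨Equiv.swap (π l) l' * π, fun w hw => ?_, g2, ?_, ?_, mapMG_eq_self _ _ g2⟩
    · rw [Equiv.Perm.mul_apply, h1 w hw, hM w hw]
    · exact Equiv.swap_apply_left _ _
    · show mapMG (Equiv.swap (π l) l' * π) (addE s.2 (mkEdge s.1 l hl)) = addE t.2 (mkEdge t.1 l' hl')
      rw [mapMG_addE, mapMG_mul, h4, mapMG_eq_self _ _ hfix, mapEdge_mkEdge]
      congr 1
      simp only [Equiv.Perm.mul_apply, h3, ht1, Equiv.swap_apply_left]

/-! ### Extraction -/

/-- In a multigraph of small degrees an end of degree one starts a clean walk back to a mark. -/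
theorem exists_path {M : Finset (Fin n)} {G : MG n} {u : Fin n} (hu : u ∉ M)
    (hd : deg G u = 1) (h2 : ∀ w, deg G w ≤ 2) (hM : ∀ w ∈ M, deg G w ≤ 1)
    (heven : ∀ w, w ∉ M → w ≠ u → deg G w % 2 = 0) :
    ∃ r v G0, 1 ≤ r ∧ v ∈ M ∧ deg G0 v = 0 ∧ size G0 + r = size G ∧
      (u, G) ∈ pts M r v G0 := by
  suffices H : ∀ (k : ℕ) (G : MG n) (u : Fin n), size G = k → u ∉ M → deg G u = 1 →
      (∀ w, deg G w ≤ 2) → (∀ w ∈ M, deg G w ≤ 1) →
      (∀ w, w ∉ M → w ≠ u → deg G w % 2 = 0) →
      ∃ r v G0, 1 ≤ r ∧ v ∈ M ∧ deg G0 v = 0 ∧ (u, G) ∈ pts M r v G0 by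
    obtain ⟨r, v, G0, hr, hv, h0, hp⟩ := H _ G u rfl hu hd h2 hM heven
    exact ⟨r, v, G0, hr, hv, h0, (pts_size hp).symm, hp⟩
  clear hu hd h2 hM heven
  intro k
  induction k using Nat.strong_induction_on with
  | _ k ih =>
    intro G u hk hu hd h2 hM heven
    obtain ⟨l, hl, he⟩ := exists_edge_of_deg (G := G) (u := u) (by omega)
    have hdl : ∀ w, deg (delE G (mkEdge u l hl)) w + (if w = u ∨ w = l then 1 else 0) = deg G w :=
      fun w => by
        have := deg_delE G _ he w
        simpa only [inc_mkEdge] using this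
    have hGu : deg (delE G (mkEdge u l hl)) u = 0 := by
      have := hdl u; simp at this; omega
    have hGl : deg (delE G (mkEdge u l hl)) l + 1 = deg G l := by
      have := hdl l; simp at this; omega
    have hback : ∀ {r v G0}, (l, delE G (mkEdge u l hl)) ∈ pts M r v G0 →
        (u, G) ∈ pts M (r + 1) v G0 := fun hp => by
      rw [pts_succ, mem_biUnion]
      refine ⟨_, hp, mem_freshStep.2 ⟨u, hl.symm, ⟨hGu, hu⟩, Prod.ext rfl ?_⟩⟩
      show G = addE (delE G (mkEdge u l hl)) (mkEdge l u hl.symm)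
      rw [mkEdge_symm u l hl, addE_delE G _ he]
    by_cases hlM : l ∈ M
    · have := hM l hlM
      exact ⟨1, l, delE G (mkEdge u l hl), le_rfl, hlM, by omega,
        hback (by rw [pts_zero, mem_singleton])⟩
    · have hev := heven l hlM hl.symm
      have h2l := h2 l
      have hdle : ∀ w, deg (delE G (mkEdge u l hl)) w ≤ deg G w := fun w => by
        have := hdl w; omega
      obtain ⟨r, v, G0, hr, hv, h0, hp⟩ := ih _ (by have := size_delE G _ he; omega)
        (delE G (mkEdge u l hl)) l rfl hlM (by omega) (fun w => (hdle w).trans (h2 w))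
        (fun w hw => (hdle w).trans (hM w hw)) (fun w hw hwl => by
          by_cases hwu : w = u
          · rw [hwu, hGu]
          · have h1 := hdl w
            simp only [hwu, hwl, or_self, if_false, add_zero] at h1
            rw [h1]; exact heven w hw hwu)
      exact ⟨r + 1, v, G0, by omega, hv, h0, hback hp⟩

end

end Vale.Agent.P146.Super
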