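import Vale.Agent.P146.Super.Defs

/-!
# P146, superconcentration: elementary facts about multigraphs
-/

namespace Vale.Agent.P146.Super

open Finset

noncomputable section

variable {n : ℕ}

lemma mkEdge_symm (u l : Fin n) (h : u ≠ l) : mkEdge l u h.symm = mkEdge u l h := by
  unfold mkEdge
  rcases lt_trichotomy u l with h1 | h1 | h1
  · rw [dif_pos h1, dif_neg (not_lt.2 h1.le)]
  · exact absurd h1 h
  · rw [dif_neg (not_lt.2 h1.le), dif_pos h1]

lemma inc_mkEdge (u l : Fin n) (h : u ≠ l) (v : Fin n) :
    inc v (mkEdge u l h) ↔ v = u ∨ v = l := by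
  unfold inc mkEdge
  split <;> simp [eq_comm, or_comm]

lemma inc_mkEdge_left (u l : Fin n) (h : u ≠ l) : inc u (mkEdge u l h) :=
  (inc_mkEdge u l h u).2 (Or.inl rfl)

lemma inc_mkEdge_right (u l : Fin n) (h : u ≠ l) : inc l (mkEdge u l h) :=
  (inc_mkEdge u l h l).2 (Or.inr rfl)

/-- An edge at a vertex is the edge to its other end. -/
lemma exists_other {u : Fin n} {e : Edge n} (he : inc u e) :
    ∃ l, ∃ h : u ≠ l, mkEdge u l h = e := by
  obtain ⟨⟨a, b⟩, hab⟩ := e
  have hne : a ≠ b := ne_of_lt hab
  rcases he with h1 | h1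
  · subst h1
    exact ⟨b, hne, by rw [mkEdge, dif_pos hab]⟩
  · subst h1
    exact ⟨a, hne.symm, by rw [mkEdge, dif_neg (not_lt.2 hab.le)]⟩

lemma mkEdge_inj {u l l' : Fin n} (h : u ≠ l) (h' : u ≠ l')
    (he : mkEdge u l h = mkEdge u l' h') : l = l' := by
  have h1 : inc l (mkEdge u l' h') := he ▸ inc_mkEdge_right u l h
  rcases (inc_mkEdge u l' h' l).1 h1 with h2 | h2
  · exact absurd h2.symm h
  · exact h2

@[simp] lemma addE_self (G : MG n) (e : Edge n) : addE G e e = G e + 1 := by simp [addE]

lemma addE_of_ne (G : MG n) {e f : Edge n} (h : f ≠ e) : addE G e f = G f := by simp [addE, h]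

@[simp] lemma delE_self (G : MG n) (e : Edge n) : delE G e e = G e - 1 := by simp [delE]

lemma delE_of_ne (G : MG n) {e f : Edge n} (h : f ≠ e) : delE G e f = G f := by simp [delE, h]

lemma addE_delE (G : MG n) (e : Edge n) (h : 0 < G e) : addE (delE G e) e = G := by
  funext f
  by_cases hf : f = e
  · subst hf; rw [addE_self, delE_self]; omega
  · rw [addE_of_ne _ hf, delE_of_ne _ hf]

lemma delE_addE (G : MG n) (e : Edge n) : delE (addE G e) e = G := by
  funext f
  by_cases hf : f = e
  · subst hf; rw [delE_self, addE_self]; omega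
  · rw [delE_of_ne _ hf, addE_of_ne _ hf]

lemma size_addE (G : MG n) (e : Edge n) : size (addE G e) = size G + 1 := by
  unfold size addE
  rw [Finset.sum_update_of_mem (mem_univ e), ← Finset.add_sum_erase univ G (mem_univ e),
    Finset.erase_eq]
  omega

lemma size_delE (G : MG n) (e : Edge n) (h : 0 < G e) : size (delE G e) + 1 = size G := by
  conv_rhs => rw [← addE_delE G e h]
  rw [size_addE]

lemma size_delE_le (G : MG n) (e : Edge n) : size (delE G e) ≤ size G := by
  refine Finset.sum_le_sum fun f _ => ?_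
  by_cases hf : f = e
  · subst hf; rw [delE_self]; omega
  · rw [delE_of_ne _ hf]

lemma le_size (G : MG n) (e : Edge n) : G e ≤ size G :=
  Finset.single_le_sum (f := G) (fun _ _ => Nat.zero_le _) (mem_univ e)

lemma mem_multi {k : ℕ} {G : MG n} : G ∈ multi n k ↔ size G ≤ k := by
  unfold multi
  rw [mem_filter, Fintype.mem_piFinset]
  exact ⟨fun h => h.2, fun h => ⟨fun e => mem_range.2 (Nat.lt_succ_of_le ((le_size G e).trans h)), h⟩⟩

lemma deg_addE (G : MG n) (e : Edge n) (v : Fin n) :
    deg (addE G e) v = deg G v + if inc v e then 1 else 0 := by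
  unfold deg
  rw [← Finset.add_sum_erase univ (fun f => if inc v f then addE G e f else 0) (mem_univ e),
    ← Finset.add_sum_erase univ (fun f => if inc v f then G f else 0) (mem_univ e)]
  rw [Finset.sum_congr rfl fun f hf => by rw [addE_of_ne G (ne_of_mem_erase hf)]]
  simp only [addE_self]
  split <;> omega

lemma deg_delE (G : MG n) (e : Edge n) (h : 0 < G e) (v : Fin n) :
    deg (delE G e) v + (if inc v e then 1 else 0) = deg G v := by
  conv_rhs => rw [← addE_delE G e h]
  rw [deg_addE]

lemma le_deg (G : MG n) {e : Edge n} {v : Fin n} (h : inc v e) : G e ≤ deg G v := by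
  have h1 := Finset.single_le_sum (f := fun f => if inc v f then G f else 0)
    (fun _ _ => Nat.zero_le _) (mem_univ e)
  simp only [if_pos h] at h1
  exact h1

lemma deg_le_size (G : MG n) (v : Fin n) : deg G v ≤ size G :=
  Finset.sum_le_sum fun f _ => by split <;> omega

lemma exists_edge_of_deg {G : MG n} {u : Fin n} (h : 0 < deg G u) :
    ∃ l, ∃ hl : u ≠ l, 0 < G (mkEdge u l hl) := by
  obtain ⟨e, -, he⟩ := Finset.exists_ne_zero_of_sum_ne_zero (Nat.ne_of_gt h)
  by_cases hi : inc u e
  · rw [if_pos hi] at he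
    obtain ⟨l, hl, rfl⟩ := exists_other hi
    exact ⟨l, hl, Nat.pos_of_ne_zero he⟩
  · rw [if_neg hi] at he; exact absurd rfl he

/-- At a vertex of degree one there is only one edge. -/
lemma unique_edge_of_deg_one {G : MG n} {u : Fin n} (h : deg G u = 1) {e f : Edge n}
    (he : inc u e) (hf : inc u f) (he0 : 0 < G e) (hf0 : 0 < G f) : e = f := by
  by_contra hne
  have h1 := Finset.sum_le_sum_of_subset (f := fun x => if inc u x then G x else 0)
    (Finset.subset_univ ({e, f} : Finset (Edge n)))
  rw [Finset.sum_pair hne, if_pos he, if_pos hf] at h1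
  unfold deg at h
  omega

lemma sum_deg (G : MG n) : ∑ v, deg G v = 2 * size G := by
  unfold deg size
  rw [Finset.sum_comm, Finset.mul_sum]
  refine Finset.sum_congr rfl fun e _ => ?_
  have h : (univ.filter fun v => inc v e) = {e.1.1, e.1.2} := by
    ext v; simp [inc, eq_comm]
  rw [← Finset.sum_filter, h, Finset.sum_pair (ne_of_lt e.2)]
  omega

/-- Few vertices meet an edge. -/
lemma card_supp_le (G : MG n) : (univ.filter fun v => 0 < deg G v).card ≤ 2 * size G := by
  rw [← sum_deg G]
  calc (univ.filter fun v => 0 < deg G v).card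
      = ∑ _v ∈ univ.filter (fun v => 0 < deg G v), 1 := by rw [Finset.card_eq_sum_ones]
    _ ≤ ∑ v ∈ univ.filter (fun v => 0 < deg G v), deg G v :=
        Finset.sum_le_sum fun v hv => (mem_filter.1 hv).2
    _ ≤ ∑ v, deg G v := Finset.sum_le_sum_of_subset (filter_subset _ _)

/-- Few vertices are not fresh. -/
lemma card_old_le (M : Finset (Fin n)) (G : MG n) :
    (univ.filter fun l => ¬ Fresh M G l).card ≤ 2 * size G + M.card := by
  refine (card_le_card (t := (univ.filter fun v => 0 < deg G v) ∪ M) ?_).trans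
    ((card_union_le _ _).trans (Nat.add_le_add_right (card_supp_le G) _))
  intro l hl
  simp only [mem_filter, mem_univ, true_and, Fresh, mem_union] at hl ⊢
  by_cases h : deg G l = 0
  · exact Or.inr (by simpa [h] using hl)
  · exact Or.inl (Nat.pos_of_ne_zero h)

/-- A fresh vertex has no edges. -/
lemma fresh_edge {M : Finset (Fin n)} {G : MG n} {l : Fin n} (hl : Fresh M G l) {u : Fin n}
    (h : u ≠ l) : G (mkEdge u l h) = 0 :=
  Nat.le_zero.1 (hl.1 ▸ le_deg G (inc_mkEdge_right u l h))

end

end Vale.Agent.P146.Super
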