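import Vale.Agent.P146.Defs
import Mathlib.Probability.Distributions.Gaussian.Real
import Mathlib.MeasureTheory.Integral.Bochner.Basic
import Mathlib.MeasureTheory.Constructions.Pi
import Mathlib.Data.Fintype.BigOperators
import Mathlib.Analysis.SpecialFunctions.Sqrt

/-!
# P146, superconcentration: basic objects

Multigraphs on the complete graph, normalised Hermite products, replica monomials of the Gibbs
measure and non-backtracking walk sums.
-/

namespace Vale.Agent.P146.Super

open MeasureTheory ProbabilityTheory Finset

noncomputable section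

variable {n : ℕ}

/-- The law of the couplings. -/
abbrev law (n : ℕ) : Measure (Edge n → ℝ) := Measure.pi fun _ : Edge n => gaussianReal 0 1

/-- A multigraph on the vertices `Fin n`, given by edge multiplicities. -/
abbrev MG (n : ℕ) := Edge n → ℕ

/-- Incidence of a vertex and an edge. -/
def inc (v : Fin n) (e : Edge n) : Prop := e.1.1 = v ∨ e.1.2 = v

instance (v : Fin n) (e : Edge n) : Decidable (inc v e) := by unfold inc; infer_instance

/-- The edge joining two different vertices. -/
def mkEdge (u l : Fin n) (h : u ≠ l) : Edge n :=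
  if hlt : u < l then ⟨(u, l), hlt⟩ else ⟨(l, u), lt_of_le_of_ne (not_lt.1 hlt) (Ne.symm h)⟩

/-- Number of edges, with multiplicity. -/
def size (G : MG n) : ℕ := ∑ e, G e

/-- Degree of a vertex, with multiplicity. -/
def deg (G : MG n) (v : Fin n) : ℕ := ∑ e, if inc v e then G e else 0

/-- Add one copy of an edge. -/
def addE (G : MG n) (e : Edge n) : MG n := Function.update G e (G e + 1)

/-- Remove one copy of an edge. -/
def delE (G : MG n) (e : Edge n) : MG n := Function.update G e (G e - 1)

/-- The multigraphs with at most `k` edges. -/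
def multi (n k : ℕ) : Finset (MG n) :=
  (Fintype.piFinset fun _ : Edge n => Finset.range (k + 1)).filter fun G => size G ≤ k

/-- Hermite polynomials, orthonormal for the standard Gaussian law. -/
def herm : ℕ → ℝ → ℝ
  | 0, _ => 1
  | 1, x => x
  | k + 2, x => (x * herm (k + 1) x - Real.sqrt ((k : ℝ) + 1) * herm k x) / Real.sqrt ((k : ℝ) + 2)

/-- The product Hermite function of a multigraph. -/
def hG (G : MG n) (g : Edge n → ℝ) : ℝ := ∏ e, herm (G e) (g e)

/-- A Hermite coefficient. -/
def coef (f : (Edge n → ℝ) → ℝ) (G : MG n) : ℝ := ∫ g, f g * hG G g ∂law n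

/-- The Gibbs weights. -/
def gibbs (β : ℝ) (g : Edge n → ℝ) (σ : Fin n → Bool) : ℝ :=
  Real.exp (β * energy g σ) / ∑ τ, Real.exp (β * energy g τ)

/-- For every mark, the set of replicas whose spin is taken there. -/
abbrev Spec (m R : ℕ) := Fin m → Finset (Fin R)

/-- The replicated Gibbs average of the spin monomial of a specification placed at `x`. -/
def obs (β : ℝ) {m R : ℕ} (mon : Spec m R) (x : Fin m → Fin n) (g : Edge n → ℝ) : ℝ :=
  ∑ s : Fin R → Fin n → Bool,
    (∏ r, gibbs β g (s r)) * ∏ i, ∏ r ∈ mon i, spinVal (s r (x i))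

/-- Twice the expected power of `n` lost at a vertex of degree `d`. -/
def phi2 (d : ℕ) (marked : Bool) : ℕ :=
  if d % 2 = 1 then 1 else if d = 0 ∧ marked then 2 else 0

/-- The bonus exponent of a vertex of degree `d`. -/
def omega (d : ℕ) (marked : Bool) : ℤ :=
  if d % 2 = 1 then (((d - 1) / 2 : ℕ) : ℤ)
  else if 4 ≤ d then ((d / 2 - 2 : ℕ) : ℤ)
  else if d = 2 ∧ marked then -1 else 0

/-- The weight of one vertex. -/
def wv (n : ℕ) (η : ℝ) (d : ℕ) (marked : Bool) : ℝ :=
  ((Real.sqrt n) ^ phi2 d marked)⁻¹ * η ^ omega d marked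

/-- The weight of a marked multigraph. -/
def weight (η : ℝ) {m : ℕ} (x : Fin m → Fin n) (G : MG n) : ℝ :=
  ∏ v, wv n η (deg G v) (decide (∃ i, x i = v))

open Classical in
/-- The injective placements of `m` marks. -/
def places (n m : ℕ) : Finset (Fin m → Fin n) := Finset.univ.filter Function.Injective

/-- The weighted mass of the low Hermite coefficients of a specification. -/
def mass (β η : ℝ) (n k : ℕ) {m R : ℕ} (mon : Spec m R) : ℝ :=
  ∑ x ∈ places n m, ∑ G ∈ multi n k, coef (obs β mon x) G ^ 2 * weight η x G

/-- The image of an edge under a relabelling of the vertices. -/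
def mapEdge (π : Equiv.Perm (Fin n)) (e : Edge n) : Edge n :=
  mkEdge (π e.1.1) (π e.1.2) fun h => (ne_of_lt e.2) (π.injective h)

/-- The image of a multigraph under a relabelling of the vertices. -/
def mapMG (π : Equiv.Perm (Fin n)) (G : MG n) : MG n := fun e => G (mapEdge π.symm e)

/-- The scaled symmetric matrix of couplings, with zero diagonal. -/
def jmat (g : Edge n → ℝ) (u l : Fin n) : ℝ :=
  if h : u = l then 0 else g (mkEdge u l h) / Real.sqrt n

/-- Non-backtracking walk sums: walks of length `r` from `u` whose first step avoids `p`,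
contracted with `z` at the far end. The choice `p = u` puts no restriction. -/
def nbw (g : Edge n → ℝ) (z : Fin n → ℝ) : ℕ → Fin n → Fin n → ℝ
  | 0, _, u => z u
  | r + 1, p, u => ∑ l, if l = p then 0 else jmat g u l * nbw g z r u l

/-- The Hermite expansion of `hG G * nbw g z r p u`, applied to a function of the far end and of
the resulting multigraph. -/
def zval : ℕ → Fin n → Fin n → MG n → (Fin n → MG n → ℝ) → ℝ
  | 0, _, u, G, f => f u G
  | r + 1, p, u, G, f => ∑ l, if h : u = l then 0 else if l = p then 0 else
      (Real.sqrt ((G (mkEdge u l h) : ℝ) + 1) * zval r u l (addE G (mkEdge u l h)) f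
        + Real.sqrt (G (mkEdge u l h) : ℝ) * zval r u l (delE G (mkEdge u l h)) f) / Real.sqrt n

/-- A fresh vertex: no edges and no marks. -/
def Fresh (M : Finset (Fin n)) (G : MG n) (l : Fin n) : Prop := deg G l = 0 ∧ l ∉ M

instance (M : Finset (Fin n)) (G : MG n) (l : Fin n) : Decidable (Fresh M G l) := by
  unfold Fresh; infer_instance

/-- The walks made only of fresh steps. -/
def cleanVal (M : Finset (Fin n)) : ℕ → Fin n → MG n → (Fin n → MG n → ℝ) → ℝ
  | 0, u, G, f => f u G
  | r + 1, u, G, f => ∑ l, if h : u = l then 0 else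
      if Fresh M G l then cleanVal M r l (addE G (mkEdge u l h)) f / Real.sqrt n else 0

/-- The parity rule of a placed specification. -/
def ParityOK {m R : ℕ} (mon : Spec m R) (x : Fin m → Fin n) (G : MG n) : Prop :=
  ∀ v, deg G v % 2 = (∑ i ∈ Finset.univ.filter (fun i => x i = v), (mon i).card) % 2

/-- The multigraphs without branch points and without interior marks. -/
def Terminal {m : ℕ} (x : Fin m → Fin n) (G : MG n) : Prop :=
  ∀ v, deg G v ≤ 2 ∧ ((∃ i, x i = v) → deg G v ≤ 1)

end

end Vale.Agent.P146.Super
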