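import Mathlib
import Vale.Agent.P146.Super.Defs
import Vale.Agent.P146.Super.Graph

/-!
# P146, superconcentration: Hermite expansion on Gaussian space

Orthonormality and completeness of the product Hermite functions, integration by parts for
Hermite coefficients, and the variance bound by low coefficients of the gradient plus a tail.
-/

namespace Vale.Agent.P146.Super

open MeasureTheory ProbabilityTheory Finset
open scoped ENNReal NNReal InnerProductSpace

noncomputable section

/-! ## One variable -/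

lemma sqrt_ne_zero_cast (k : ℕ) : Real.sqrt ((k : ℝ) + 1) ≠ 0 :=
  (Real.sqrt_pos.2 (by positivity)).ne'

/-- The three term recursion. -/
theorem mul_herm (k : ℕ) (x : ℝ) :
    x * herm k x = Real.sqrt ((k : ℝ) + 1) * herm (k + 1) x
      + Real.sqrt (k : ℝ) * herm (k - 1) x := by
  cases k with
  | zero => simp [herm]
  | succ k =>
    have h : Real.sqrt ((k : ℝ) + 2) ≠ 0 := (Real.sqrt_pos.2 (by positivity)).ne'
    have hk : (((k + 1 : ℕ) : ℝ) + 1) = (k : ℝ) + 2 := by push_cast; ring
    rw [hk, show (k + 1 : ℕ) + 1 = k + 2 from rfl, show k + 1 - 1 = k from rfl, herm]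
    push_cast
    field_simp
    ring

lemma hasDerivAt_herm : ∀ (k : ℕ) (x : ℝ),
    HasDerivAt (herm k) (Real.sqrt (k : ℝ) * herm (k - 1) x) x
  | 0, x => by
    have : herm 0 = fun _ => (1 : ℝ) := by funext y; simp [herm]
    rw [this]
    simpa using hasDerivAt_const x (1 : ℝ)
  | 1, x => by
    have : herm 1 = fun y => y := by funext y; simp [herm]
    rw [this]
    have hh := hasDerivAt_id x
    simp only [show herm (1 - 1) x = 1 by simp [herm], Nat.cast_one, Real.sqrt_one, one_mul]
    exact hh
  | k + 2, x => by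
    have h1 := hasDerivAt_herm (k + 1) x
    have h0 := hasDerivAt_herm k x
    have hf : herm (k + 2) = fun y =>
        (y * herm (k + 1) y - Real.sqrt ((k : ℝ) + 1) * herm k y) / Real.sqrt ((k : ℝ) + 2) := by
      funext y; rw [herm]
    rw [hf]
    convert! (((hasDerivAt_id x).mul h1).sub (h0.const_mul (Real.sqrt ((k : ℝ) + 1)))).div_const
      (Real.sqrt ((k : ℝ) + 2)) using 1
    simp only [show k + 2 - 1 = k + 1 from rfl, show k + 1 - 1 = k from rfl, id]
    push_cast
    have hm := mul_herm k x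
    have hs : Real.sqrt ((k : ℝ) + 2) ≠ 0 := (Real.sqrt_pos.2 (by positivity)).ne'
    have hsq : Real.sqrt ((k : ℝ) + 2) * Real.sqrt ((k : ℝ) + 2) = (k : ℝ) + 2 :=
      Real.mul_self_sqrt (by positivity)
    have hsq1 : Real.sqrt ((k : ℝ) + 1) * Real.sqrt ((k : ℝ) + 1) = (k : ℝ) + 1 :=
      Real.mul_self_sqrt (by positivity)
    field_simp
    linear_combination herm (k + 1) x * hsq - herm (k + 1) x * hsq1 - Real.sqrt ((k : ℝ) + 1) * hm

lemma continuous_herm (k : ℕ) : Continuous (herm k) :=
  continuous_iff_continuousAt.2 fun x => (hasDerivAt_herm k x).continuousAt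

lemma measurable_herm (k : ℕ) : Measurable (herm k) := (continuous_herm k).measurable

/-- At most exponential growth on the line. -/
def EB (φ : ℝ → ℝ) : Prop :=
  ∃ C a : ℝ, 0 ≤ C ∧ 0 ≤ a ∧ ∀ x, |φ x| ≤ C * Real.exp (a * |x|)

lemma EB.mul {φ ψ : ℝ → ℝ} (hφ : EB φ) (hψ : EB ψ) : EB fun x => φ x * ψ x := by
  obtain ⟨C, a, hC, ha, h⟩ := hφ
  obtain ⟨D, b, hD, hb, h'⟩ := hψ
  refine ⟨C * D, a + b, mul_nonneg hC hD, add_nonneg ha hb, fun x => ?_⟩
  rw [abs_mul, add_mul, Real.exp_add]
  calc |φ x| * |ψ x| ≤ (C * Real.exp (a * |x|)) * (D * Real.exp (b * |x|)) :=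
        mul_le_mul (h x) (h' x) (abs_nonneg _) (by positivity)
    _ = _ := by ring

lemma EB.add {φ ψ : ℝ → ℝ} (hφ : EB φ) (hψ : EB ψ) : EB fun x => φ x + ψ x := by
  obtain ⟨C, a, hC, ha, h⟩ := hφ
  obtain ⟨D, b, hD, hb, h'⟩ := hψ
  refine ⟨C + D, a + b, add_nonneg hC hD, add_nonneg ha hb, fun x => ?_⟩
  have e1 : Real.exp (a * |x|) ≤ Real.exp ((a + b) * |x|) :=
    Real.exp_le_exp.2 (by nlinarith [abs_nonneg x])
  have e2 : Real.exp (b * |x|) ≤ Real.exp ((a + b) * |x|) :=
    Real.exp_le_exp.2 (by nlinarith [abs_nonneg x])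
  rw [add_mul]
  exact (abs_add_le _ _).trans (add_le_add
    ((h x).trans (mul_le_mul_of_nonneg_left e1 hC))
    ((h' x).trans (mul_le_mul_of_nonneg_left e2 hD)))

lemma EB.const (c : ℝ) : EB fun _ => c :=
  ⟨|c|, 0, abs_nonneg _, le_rfl, fun x => by simp⟩

lemma EB.id' : EB fun x => x :=
  ⟨1, 1, zero_le_one, zero_le_one, fun x => by
    simpa using (show |x| ≤ Real.exp |x| by linarith [Real.add_one_le_exp |x|])⟩

lemma EB.const_mul {φ : ℝ → ℝ} (hφ : EB φ) (c : ℝ) : EB fun x => c * φ x := (EB.const c).mul hφ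

lemma eb_herm : ∀ k : ℕ, EB (herm k)
  | 0 => by
    have : herm 0 = fun _ => (1 : ℝ) := by funext y; simp [herm]
    rw [this]; exact EB.const 1
  | 1 => by
    have : herm 1 = fun y => y := by funext y; simp [herm]
    rw [this]; exact EB.id'
  | k + 2 => by
    have hf : herm (k + 2) = fun y => (Real.sqrt ((k : ℝ) + 2))⁻¹ *
        (y * herm (k + 1) y + -Real.sqrt ((k : ℝ) + 1) * herm k y) := by
      funext y; rw [herm, div_eq_inv_mul]; ring
    rw [hf]
    exact ((EB.id'.mul (eb_herm (k + 1))).add ((eb_herm k).const_mul _)).const_mul _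

lemma integrable_exp_abs (a : ℝ) :
    Integrable (fun x => Real.exp (a * |x|)) (gaussianReal 0 1) := by
  refine ((integrable_exp_mul_gaussianReal a).add (integrable_exp_mul_gaussianReal (-a))).mono'
    (Continuous.aestronglyMeasurable (by fun_prop)) (ae_of_all _ fun x => ?_)
  rw [Real.norm_eq_abs, Real.abs_exp, Pi.add_apply]
  rcases le_total 0 x with h | h
  · rw [abs_of_nonneg h]; linarith [Real.exp_pos (-a * x)]
  · rw [abs_of_nonpos h, mul_neg, ← neg_mul]; linarith [Real.exp_pos (a * x)]

lemma EB.integrable {φ : ℝ → ℝ} (hφ : EB φ) (hm : Measurable φ) :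
    Integrable φ (gaussianReal 0 1) := by
  obtain ⟨C, a, -, -, h⟩ := hφ
  exact ((integrable_exp_abs a).const_mul C).mono' hm.aestronglyMeasurable (ae_of_all _ h)

lemma gauss_pdf_deriv (x : ℝ) :
    HasDerivAt (gaussianPDFReal 0 1) (-x * gaussianPDFReal 0 1 x) x := by
  have h : gaussianPDFReal 0 1
      = fun y => (Real.sqrt (2 * Real.pi))⁻¹ * Real.exp (-(y ^ 2) / 2) := by
    funext y; simp [gaussianPDFReal]
  rw [h]
  convert! (((hasDerivAt_pow 2 x).neg.div_const 2).exp).const_mul
    ((Real.sqrt (2 * Real.pi))⁻¹) using 1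
  simp
  ring

lemma integrable_pdf_mul {f : ℝ → ℝ} (hf : Integrable f (gaussianReal 0 1)) :
    Integrable fun x => gaussianPDFReal 0 1 x * f x := by
  rw [gaussianReal_of_var_ne_zero _ one_ne_zero,
    integrable_withDensity_iff (measurable_gaussianPDF 0 1) (ae_of_all _ fun x => by
      simp [gaussianPDF])] at hf
  refine hf.congr (ae_of_all _ fun x => ?_)
  simp [gaussianPDF, ENNReal.toReal_ofReal (gaussianPDFReal_nonneg 0 1 x), mul_comm]

/-- Gaussian integration by parts on the line. -/
theorem stein {F F' : ℝ → ℝ} (hF : ∀ x, HasDerivAt F (F' x) x) (hb : EB F) (hb' : EB F') :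
    ∫ x, x * F x ∂gaussianReal 0 1 = ∫ x, F' x ∂gaussianReal 0 1 := by
  have hFm : Measurable F := (continuous_iff_continuousAt.2 fun x => (hF x).continuousAt).measurable
  have hF'm : Measurable F' := by
    rw [show F' = deriv F from funext fun x => (hF x).deriv.symm]
    exact measurable_deriv F
  have hxF := integrable_pdf_mul ((EB.id'.mul hb).integrable (measurable_id.mul hFm))
  have hF'i := integrable_pdf_mul (hb'.integrable hF'm)
  have hFi := integrable_pdf_mul (hb.integrable hFm)
  have h := integral_mul_deriv_eq_deriv_mul_of_integrable (u := F) (u' := F')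
    (v := gaussianPDFReal 0 1) (v' := fun x => -x * gaussianPDFReal 0 1 x)
    (fun x _ => hF x) (fun x _ => gauss_pdf_deriv x)
    (hxF.neg.congr (ae_of_all _ fun x => by simp only [Pi.neg_apply, Pi.mul_apply]; ring))
    (hF'i.congr (ae_of_all _ fun x => by simp only [Pi.mul_apply]; ring))
    (hFi.congr (ae_of_all _ fun x => by simp only [Pi.mul_apply]; ring))
  rw [integral_gaussianReal_eq_integral_smul one_ne_zero,
    integral_gaussianReal_eq_integral_smul one_ne_zero]
  simp only [smul_eq_mul]
  calc ∫ x, gaussianPDFReal 0 1 x * (x * F x)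
      = -∫ x, F x * (-x * gaussianPDFReal 0 1 x) := by
        rw [← integral_neg]; congr 1; funext x; ring
    _ = ∫ x, gaussianPDFReal 0 1 x * F' x := by
        rw [h, neg_neg]; congr 1; funext x; ring

/-- Integration by parts for one Hermite coefficient. -/
lemma integral_mul_herm {φ φ' : ℝ → ℝ} (hφ : ∀ x, HasDerivAt φ (φ' x) x) (hb : EB φ)
    (hb' : EB φ') (k : ℕ) :
    Real.sqrt ((k : ℝ) + 1) * ∫ x, φ x * herm (k + 1) x ∂gaussianReal 0 1
      = ∫ x, φ' x * herm k x ∂gaussianReal 0 1 := by
  have hφm : Measurable φ :=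
    (continuous_iff_continuousAt.2 fun x => (hφ x).continuousAt).measurable
  have hφ'm : Measurable φ' := by
    rw [show φ' = deriv φ from funext fun x => (hφ x).deriv.symm]
    exact measurable_deriv φ
  have h := stein (F := fun x => φ x * herm k x)
    (F' := fun x => φ' x * herm k x + φ x * (Real.sqrt (k : ℝ) * herm (k - 1) x))
    (fun x => (hφ x).mul (hasDerivAt_herm k x)) (hb.mul (eb_herm k))
    ((hb'.mul (eb_herm k)).add (hb.mul ((eb_herm _).const_mul _)))
  have i1 : Integrable (fun x => φ' x * herm k x) (gaussianReal 0 1) :=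
    (hb'.mul (eb_herm k)).integrable (hφ'm.mul (measurable_herm k))
  have i2 : Integrable (fun x => φ x * (Real.sqrt (k : ℝ) * herm (k - 1) x)) (gaussianReal 0 1) :=
    (hb.mul ((eb_herm _).const_mul _)).integrable (hφm.mul ((measurable_herm _).const_mul _))
  have i3 : Integrable (fun x => φ x * (Real.sqrt ((k : ℝ) + 1) * herm (k + 1) x))
      (gaussianReal 0 1) :=
    (hb.mul ((eb_herm _).const_mul _)).integrable (hφm.mul ((measurable_herm _).const_mul _))
  have hl : (fun x => x * (φ x * herm k x)) = fun x =>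
      φ x * (Real.sqrt ((k : ℝ) + 1) * herm (k + 1) x)
        + φ x * (Real.sqrt (k : ℝ) * herm (k - 1) x) := by
    funext x; rw [← mul_add, ← mul_herm]; ring
  rw [hl, integral_add i3 i2, integral_add i1 i2] at h
  rw [← integral_const_mul]
  calc ∫ x, Real.sqrt ((k : ℝ) + 1) * (φ x * herm (k + 1) x) ∂gaussianReal 0 1
      = ∫ x, φ x * (Real.sqrt ((k : ℝ) + 1) * herm (k + 1) x) ∂gaussianReal 0 1 := by
        congr 1; funext x; ring
    _ = _ := by linarith

/-- Orthonormality on the line. -/
theorem integral_herm_herm : ∀ a b : ℕ,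
    ∫ x, herm a x * herm b x ∂gaussianReal 0 1 = if a = b then 1 else 0
  | 0, 0 => by simp [herm]
  | 0, b + 1 => by
    have h := integral_mul_herm (φ := fun _ => (1 : ℝ)) (φ' := fun _ => 0)
      (fun x => hasDerivAt_const x 1) (EB.const 1) (EB.const 0) b
    simp only [one_mul, zero_mul, integral_zero, mul_eq_zero, sqrt_ne_zero_cast b, false_or] at h
    simp [herm, h]
  | a + 1, b => by
    have h := integral_mul_herm (φ := herm b) (φ' := fun x => Real.sqrt (b : ℝ) * herm (b - 1) x)
      (hasDerivAt_herm b) (eb_herm b) ((eb_herm _).const_mul _) a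
    have hc : ∫ x, herm (a + 1) x * herm b x ∂gaussianReal 0 1
        = ∫ x, herm b x * herm (a + 1) x ∂gaussianReal 0 1 := by
      congr 1; funext x; ring
    rw [hc]
    refine mul_left_cancel₀ (sqrt_ne_zero_cast a) ?_
    rw [h]
    cases b with
    | zero => simp
    | succ b =>
      have ih := integral_herm_herm a b
      have e : ∫ x, Real.sqrt ((b + 1 : ℕ) : ℝ) * herm (b + 1 - 1) x * herm a x ∂gaussianReal 0 1
          = Real.sqrt ((b + 1 : ℕ) : ℝ) * ∫ x, herm a x * herm b x ∂gaussianReal 0 1 := by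
        rw [← integral_const_mul]; congr 1; funext x
        rw [show b + 1 - 1 = b from rfl]; ring
      rw [e, ih]
      by_cases hab : a = b
      · subst hab; simp
      · simp [hab]

/-! ## Several variables -/

variable {n : ℕ}

/-- At most exponential growth in the couplings. -/
def EM (f : (Edge n → ℝ) → ℝ) : Prop :=
  ∃ C a : ℝ, 0 ≤ C ∧ 0 ≤ a ∧ ∀ g, |f g| ≤ C * Real.exp (a * ∑ e, |g e|)

lemma EM.mul {f h : (Edge n → ℝ) → ℝ} (hf : EM f) (hh : EM h) : EM fun g => f g * h g := by
  obtain ⟨C, a, hC, ha, h1⟩ := hf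
  obtain ⟨D, b, hD, hb, h2⟩ := hh
  refine ⟨C * D, a + b, mul_nonneg hC hD, add_nonneg ha hb, fun g => ?_⟩
  rw [abs_mul, add_mul, Real.exp_add]
  calc |f g| * |h g| ≤ (C * Real.exp (a * ∑ e, |g e|)) * (D * Real.exp (b * ∑ e, |g e|)) :=
        mul_le_mul (h1 g) (h2 g) (abs_nonneg _) (by positivity)
    _ = _ := by ring

lemma em_of_linear {f : (Edge n → ℝ) → ℝ} {a b : ℝ}
    (h : ∀ g, |f g| ≤ a + b * ∑ e, |g e|) : EM f := by
  refine ⟨|a| + |b|, 1, by positivity, zero_le_one, fun g => (h g).trans ?_⟩
  have hs : 0 ≤ ∑ e, |g e| := Finset.sum_nonneg fun _ _ => abs_nonneg _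
  rw [one_mul]
  have h1 := Real.add_one_le_exp (∑ e, |g e|)
  nlinarith [le_abs_self a, le_abs_self b, abs_nonneg a, abs_nonneg b]

lemma integrable_exp_abs_sum (a : ℝ) :
    Integrable (fun g : Edge n → ℝ => Real.exp (a * ∑ e, |g e|)) (law n) := by
  have h := Integrable.fintype_prod (μ := fun _ : Edge n => gaussianReal 0 1)
    (f := fun _ x => Real.exp (a * |x|)) fun _ => integrable_exp_abs a
  refine h.congr (ae_of_all _ fun g => ?_)
  simp [Finset.mul_sum, Real.exp_sum]

lemma EM.integrable {f : (Edge n → ℝ) → ℝ} (hf : EM f) (hm : Measurable f) :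
    Integrable f (law n) := by
  obtain ⟨C, a, -, -, h⟩ := hf
  exact ((integrable_exp_abs_sum a).const_mul C).mono' hm.aestronglyMeasurable (ae_of_all _ h)

lemma EM.memLp {f : (Edge n → ℝ) → ℝ} (hf : EM f) (hm : Measurable f) :
    MemLp f 2 (law n) := by
  rw [memLp_two_iff_integrable_sq hm.aestronglyMeasurable]
  refine ((hf.mul hf).integrable (hm.mul hm)).congr (ae_of_all _ fun g => ?_)
  simp [sq]

lemma em_hG (G : MG n) : EM (hG G) := by
  choose C a hC ha h using fun e : Edge n => eb_herm (G e)
  refine ⟨∏ e, C e, ∑ e, a e, Finset.prod_nonneg fun e _ => hC e,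
    Finset.sum_nonneg fun e _ => ha e, fun g => ?_⟩
  rw [hG, Finset.abs_prod]
  calc ∏ e, |herm (G e) (g e)| ≤ ∏ e, C e * Real.exp (a e * |g e|) :=
        Finset.prod_le_prod (fun e _ => abs_nonneg _) (fun e _ => h e _)
    _ = (∏ e, C e) * Real.exp (∑ e, a e * |g e|) := by
        rw [Finset.prod_mul_distrib, Real.exp_sum]
    _ ≤ _ := by
        refine mul_le_mul_of_nonneg_left (Real.exp_le_exp.2 ?_)
          (Finset.prod_nonneg fun e _ => hC e)
        rw [Finset.sum_mul]
        exact Finset.sum_le_sum fun e _ => mul_le_mul_of_nonneg_left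
          (Finset.single_le_sum (fun i _ => abs_nonneg (g i)) (Finset.mem_univ e)) (ha e)

lemma measurable_hG (G : MG n) : Measurable (hG G) :=
  Finset.measurable_prod _ fun e _ => (measurable_herm _).comp (measurable_pi_apply e)

lemma memLp_hG (G : MG n) : MemLp (hG G) 2 (law n) := (em_hG G).memLp (measurable_hG G)

/-- Orthonormality. -/
theorem integral_hG (G G' : MG n) :
    ∫ g, hG G g * hG G' g ∂law n = if G = G' then 1 else 0 := by
  simp only [hG, ← Finset.prod_mul_distrib]
  rw [integral_fintype_prod_eq_prod (f := fun e x => herm (G e) x * herm (G' e) x)]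
  simp only [integral_herm_herm]
  by_cases h : G = G'
  · subst h; simp
  · obtain ⟨e, he⟩ := Function.ne_iff.1 h
    rw [if_neg h]
    exact Finset.prod_eq_zero (Finset.mem_univ e) (if_neg he)

lemma hG_zero (g : Edge n → ℝ) : hG (0 : MG n) g = 1 := by
  simp [hG, herm]

lemma hG_update (G : MG n) (e : Edge n) (g : Edge n → ℝ) (t : ℝ) (k : ℕ) :
    hG (Function.update G e k) (Function.update g e t)
      = herm k t * ∏ i ∈ Finset.univ.erase e, herm (G i) (g i) := by
  rw [hG, ← Finset.mul_prod_erase _ _ (Finset.mem_univ e)]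
  simp only [Function.update_self]
  congr 1
  refine Finset.prod_congr rfl fun i hi => ?_
  rw [Function.update_of_ne (Finset.ne_of_mem_erase hi), Function.update_of_ne
    (Finset.ne_of_mem_erase hi)]

/-- Multiplication by a coupling. -/
lemma mul_hG (G : MG n) (e : Edge n) (g : Edge n → ℝ) :
    g e * hG G g = Real.sqrt ((G e : ℝ) + 1) * hG (addE G e) g
      + Real.sqrt (G e : ℝ) * hG (delE G e) g := by
  have h : ∀ k, hG (Function.update G e k) g
      = herm k (g e) * ∏ i ∈ Finset.univ.erase e, herm (G i) (g i) := fun k => by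
    simpa using hG_update G e g (g e) k
  have h0 := h (G e)
  rw [Function.update_eq_self] at h0
  rw [addE, delE, h, h, h0, ← mul_assoc, mul_herm]
  ring

lemma map_update_law (e : Edge n) :
    ((law n).prod (gaussianReal 0 1)).map (fun p => Function.update p.1 e p.2) = law n := by
  refine (Measure.pi_eq fun t ht => ?_).symm
  rw [Measure.map_apply measurable_update' (MeasurableSet.univ_pi ht)]
  have hpre : (fun p : (Edge n → ℝ) × ℝ => Function.update p.1 e p.2) ⁻¹' Set.univ.pi t
      = (Set.univ.pi (Function.update t e Set.univ)) ×ˢ t e := by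
    ext ⟨z, x⟩
    simp only [Set.mem_preimage, Set.mem_pi, Set.mem_univ, true_implies, Set.mem_prod]
    constructor
    · intro h
      refine ⟨fun i => ?_, by simpa using h e⟩
      by_cases hi : i = e
      · subst hi; simp
      · simpa [Function.update_of_ne hi] using h i
    · rintro ⟨h1, h2⟩ i
      by_cases hi : i = e
      · subst hi; simpa using h2
      · simpa [Function.update_of_ne hi] using h1 i
  rw [hpre, Measure.prod_prod, Measure.pi_pi,
    ← Finset.mul_prod_erase Finset.univ _ (Finset.mem_univ e),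
    ← Finset.mul_prod_erase Finset.univ (fun i => gaussianReal 0 1 (t i)) (Finset.mem_univ e)]
  simp only [Function.update_self, measure_univ, one_mul]
  rw [mul_comm]
  congr 1
  refine Finset.prod_congr rfl fun i hi => ?_
  rw [Function.update_of_ne (Finset.ne_of_mem_erase hi)]

lemma integral_update (e : Edge n) {f : (Edge n → ℝ) → ℝ} (hf : Measurable f)
    (hi : Integrable f (law n)) :
    ∫ g, f g ∂law n = ∫ g, ∫ t, f (Function.update g e t) ∂gaussianReal 0 1 ∂law n := by
  have hi' : Integrable f (((law n).prod (gaussianReal 0 1)).map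
      fun p => Function.update p.1 e p.2) := by rwa [map_update_law]
  rw [integrable_map_measure hf.aestronglyMeasurable measurable_update'.aemeasurable] at hi'
  conv_lhs => rw [← map_update_law e]
  rw [integral_map measurable_update'.aemeasurable hf.aestronglyMeasurable]
  exact integral_prod _ hi'

lemma sum_abs_update (g : Edge n → ℝ) (e : Edge n) (t : ℝ) :
    ∑ i, |Function.update g e t i| ≤ (∑ i, |g i|) + |t| := by
  rw [← Finset.add_sum_erase _ _ (Finset.mem_univ e), Function.update_self, add_comm]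
  refine add_le_add_left ?_ _ |>.trans_eq rfl
  refine (Finset.sum_le_sum fun i hi => ?_).trans
    (Finset.sum_le_sum_of_subset_of_nonneg (Finset.erase_subset e _) fun i _ _ => abs_nonneg _)
  rw [Function.update_of_ne (Finset.ne_of_mem_erase hi)]

lemma EM.slice {f : (Edge n → ℝ) → ℝ} (hf : EM f) (g : Edge n → ℝ) (e : Edge n) :
    EB fun t => f (Function.update g e t) := by
  obtain ⟨C, a, hC, ha, h⟩ := hf
  refine ⟨C * Real.exp (a * ∑ i, |g i|), a, by positivity, ha, fun t => (h _).trans ?_⟩
  rw [mul_assoc, ← Real.exp_add, ← mul_add]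
  exact mul_le_mul_of_nonneg_left
    (Real.exp_le_exp.2 (mul_le_mul_of_nonneg_left (sum_abs_update g e t) ha)) hC

/-- Integration by parts for a Hermite coefficient. -/
theorem coef_ibp {f fd : (Edge n → ℝ) → ℝ} {a b : ℝ} (hf : Measurable f) (hfd : Measurable fd)
    (hfb : ∀ g, |f g| ≤ a + b * ∑ e, |g e|) (hdb : ∀ g, |fd g| ≤ a + b * ∑ e, |g e|)
    (e : Edge n) (hd : ∀ g, HasDerivAt (fun t => f (Function.update g e t)) (fd g) (g e))
    {G : MG n} (hG' : 0 < G e) :
    coef f G = coef fd (delE G e) / Real.sqrt (G e) := by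
  obtain ⟨k, hk⟩ : ∃ k, G e = k + 1 := ⟨G e - 1, by omega⟩
  have hs : Real.sqrt (G e : ℝ) ≠ 0 := (Real.sqrt_pos.2 (by exact_mod_cast hG')).ne'
  have hfe : EM f := em_of_linear hfb
  have hde : EM fd := em_of_linear hdb
  rw [eq_div_iff hs]
  have m1 : Measurable fun g => f g * hG G g := hf.mul (measurable_hG G)
  have m2 : Measurable fun g => fd g * hG (delE G e) g := hfd.mul (measurable_hG _)
  rw [coef, coef, integral_update e m1 ((hfe.mul (em_hG G)).integrable m1),
    integral_update e m2 ((hde.mul (em_hG _)).integrable m2), mul_comm, ← integral_const_mul]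
  congr 1
  funext g
  set P := ∏ i ∈ Finset.univ.erase e, herm (G i) (g i) with hP
  have h1 : ∀ t, hG G (Function.update g e t) = herm (k + 1) t * P := fun t => by
    have := hG_update G e g t (G e)
    rw [Function.update_eq_self] at this
    rw [this, hk]
  have h2 : ∀ t, hG (delE G e) (Function.update g e t) = herm k t * P := fun t => by
    rw [delE, hG_update G e g t, hk, Nat.add_sub_cancel]
  simp only [h1, h2, ← mul_assoc]
  rw [integral_mul_const, integral_mul_const, ← mul_assoc]
  congr 1
  rw [hk, Nat.cast_add, Nat.cast_one]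
  refine integral_mul_herm (φ := fun t => f (Function.update g e t))
    (φ' := fun t => fd (Function.update g e t)) (fun t => ?_) (hfe.slice g e) (hde.slice g e) k
  simpa using hd (Function.update g e t)

/-! ## Completeness -/

lemma integrable_mul_em {f h : (Edge n → ℝ) → ℝ} (hf : MemLp f 2 (law n)) (hh : EM h)
    (hm : Measurable h) : Integrable (fun g => f g * h g) (law n) :=
  hf.integrable_mul (hh.memLp hm)

lemma measurable_lin (w : Edge n → ℝ) : Measurable fun g : Edge n → ℝ => ∑ e, w e * g e :=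
  Finset.measurable_sum _ fun e _ => (measurable_pi_apply e).const_mul _

lemma em_lin_pow (w : Edge n → ℝ) (k : ℕ) :
    EM fun g : Edge n → ℝ => (∑ e, w e * g e) ^ k := by
  induction k with
  | zero => exact ⟨1, 0, zero_le_one, le_rfl, fun g => by simp⟩
  | succ k ih =>
    have hl : EM fun g : Edge n → ℝ => ∑ e, w e * g e := by
      refine em_of_linear (a := 0) (b := ∑ e, |w e|) fun g => ?_
      rw [zero_add, Finset.sum_mul]
      refine (Finset.abs_sum_le_sum_abs _ _).trans (Finset.sum_le_sum fun e _ => ?_)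
      rw [abs_mul]
      exact mul_le_mul_of_nonneg_left
        (Finset.single_le_sum (fun i _ => abs_nonneg (g i)) (Finset.mem_univ e)) (abs_nonneg _)
    simpa [pow_succ] using ih.mul hl

lemma orth_lin_pow {f : (Edge n → ℝ) → ℝ} (hf : MemLp f 2 (law n))
    (h0 : ∀ G, coef f G = 0) (w : Edge n → ℝ) :
    ∀ (k : ℕ) (G : MG n), ∫ g, f g * ((∑ e, w e * g e) ^ k * hG G g) ∂law n = 0 := by
  intro k
  induction k with
  | zero => intro G; simpa [coef] using h0 G
  | succ k ih =>
    intro G
    have hint : ∀ G', Integrable (fun g => f g * ((∑ e, w e * g e) ^ k * hG G' g)) (law n) :=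
      fun G' => integrable_mul_em hf ((em_lin_pow w k).mul (em_hG G'))
        (((measurable_lin w).pow_const k).mul (measurable_hG G'))
    have hexp : (fun g => f g * ((∑ e, w e * g e) ^ (k + 1) * hG G g))
        = fun g => ∑ e, (w e * Real.sqrt ((G e : ℝ) + 1) *
            (f g * ((∑ i, w i * g i) ^ k * hG (addE G e) g))
          + w e * Real.sqrt (G e : ℝ) *
            (f g * ((∑ i, w i * g i) ^ k * hG (delE G e) g))) := by
      funext g
      calc f g * ((∑ e, w e * g e) ^ (k + 1) * hG G g)
          = ∑ e, f g * (∑ i, w i * g i) ^ k * w e * (g e * hG G g) := by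
            rw [pow_succ, Finset.mul_sum, Finset.sum_mul, Finset.mul_sum]
            exact Finset.sum_congr rfl fun e _ => by ring
        _ = _ := Finset.sum_congr rfl fun e _ => by rw [mul_hG]; ring
    rw [hexp, integral_finsetSum]
    swap
    · exact fun e _ => ((hint _).const_mul _).add ((hint _).const_mul _)
    refine Finset.sum_eq_zero fun e _ => ?_
    rw [integral_add ((hint _).const_mul _) ((hint _).const_mul _), integral_const_mul,
      integral_const_mul, ih, ih]
    simp

lemma orth_char {f : (Edge n → ℝ) → ℝ} (hf : MemLp f 2 (law n)) (h0 : ∀ G, coef f G = 0)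
    (w : Edge n → ℝ) :
    ∫ g, (f g : ℂ) * Complex.exp ((((∑ e, w e * g e : ℝ)) : ℂ) * Complex.I) ∂law n = 0 := by
  set L := fun g : Edge n → ℝ => ∑ e, w e * g e
  let term := fun (k : ℕ) (g : Edge n → ℝ) =>
    (f g : ℂ) * (((L g : ℂ) * Complex.I) ^ k / (k.factorial : ℂ))
  have hLm : Measurable L := measurable_lin w
  have hzero : ∀ k, ∫ g, term k g ∂law n = 0 := by
    intro k
    have h := orth_lin_pow hf h0 w k 0
    simp only [hG_zero, mul_one] at h
    have e : (fun g => term k g) = fun g =>
        (((f g * L g ^ k : ℝ)) : ℂ) * (Complex.I ^ k / (k.factorial : ℂ)) := by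
      funext g; simp only [term]; push_cast; ring
    rw [e, integral_mul_const, integral_complex_ofReal, h]
    simp
  have hgrow : Integrable (fun g => |f g| * Real.exp |L g|) (law n) := by
    refine integrable_mul_em hf.abs ?_ (by fun_prop)
    refine ⟨1, ∑ e, |w e|, zero_le_one, Finset.sum_nonneg fun _ _ => abs_nonneg _, fun g => ?_⟩
    rw [Real.abs_exp, one_mul, Finset.sum_mul]
    refine Real.exp_le_exp.2 ((Finset.abs_sum_le_sum_abs _ _).trans
      (Finset.sum_le_sum fun e _ => ?_))
    rw [abs_mul]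
    exact mul_le_mul_of_nonneg_left
      (Finset.single_le_sum (fun i _ => abs_nonneg (g i)) (Finset.mem_univ e)) (abs_nonneg _)
  have hsum : HasSum (fun k => ∫ g, term k g ∂law n)
      (∫ g, (f g : ℂ) * Complex.exp ((L g : ℂ) * Complex.I) ∂law n) := by
    refine hasSum_integral_of_dominated_convergence
      (bound := fun k g => |f g| * (|L g| ^ k / (k.factorial : ℝ))) (fun k => ?_)
      (fun k => ae_of_all _ fun g => le_of_eq ?_)
      (ae_of_all _ fun g => (Real.summable_pow_div_factorial _).mul_left _) ?_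
      (ae_of_all _ fun g => ?_)
    · exact (Complex.continuous_ofReal.comp_aestronglyMeasurable hf.1).mul
        (Measurable.aestronglyMeasurable (by fun_prop))
    · simp [term]
    · refine hgrow.congr (ae_of_all _ fun g => ?_)
      simp only [tsum_mul_left]
      rw [Real.exp_eq_exp_ℝ, NormedSpace.exp_eq_tsum_div]
    · refine HasSum.mul_left _ ?_
      rw [Complex.exp_eq_exp_ℂ]
      exact NormedSpace.expSeries_div_hasSum_exp _
  simp only [hzero] at hsum
  exact hsum.unique hasSum_zero

lemma ae_zero_of_coef {f : (Edge n → ℝ) → ℝ} (hf : MemLp f 2 (law n))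
    (h0 : ∀ G, coef f G = 0) : f =ᵐ[law n] 0 := by
  have hi : Integrable f (law n) := hf.integrable one_le_two
  let νp := (law n).withDensity fun g => ENNReal.ofReal (f g)
  let νm := (law n).withDensity fun g => ENNReal.ofReal (-f g)
  have : IsFiniteMeasure νp := isFiniteMeasure_withDensity_ofReal hi.2
  have : IsFiniteMeasure νm := isFiniteMeasure_withDensity_ofReal hi.neg.2
  have key : νp = νm := by
    refine Measure.ext_of_charFunDual (funext fun L => ?_)
    have hw : ∀ g : Edge n → ℝ, L g = ∑ e, L (Pi.single e 1) * g e := by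
      intro g
      conv_lhs => rw [← Finset.univ_sum_single g]
      rw [map_sum]
      refine Finset.sum_congr rfl fun e _ => ?_
      rw [mul_comm, ← smul_eq_mul, ← map_smul]
      congr 1
      ext i
      by_cases hi : i = e
      · subst hi; simp
      · simp [hi]
    have h := orth_char hf h0 fun e => L (Pi.single e 1)
    simp only [← hw] at h
    rw [charFunDual_apply, charFunDual_apply,
      integral_withDensity_eq_integral_toReal_smul₀
        hf.1.aemeasurable.ennreal_ofReal (ae_of_all _ fun g => ENNReal.ofReal_lt_top),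
      integral_withDensity_eq_integral_toReal_smul₀
        (f := fun g => ENNReal.ofReal (-f g))
        hf.1.aemeasurable.neg.ennreal_ofReal (ae_of_all _ fun g => ENNReal.ofReal_lt_top),
      ← sub_eq_zero]
    have hint : ∀ F : (Edge n → ℝ) → ℝ, Integrable F (law n) →
        Integrable (fun g => F g • Complex.exp ((L g : ℂ) * Complex.I)) (law n) := fun F hF => by
      refine hF.norm.mono' (hF.1.smul (Continuous.aestronglyMeasurable (by fun_prop)))
        (ae_of_all _ fun g => ?_)
      simp [Complex.norm_exp_ofReal_mul_I]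
    have hp : Integrable (fun g => (ENNReal.ofReal (f g)).toReal) (law n) := by
      simpa [ENNReal.toReal_ofReal'] using hi.pos_part
    have hm : Integrable (fun g => (ENNReal.ofReal (-f g)).toReal) (law n) := by
      simpa [ENNReal.toReal_ofReal'] using hi.neg_part
    rw [← integral_sub (hint _ hp) (hint _ hm), ← h]
    congr 1
    funext g
    simp only [Complex.real_smul, ENNReal.toReal_ofReal', ← sub_mul, ← Complex.ofReal_sub]
    congr 2
    rcases le_total 0 (f g) with h1 | h1
    · rw [max_eq_left h1, max_eq_right (by linarith), sub_zero]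
    · rw [max_eq_right h1, max_eq_left (by linarith), zero_sub, neg_neg]
  have hae := (withDensity_eq_iff_of_sigmaFinite hf.1.aemeasurable.ennreal_ofReal
    hf.1.aemeasurable.neg.ennreal_ofReal).1 key
  filter_upwards [hae] with g hg
  have := congrArg ENNReal.toReal hg
  simp only [ENNReal.toReal_ofReal', Pi.neg_apply] at this
  rcases le_total 0 (f g) with h1 | h1
  · rw [max_eq_left h1, max_eq_right (by linarith)] at this
    simpa using this
  · rw [max_eq_right h1, max_eq_left (by linarith)] at this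
    simp only [Pi.zero_apply]
    linarith

/-- The product Hermite functions in `L²`. -/
def hGLp (G : MG n) : Lp ℝ 2 (law n) := (memLp_hG G).toLp (hG G)

lemma inner_toLp {f h : (Edge n → ℝ) → ℝ} (hf : MemLp f 2 (law n)) (hh : MemLp h 2 (law n)) :
    ⟪hf.toLp f, hh.toLp h⟫_ℝ = ∫ g, f g * h g ∂law n := by
  rw [L2.inner_def]
  refine integral_congr_ae ?_
  filter_upwards [hf.coeFn_toLp, hh.coeFn_toLp] with g h1 h2
  simp [h1, h2, mul_comm]

lemma orthonormal_hGLp : Orthonormal ℝ (hGLp (n := n)) := by
  classical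
  rw [orthonormal_iff_ite]
  intro G G'
  rw [hGLp, hGLp, inner_toLp, integral_hG]

lemma orthogonal_hGLp :
    (Submodule.span ℝ (Set.range (hGLp (n := n))))ᗮ = ⊥ := by
  rw [Submodule.eq_bot_iff]
  intro F hF
  refine Lp.eq_zero_iff_ae_eq_zero.2 (ae_zero_of_coef (Lp.memLp F) fun G => ?_)
  have h := (Submodule.mem_orthogonal _ _).1 hF (hGLp G) (Submodule.subset_span ⟨G, rfl⟩)
  rw [real_inner_comm, hGLp] at h
  have he := inner_toLp (Lp.memLp F) (memLp_hG G)
  rw [Lp.toLp_coeFn] at he
  rw [coef, ← he]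
  exact h

/-- Parseval. -/
theorem hasSum_coef_sq {f : (Edge n → ℝ) → ℝ} (hf : MemLp f 2 (law n)) :
    HasSum (fun G : MG n => coef f G ^ 2) (∫ g, f g ^ 2 ∂law n) := by
  have h := (HilbertBasis.mkOfOrthogonalEqBot orthonormal_hGLp
    orthogonal_hGLp).hasSum_inner_mul_inner (hf.toLp f) (hf.toLp f)
  rw [HilbertBasis.coe_mkOfOrthogonalEqBot, inner_toLp hf hf] at h
  have e1 : (fun G : MG n => coef f G ^ 2)
      = fun G => ⟪hf.toLp f, hGLp G⟫_ℝ * ⟪hGLp G, hf.toLp f⟫_ℝ := by
    funext G
    rw [show ⟪hGLp G, hf.toLp f⟫_ℝ = ⟪hf.toLp f, hGLp G⟫_ℝ from real_inner_comm _ _, hGLp,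
      inner_toLp hf (memLp_hG G)]
    exact sq _
  rw [e1]
  simpa [sq] using h

/-- Bessel. -/
theorem sum_coef_sq_le {f : (Edge n → ℝ) → ℝ} (hf : MemLp f 2 (law n)) (s : Finset (MG n)) :
    ∑ G ∈ s, coef f G ^ 2 ≤ ∫ g, f g ^ 2 ∂law n :=
  sum_le_hasSum s (fun _ _ => sq_nonneg _) (hasSum_coef_sq hf)

lemma delE_inj {G G' : MG n} {e : Edge n} (h : 0 < G e) (h' : 0 < G' e)
    (he : delE G e = delE G' e) : G = G' := by
  funext i
  have := congrFun he i
  by_cases hi : i = e
  · subst hi; simp only [delE, Function.update_self] at this; omega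
  · simpa [delE, hi] using this

lemma variance_eq_total_sub {f : (Edge n → ℝ) → ℝ} (hf : MemLp f 2 (law n)) :
    variance f (law n) = (∫ g, f g ^ 2 ∂law n) - coef f 0 ^ 2 := by
  rw [variance_eq_sub hf]
  simp [coef, hG_zero, Pi.pow_apply]

/-- The variance is at most the low Hermite coefficients of the gradient plus a tail. -/
theorem variance_le_low_add_tail {f : (Edge n → ℝ) → ℝ} {fd : Edge n → (Edge n → ℝ) → ℝ}
    {a b : ℝ} (hf : Measurable f) (hfd : ∀ e, Measurable (fd e))
    (hfb : ∀ g, |f g| ≤ a + b * ∑ e, |g e|) (hdb : ∀ e g, |fd e g| ≤ a + b * ∑ i, |g i|)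
    (hd : ∀ e g, HasDerivAt (fun t => f (Function.update g e t)) (fd e g) (g e)) (k : ℕ) :
    variance f (law n) ≤ (∑ e, ∑ G ∈ multi n k, coef (fd e) G ^ 2)
      + (∑ e, ∫ g, fd e g ^ 2 ∂law n) / ((k : ℝ) + 1) := by
  classical
  have hfL : MemLp f 2 (law n) := (em_of_linear hfb).memLp hf
  have hfdL : ∀ e, MemLp (fd e) 2 (law n) := fun e => (em_of_linear (hdb e)).memLp (hfd e)
  have hk : (0 : ℝ) < (k : ℝ) + 1 := by positivity
  have hsum : HasSum (Function.update (fun G : MG n => coef f G ^ 2) 0 0) (variance f (law n)) := by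
    have h := (hasSum_coef_sq hfL).update 0 0
    rw [variance_eq_total_sub hfL]
    rw [show (∫ g, f g ^ 2 ∂law n) - coef f 0 ^ 2 = 0 - coef f 0 ^ 2 + ∫ g, f g ^ 2 ∂law n by ring]
    exact h
  refine hasSum_le_of_sum_le hsum fun s => ?_
  -- the identity on every nonzero coefficient
  have hid : ∀ G : MG n, (size G : ℝ) * coef f G ^ 2
      = ∑ e, if 0 < G e then coef (fd e) (delE G e) ^ 2 else 0 := by
    intro G
    rw [size, Nat.cast_sum, Finset.sum_mul]
    refine Finset.sum_congr rfl fun e _ => ?_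
    split_ifs with he
    · rw [coef_ibp hf (hfd e) hfb (hdb e) e (hd e) he, div_pow,
        Real.sq_sqrt (Nat.cast_nonneg _), mul_div_cancel₀]
      exact_mod_cast he.ne'
    · simp [Nat.eq_zero_of_not_pos he]
  set T := fun (e : Edge n) (G : MG n) =>
    if 0 < G e then coef (fd e) (delE G e) ^ 2 else 0 with hT
  have hT0 : ∀ e G, 0 ≤ T e G := fun e G => by simp only [hT]; split_ifs <;> positivity
  have hpt : ∀ G ∈ s, Function.update (fun G : MG n => coef f G ^ 2) 0 0 G
      ≤ (if size G ≤ k + 1 then ∑ e, T e G else 0) + (∑ e, T e G) / ((k : ℝ) + 1) := by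
    intro G _
    by_cases h0 : G = 0
    · subst h0
      simp [hT]
    rw [Function.update_of_ne h0]
    have hpos : 1 ≤ size G := by
      obtain ⟨e, he⟩ := Function.ne_iff.1 h0
      have := le_size G e
      simp only [Pi.zero_apply] at he
      omega
    simp only [hT, ← hid G]
    by_cases hk' : size G ≤ k + 1
    · rw [if_pos hk']
      have h1 : (1 : ℝ) ≤ size G := by exact_mod_cast hpos
      have : 0 ≤ (size G : ℝ) * coef f G ^ 2 / ((k : ℝ) + 1) := by positivity
      nlinarith [sq_nonneg (coef f G)]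
    · rw [if_neg hk', zero_add, le_div_iff₀ hk, mul_comm]
      refine mul_le_mul_of_nonneg_right ?_ (sq_nonneg _)
      exact_mod_cast (by omega : k + 1 ≤ size G)
  refine (Finset.sum_le_sum hpt).trans ?_
  rw [Finset.sum_add_distrib, ← Finset.sum_div, ← Finset.sum_filter, Finset.sum_comm,
    Finset.sum_comm (s := s)]
  have himg : ∀ (e : Edge n) (u : Finset (MG n)), ∑ G ∈ u, T e G
      = ∑ H ∈ (u.filter fun G => 0 < G e).image (fun G => delE G e), coef (fd e) H ^ 2 := by
    intro e u
    rw [Finset.sum_image fun G hG1 G' hG2 h =>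
      delE_inj (Finset.mem_filter.1 hG1).2 (Finset.mem_filter.1 hG2).2 h, Finset.sum_filter]
  refine add_le_add (Finset.sum_le_sum fun e _ => ?_)
    (div_le_div_of_nonneg_right (Finset.sum_le_sum fun e _ => ?_) hk.le)
  · rw [himg]
    refine Finset.sum_le_sum_of_subset_of_nonneg (fun H hH => ?_) fun _ _ _ => sq_nonneg _
    simp only [Finset.mem_image, Finset.mem_filter] at hH
    obtain ⟨G, ⟨⟨-, hsz⟩, he⟩, rfl⟩ := hH
    rw [mem_multi]
    have := size_delE _ _ he
    omega
  · rw [himg]
    exact sum_coef_sq_le (hfdL e) _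

end

end Vale.Agent.P146.Super
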