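import Vale.Agent.P146.Super.Gibbs
import Vale.Agent.P146.Super.Graph
import Vale.Agent.P146.Super.Hermite

/-!
# P146, superconcentration: parity, relabelling and the branch step

Removing an edge at a branch point by Gaussian integration by parts trades the mass at level
`k + 1` for the terminal mass plus a small multiple of the masses at level `k`.
-/

namespace Vale.Agent.P146.Super

open MeasureTheory ProbabilityTheory Finset

noncomputable section

variable {n m R : ℕ}

/-! ## Parity -/

lemma herm_neg : ∀ (k : ℕ) (x : ℝ), herm k (-x) = (-1) ^ k * herm k x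
  | 0, x => by simp [herm]
  | 1, x => by simp [herm]
  | k + 2, x => by
      simp only [herm, herm_neg (k + 1) x, herm_neg k x]
      ring

lemma hG_negAt (v : Fin n) (G : MG n) (g : Edge n → ℝ) :
    hG G (negAt v g) = (-1) ^ deg G v * hG G g := by
  rw [deg, ← prod_pow_eq_pow_sum, hG, hG, ← prod_mul_distrib]
  refine prod_congr rfl fun e _ => ?_
  by_cases h : inc v e
  · rw [if_pos h, negAt, if_pos h, herm_neg]
  · rw [if_neg h, negAt, if_neg h, pow_zero, one_mul]

lemma measurePreserving_negAt (v : Fin n) : MeasurePreserving (negAt v) (law n) (law n) := by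
  have h := measurePreserving_pi (f := fun (e : Edge n) (t : ℝ) => if inc v e then -t else t)
    (fun _ => gaussianReal 0 1) (fun _ => gaussianReal 0 1) (fun e => by
      by_cases he : inc v e
      · simp only [if_pos he]
        refine ⟨measurable_neg, ?_⟩
        simpa using gaussianReal_map_neg (μ := 0) (v := 1)
      · simp only [if_neg he]
        exact MeasurePreserving.id _)
  exact h

/-- A nonzero coefficient obeys the parity rule. -/
theorem parityOK_of_coef_ne_zero {β : ℝ} {mon : Spec m R} {x : Fin m → Fin n} {G : MG n}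
    (h : coef (obs β mon x) G ≠ 0) : ParityOK mon x G := by
  intro v
  by_contra hv
  refine h ?_
  have hmeas : Measurable fun g => obs β mon x g * hG G g :=
    (measurable_obs β mon x).mul (measurable_hG G)
  have hodd : Odd (spinsAt mon x v + deg G v) := by
    rw [Nat.odd_iff, spinsAt]
    omega
  have key : coef (obs β mon x) G = -coef (obs β mon x) G := by
    conv_lhs => rw [coef, ← (measurePreserving_negAt v).map_eq,
      integral_map (measurePreserving_negAt v).measurable.aemeasurable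
        hmeas.aestronglyMeasurable]
    rw [coef, ← integral_neg]
    refine congrArg _ (funext fun g => ?_)
    rw [obs_negAt, hG_negAt]
    linear_combination (obs β mon x g * hG G g) *
      ((pow_add (-1 : ℝ) _ _).symm.trans hodd.neg_one_pow)
  linarith

/-! ## Relabelling -/

lemma hG_mapMG (π : Equiv.Perm (Fin n)) (G : MG n) (g : Edge n → ℝ) :
    hG (mapMG π G) g = hG G fun e => g (mapEdge π e) := by
  rw [hG, hG, ← (mapEdgeEquiv π).prod_comp]
  refine prod_congr rfl fun e _ => ?_
  show herm (G (mapEdge π.symm (mapEdge π e))) _ = _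
  rw [mapEdge_symm_apply]
  rfl

lemma measurePreserving_mapEdge (π : Equiv.Perm (Fin n)) :
    MeasurePreserving (fun (g : Edge n → ℝ) e => g (mapEdge π e)) (law n) (law n) :=
  (measurePreserving_piCongrLeft (fun _ : Edge n => gaussianReal 0 1) (mapEdgeEquiv π)).symm

/-- Relabelling the vertices does not change the coefficients. -/
theorem coef_obs_relabel (β : ℝ) (π : Equiv.Perm (Fin n)) (mon : Spec m R) (x : Fin m → Fin n)
    (G : MG n) : coef (obs β mon (π ∘ x)) (mapMG π G) = coef (obs β mon x) G := by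
  have hmeas : Measurable fun g => obs β mon x g * hG G g :=
    (measurable_obs β mon x).mul (measurable_hG G)
  conv_rhs => rw [coef, ← (measurePreserving_mapEdge π).map_eq,
    integral_map (measurePreserving_mapEdge π).measurable.aemeasurable hmeas.aestronglyMeasurable]
  rw [coef]
  refine congrArg _ (funext fun g => ?_)
  rw [obs_relabel, hG_mapMG]
  rfl

/-! ## The weight of a vertex -/

lemma wv_one (n : ℕ) (η : ℝ) (b : Bool) : wv n η 1 b = (Real.sqrt n)⁻¹ := by
  simp [wv, phi2, omega]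

lemma wv_zero_true (n : ℕ) (η : ℝ) : wv n η 0 true = (Real.sqrt n ^ 2)⁻¹ := by
  simp [wv, phi2, omega]

lemma wv_two (n : ℕ) (η : ℝ) (b : Bool) : wv n η 2 b = if b then η⁻¹ else 1 := by
  cases b <;> simp [wv, phi2, omega]

lemma wv_odd (n : ℕ) (η : ℝ) (j : ℕ) (b : Bool) :
    wv n η (2 * j + 1) b = (Real.sqrt n)⁻¹ * η ^ j := by
  simp [wv, phi2, omega, Nat.add_mod]

lemma wv_even (n : ℕ) (η : ℝ) (j : ℕ) (b : Bool) : wv n η (2 * j + 4) b = η ^ j := by
  simp [wv, phi2, omega, Nat.add_mod, show (2 * j + 4) / 2 - 2 = j by omega]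

lemma wv_nonneg {η : ℝ} (hη : 0 ≤ η) (n d : ℕ) (b : Bool) : 0 ≤ wv n η d b :=
  mul_nonneg (inv_nonneg.2 (pow_nonneg (Real.sqrt_nonneg _) _)) (zpow_nonneg hη _)

/-- Removing an edge at a vertex, which becomes a mark, loses at most `sqrt n`, and gains the
small factor at a branch point. -/
lemma wv_step {η : ℝ} (hη : 1 ≤ η) (hn : η ^ 2 ≤ n) {d : ℕ} (b : Bool) (hd : 1 ≤ d) :
    wv n η d b ≤ Real.sqrt n * wv n η (d - 1) true ∧
      (3 ≤ d ∨ (b = true ∧ 2 ≤ d) →
        wv n η d b ≤ Real.sqrt n * (η ^ 2 / n + 1 / η) * wv n η (d - 1) true) := by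
  set s := Real.sqrt n with hs
  have h0 : (0 : ℝ) < η := by linarith
  have hs2 : s ^ 2 = n := Real.sq_sqrt (Nat.cast_nonneg n)
  have hs0 : 0 < s := Real.sqrt_pos.2 (by nlinarith)
  rw [← hs2] at hn ⊢
  set κ := η ^ 2 / s ^ 2 + 1 / η with hκ
  have hκ1 : η ^ 2 / s ^ 2 ≤ κ := le_add_of_nonneg_right (by positivity)
  have hκ2 : 1 / η ≤ κ := le_add_of_nonneg_left (by positivity)
  have hq : η ^ 2 / s ^ 2 ≤ 1 := (div_le_one (by positivity)).2 hn
  have hr : 1 / η ≤ 1 := (div_le_one h0).2 hη
  rcases (show d = 1 ∨ d = 2 ∨ d = 3 ∨ (∃ j, d = 2 * j + 4) ∨ (∃ j, d = 2 * j + 5) by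
      rcases Nat.even_or_odd' d with ⟨j, rfl | rfl⟩
      · by_cases hj : j = 1
        · omega
        · exact Or.inr (Or.inr (Or.inr (Or.inl ⟨j - 2, by omega⟩)))
      · by_cases hj : j ≤ 1
        · omega
        · exact Or.inr (Or.inr (Or.inr (Or.inr ⟨j - 2, by omega⟩)))) with
    rfl | rfl | rfl | ⟨j, rfl⟩ | ⟨j, rfl⟩
  · refine ⟨?_, fun h => absurd h (by omega)⟩
    rw [wv_one, Nat.sub_self, wv_zero_true, ← hs]
    exact le_of_eq (by field_simp)
  · rw [wv_two, wv_one n η true, ← hs, mul_inv_cancel₀ hs0.ne',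
      show s * κ * s⁻¹ = κ by field_simp]
    refine ⟨?_, fun h => ?_⟩
    · split
      · exact inv_le_one_of_one_le₀ hη
      · exact le_rfl
    · have hb : b = true := by simpa using h
      simpa [hb] using hκ2
  · rw [show (3 : ℕ) = 2 * 1 + 1 from rfl, wv_odd, show 2 * 1 + 1 - 1 = 2 from rfl, wv_two,
      if_pos rfl, ← hs, pow_one]
    refine ⟨?_, fun _ => ?_⟩
    · calc s⁻¹ * η = s * (η ^ 2 / s ^ 2) * η⁻¹ := by field_simp
        _ ≤ s * 1 * η⁻¹ := by gcongr
        _ = s * η⁻¹ := by ring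
    · calc s⁻¹ * η = s * (η ^ 2 / s ^ 2) * η⁻¹ := by field_simp
        _ ≤ s * κ * η⁻¹ := by gcongr
  · rw [wv_even, show 2 * j + 4 - 1 = 2 * (j + 1) + 1 by omega, wv_odd, ← hs]
    refine ⟨?_, fun _ => ?_⟩
    · calc η ^ j = 1 / η * η ^ (j + 1) := by field_simp; ring
        _ ≤ 1 * η ^ (j + 1) := by gcongr
        _ = s * (s⁻¹ * η ^ (j + 1)) := by field_simp
    · calc η ^ j = 1 / η * η ^ (j + 1) := by field_simp; ring
        _ ≤ κ * η ^ (j + 1) := by gcongr
        _ = s * κ * (s⁻¹ * η ^ (j + 1)) := by field_simp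
  · rw [show 2 * j + 5 = 2 * (j + 2) + 1 by omega, wv_odd, show 2 * (j + 2) + 1 - 1 = 2 * j + 4 by
      omega, wv_even, ← hs]
    refine ⟨?_, fun _ => ?_⟩
    · calc s⁻¹ * η ^ (j + 2) = s * (η ^ 2 / s ^ 2) * η ^ j := by field_simp; ring
        _ ≤ s * 1 * η ^ j := by gcongr
        _ = s * η ^ j := by ring
    · calc s⁻¹ * η ^ (j + 2) = s * (η ^ 2 / s ^ 2) * η ^ j := by field_simp; ring
        _ ≤ s * κ * η ^ j := by gcongr

/-- The weight of a multigraph with a set of marks. -/
def wM (η : ℝ) (M : Finset (Fin n)) (G : MG n) : ℝ := ∏ v, wv n η (deg G v) (decide (v ∈ M))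

lemma wM_nonneg {η : ℝ} (hη : 0 ≤ η) (M : Finset (Fin n)) (G : MG n) : 0 ≤ wM η M G :=
  prod_nonneg fun _ _ => wv_nonneg hη _ _ _

lemma weight_eq_wM (η : ℝ) (x : Fin m → Fin n) (G : MG n) :
    weight η x G = wM η (univ.image x) G := by
  simp [weight, wM]

/-- The weight lost in the branch step. -/
lemma wM_le_step {η : ℝ} (hη : 1 ≤ η) (hn : η ^ 2 ≤ n) (M : Finset (Fin n)) {G : MG n}
    {a b : Fin n} (hab : a ≠ b) (he : 0 < G (mkEdge a b hab))
    (hgood : 3 ≤ deg G a ∨ (a ∈ M ∧ 2 ≤ deg G a)) :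
    wM η M G ≤ (n : ℝ) * (η ^ 2 / n + 1 / η) *
      wM η (insert b (insert a M)) (delE G (mkEdge a b hab)) := by
  have h0 : (0 : ℝ) ≤ η := by linarith
  have hκ : 0 ≤ η ^ 2 / n + 1 / η := by positivity
  set G' := delE G (mkEdge a b hab)
  set M' := insert b (insert a M)
  set κ := η ^ 2 / (n : ℝ) + 1 / η
  have hd : ∀ v, deg G' v + (if inc v (mkEdge a b hab) then 1 else 0) = deg G v :=
    fun v => deg_delE G _ he v
  have ha' : deg G' a = deg G a - 1 := by
    have := hd a; rw [if_pos (inc_mkEdge_left a b hab)] at this; omega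
  have hb' : deg G' b = deg G b - 1 := by
    have := hd b; rw [if_pos (inc_mkEdge_right a b hab)] at this; omega
  have hpt : ∀ v, wv n η (deg G v) (decide (v ∈ M)) ≤
      (if v = a then Real.sqrt n * κ else if v = b then Real.sqrt n else 1) *
        wv n η (deg G' v) (decide (v ∈ M')) := by
    intro v
    by_cases hva : v = a
    · subst hva
      rw [if_pos rfl, ha', show decide (v ∈ M') = true by simp [M']]
      exact (wv_step hη hn _ (by omega)).2 (by simpa using hgood)
    by_cases hvb : v = b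
    · subst hvb
      rw [if_neg hva, if_pos rfl, hb', show decide (v ∈ M') = true by simp [M']]
      exact (wv_step hη hn _ (by
        have := le_deg G (inc_mkEdge_right a v hab); omega)).1
    · have hi : ¬ inc v (mkEdge a b hab) := by simp [inc_mkEdge, hva, hvb]
      have := hd v
      rw [if_neg hi, Nat.add_zero] at this
      rw [if_neg hva, if_neg hvb, one_mul, this, show decide (v ∈ M') = decide (v ∈ M) by
        simp [M', hva, hvb]]
  refine (prod_le_prod (fun v _ => wv_nonneg h0 _ _ _) fun v _ => hpt v).trans_eq ?_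
  rw [prod_mul_distrib]
  congr 1
  rw [← mul_prod_erase univ _ (mem_univ a), if_pos rfl,
    ← mul_prod_erase _ _ (mem_erase.2 ⟨hab.symm, mem_univ b⟩), if_neg hab.symm, if_pos rfl,
    prod_eq_one (fun v hv => by
      simp only [mem_erase] at hv
      rw [if_neg hv.2.1, if_neg hv.1]), mul_one]
  linear_combination κ * Real.mul_self_sqrt (Nat.cast_nonneg (α := ℝ) n)

/-! ## Masses -/

/-- The weighted low coefficients of a replicated average with a set of marks. -/
def valM (β η : ℝ) (k : ℕ) (f : (Fin R → Fin n → Bool) → ℝ) (M : Finset (Fin n)) : ℝ :=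
  ∑ G ∈ multi n k, coef (fun g => avg β g f) G ^ 2 * wM η M G

lemma valM_nonneg {η : ℝ} (hη : 0 ≤ η) (β : ℝ) (k : ℕ) (f : (Fin R → Fin n → Bool) → ℝ)
    (M : Finset (Fin n)) : 0 ≤ valM β η k f M :=
  sum_nonneg fun G _ => mul_nonneg (sq_nonneg _) (wM_nonneg hη _ _)

lemma mass_eq_valM (β η : ℝ) (k : ℕ) (mon : Spec m R) :
    mass β η n k mon = ∑ x ∈ places n m, valM β η k (monom mon x) (univ.image x) := by
  simp only [mass, valM, weight_eq_wM]
  rfl

lemma mass_nonneg {η : ℝ} (hη : 0 ≤ η) (β : ℝ) (k : ℕ) (mon : Spec m R) :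
    0 ≤ mass β η n k mon := by
  rw [mass_eq_valM]
  exact sum_nonneg fun x _ => valM_nonneg hη _ _ _ _

lemma mem_places {x : Fin m → Fin n} : x ∈ places n m ↔ Function.Injective x := by
  simp [places]

/-- A placement and one more vertex: on an old mark, or a placement of one mark more. -/
lemma sum_places_vertex (F : (Fin m → Fin n) → Fin n → ℝ) :
    ∑ x ∈ places n m, ∑ v, F x v = (∑ i, ∑ x ∈ places n m, F x (x i))
      + ∑ x' ∈ places n (m + 1), F (Fin.init x') (x' (Fin.last m)) := by
  have h : ∀ x ∈ places n m, ∑ v, F x v = (∑ i, F x (x i)) + ∑ v ∈ (univ.image x)ᶜ, F x v := by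
    intro x hx
    rw [← sum_add_sum_compl (univ.image x), sum_image fun i _ j _ hij => mem_places.1 hx hij]
  rw [sum_congr rfl h, sum_add_distrib, sum_comm (s := places n m)]
  congr 1
  rw [Finset.sum_sigma']
  refine Finset.sum_nbij' (fun p => Fin.snoc p.1 p.2)
    (fun x' => ⟨Fin.init x', x' (Fin.last m)⟩) ?_ ?_ ?_ ?_ ?_
  · rintro ⟨x, v⟩ h
    simp only [Finset.mem_sigma, mem_places, mem_compl, mem_image, mem_univ, true_and] at h
    refine mem_places.2 (Fin.snoc_injective_iff.2 ⟨h.1, ?_⟩)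
    simpa using h.2
  · intro x' hx'
    have hi := mem_places.1 hx'
    simp only [Finset.mem_sigma, mem_places, mem_compl, mem_image, mem_univ, true_and]
    exact ⟨hi.comp (Fin.castSucc_injective m),
      fun ⟨i, hj⟩ => Fin.castSucc_ne_last i (hi hj)⟩
  · rintro ⟨x, v⟩ _; simp
  · intro x' _; simp
  · rintro ⟨x, v⟩ _; simp

lemma image_eq_insert_last (x' : Fin (m + 1) → Fin n) :
    univ.image x' = insert (x' (Fin.last m)) (univ.image (Fin.init x')) := by
  ext v
  simp [Fin.exists_fin_succ', Fin.init, eq_comm, or_comm]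

/-- Inserting one spin gives one of the specifications with at most one mark more. -/
lemma sum_insert_one_le {β η B : ℝ} {k : ℕ} (mon : Spec m R) (r : Fin R)
    (hB : ∀ m' ≤ m + 1, ∀ mon' : Spec m' R, mass β η n k mon' ≤ B) :
    ∑ x ∈ places n m, ∑ v, valM β η k (fun s => monom mon x s * spinVal (s r v))
        (insert v (univ.image x)) ≤ ((m : ℝ) + 1) * B := by
  rw [sum_places_vertex, add_one_mul]
  refine add_le_add ((sum_le_sum (g := fun _ : Fin m => B) fun i _ => ?_).trans_eq (by simp)) ?_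
  · refine le_trans (le_of_eq ?_) (hB m (by omega) (Function.update mon i (symmDiff (mon i) {r})))
    rw [mass_eq_valM]
    refine sum_congr rfl fun x _ => ?_
    congr 1
    · funext s; rw [monom_toggle, prod_singleton]
    · exact insert_eq_of_mem (mem_image_of_mem x (mem_univ i))
  · refine le_trans (le_of_eq ?_) (hB (m + 1) le_rfl (Fin.snoc mon {r}))
    rw [mass_eq_valM]
    refine sum_congr rfl fun x' _ => ?_
    rw [← image_eq_insert_last]
    congr 1
    funext s
    conv_rhs => rw [← Fin.snoc_init_self x', monom_snoc, prod_singleton]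

/-- Inserting two spins. -/
lemma sum_insert_two_le {β η B : ℝ} {k : ℕ} (mon : Spec m R) (r : Fin R) (hB' : 0 ≤ B)
    (hB : ∀ m' ≤ m + 2, ∀ mon' : Spec m' R, mass β η n k mon' ≤ B) :
    ∑ x ∈ places n m, ∑ a, ∑ b,
      valM β η k (fun s => monom mon x s * spinVal (s r a) * spinVal (s r b))
        (insert b (insert a (univ.image x))) ≤ ((m : ℝ) + 1) * ((m : ℝ) + 2) * B := by
  have hB0 : ∀ m' ≤ m + 1, ∀ mon' : Spec m' R, mass β η n k mon' ≤ B :=
    fun m' h => hB m' (by omega)
  rw [sum_places_vertex]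
  have h1 : ∀ i, ∑ x ∈ places n m, ∑ b,
      valM β η k (fun s => monom mon x s * spinVal (s r (x i)) * spinVal (s r b))
        (insert b (insert (x i) (univ.image x))) ≤ ((m : ℝ) + 1) * B := by
    intro i
    refine le_trans (le_of_eq ?_)
      (sum_insert_one_le (Function.update mon i (symmDiff (mon i) {r})) r hB0)
    refine sum_congr rfl fun x _ => sum_congr rfl fun b _ => ?_
    rw [insert_eq_of_mem (mem_image_of_mem x (mem_univ i))]
    congr 1
    funext s; rw [monom_toggle, prod_singleton]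
  have h2 : ∑ x' ∈ places n (m + 1), ∑ b,
      valM β η k (fun s => monom mon (Fin.init x') s * spinVal (s r (x' (Fin.last m))) *
          spinVal (s r b))
        (insert b (insert (x' (Fin.last m)) (univ.image (Fin.init x')))) ≤
      ((m : ℝ) + 2) * B := by
    refine le_trans (le_of_eq ?_) ((sum_insert_one_le (Fin.snoc mon {r} : Spec (m + 1) R) r
      (fun m' h => hB m' (by omega))).trans_eq (by push_cast; ring))
    refine sum_congr rfl fun x' _ => sum_congr rfl fun b _ => ?_
    rw [← image_eq_insert_last]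
    congr 1
    funext s
    conv_rhs => rw [← Fin.snoc_init_self x', monom_snoc, prod_singleton]
  refine (add_le_add (sum_le_sum fun i _ => h1 i) h2).trans ?_
  simp only [sum_const, card_univ, Fintype.card_fin, nsmul_eq_mul]
  nlinarith [mul_nonneg (Nat.cast_nonneg (α := ℝ) m) hB']

/-! ## The branch step -/

lemma em_avg (β : ℝ) {f : (Fin R → Fin n → Bool) → ℝ} (hf : ∀ s, |f s| ≤ 1) :
    EM fun g : Edge n → ℝ => avg β g f :=
  em_of_linear (a := 1) (b := 0) fun g => by
    rw [zero_mul, add_zero]; exact abs_avg_le β g hf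

/-- Integration by parts on an edge. -/
lemma coef_obs_sq_le (β : ℝ) (mon : Spec m R) (x : Fin m → Fin n) {G : MG n} {a b : Fin n}
    (hab : a ≠ b) (he : 0 < G (mkEdge a b hab)) :
    coef (obs β mon x) G ^ 2 ≤ β ^ 2 / n * ((R : ℝ) + (R : ℝ) ^ 2) * ∑ r : Fin (R + 1),
      coef (fun g => avg β g fun s => monom (liftSpec mon) x s * spinVal (s r a) * spinVal (s r b))
        (delE G (mkEdge a b hab)) ^ 2 := by
  set e := mkEdge a b hab with hedef
  set f := fun (r : Fin (R + 1)) (s : Fin (R + 1) → Fin n → Bool) =>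
    monom (liftSpec mon) x s * spinVal (s r a) * spinVal (s r b) with hf
  set c := β / Real.sqrt n with hc
  have hf1 : ∀ r s, |f r s| ≤ 1 := fun r s => by simp [hf, abs_mul, abs_monom, abs_spinVal]
  have hd : ∀ g, HasDerivAt (fun t => obs β mon x (Function.update g e t))
      (c * ∑ r, dcoef R r * avg β g (f r)) (g e) := by
    intro g
    refine (hasDerivAt_obs β mon x g e).congr_deriv ?_
    congr 1
    refine sum_congr rfl fun r _ => ?_
    congr 1
    exact congrArg _ (funext fun s => by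
      simp only [hf, monom_lift, hedef, bond_mkEdge, mul_assoc])
  set A := 1 + |c| * ∑ r : Fin (R + 1), |dcoef R r| with hA
  have hb1 : ∀ g, |obs β mon x g| ≤ A + 0 * ∑ i, |g i| := fun g =>
    (abs_obs_le_one β mon x g).trans (by
      have h0 : 0 ≤ |c| * ∑ r : Fin (R + 1), |dcoef R r| :=
        mul_nonneg (abs_nonneg c) (sum_nonneg fun _ _ => abs_nonneg _)
      simp only [zero_mul, add_zero, hA]; linarith)
  have hb2 : ∀ g, |c * ∑ r, dcoef R r * avg β g (f r)| ≤ A + 0 * ∑ i, |g i| := fun g => by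
    have h1 : |∑ r, dcoef R r * avg β g (f r)| ≤ ∑ r : Fin (R + 1), |dcoef R r| :=
      (abs_sum_le_sum_abs _ _).trans (sum_le_sum fun r _ => by
        rw [abs_mul]
        exact mul_le_of_le_one_right (abs_nonneg _) (abs_avg_le β g (hf1 r)))
    rw [abs_mul, zero_mul, add_zero, hA]
    linarith [mul_le_mul_of_nonneg_left h1 (abs_nonneg c)]
  have hm : Measurable fun g => c * ∑ r, dcoef R r * avg β g (f r) :=
    measurable_const.mul (Finset.measurable_sum _ fun r _ =>
      measurable_const.mul (measurable_avg β (f r)))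
  rw [coef_ibp (measurable_obs β mon x) hm hb1 hb2 e hd he]
  have hlin : coef (fun g => c * ∑ r, dcoef R r * avg β g (f r)) (delE G e) =
      c * ∑ r, dcoef R r * coef (fun g => avg β g (f r)) (delE G e) := by
    have hint : ∀ r, Integrable (fun g => avg β g (f r) * hG (delE G e) g) (law n) := fun r =>
      ((em_avg β (hf1 r)).mul (em_hG _)).integrable ((measurable_avg β _).mul (measurable_hG _))
    simp only [coef, mul_assoc, Finset.sum_mul]
    rw [integral_const_mul, integral_finsetSum _ fun r _ => (hint r).const_mul _]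
    simp only [integral_const_mul]
  rw [hlin, div_pow, Real.sq_sqrt (Nat.cast_nonneg _), mul_pow]
  have hG1 : (1 : ℝ) ≤ G e := by exact_mod_cast he
  refine (div_le_self (by positivity) hG1).trans ?_
  rw [hc, div_pow, Real.sq_sqrt (Nat.cast_nonneg _), mul_assoc]
  refine mul_le_mul_of_nonneg_left ?_ (by positivity)
  rw [← sum_dcoef_sq]
  exact sum_mul_sq_le_sq_mul_sq univ (dcoef R) _

open Classical in
/-- The mass carried by the terminal multigraphs. -/
def termMass (β η : ℝ) (n k : ℕ) {m R : ℕ} (mon : Spec m R) : ℝ :=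
  ∑ x ∈ places n m, ∑ G ∈ (multi n k).filter (fun G => Terminal x G),
    coef (obs β mon x) G ^ 2 * weight η x G

open Classical in
/-- Without edges every placed multigraph is terminal. -/
theorem mass_zero_eq_termMass (β η : ℝ) (mon : Spec m R) :
    mass β η n 0 mon = termMass β η n 0 mon := by
  refine sum_congr rfl fun x _ => ?_
  rw [filter_true_of_mem]
  intro G hG v
  have := deg_le_size G v
  have := mem_multi.1 hG
  omega

/-- The non-terminal coefficients through one branch edge. -/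
lemma branch_edge_le {β η : ℝ} (hη : 1 ≤ η) (hn : η ^ 2 ≤ n) (k : ℕ) (mon : Spec m R)
    (x : Fin m → Fin n) {a b : Fin n} (hab : a ≠ b) (S : Finset (MG n))
    (hS : ∀ G ∈ S, size G ≤ k + 1 ∧ 0 < G (mkEdge a b hab) ∧
      (3 ≤ deg G a ∨ (a ∈ univ.image x ∧ 2 ≤ deg G a))) :
    ∑ G ∈ S, coef (obs β mon x) G ^ 2 * weight η x G ≤
      β ^ 2 * ((R : ℝ) + (R : ℝ) ^ 2) * (η ^ 2 / n + 1 / η) * ∑ r : Fin (R + 1),
        valM β η k (fun s => monom (liftSpec mon) x s * spinVal (s r a) * spinVal (s r b))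
          (insert b (insert a (univ.image x))) := by
  have h0 : (0 : ℝ) ≤ η := by linarith
  set K := β ^ 2 * ((R : ℝ) + (R : ℝ) ^ 2) * (η ^ 2 / n + 1 / η) with hK
  have hK0 : 0 ≤ K := by positivity
  let w := fun G : MG n => wM η (insert b (insert a (univ.image x))) G
  let U : Fin (R + 1) → MG n → ℝ := fun r G => coef (fun g => avg β g fun s =>
    monom (liftSpec mon) x s * spinVal (s r a) * spinVal (s r b)) G ^ 2
  have hU0 : ∀ r G, 0 ≤ U r G := fun r G => sq_nonneg _
  have hw0 : ∀ G, 0 ≤ w G := fun G => wM_nonneg h0 _ _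
  have hK' : β ^ 2 / n * ((R : ℝ) + (R : ℝ) ^ 2) * ((n : ℝ) * (η ^ 2 / n + 1 / η)) = K := by
    have hn0 : (n : ℝ) ≠ 0 := by nlinarith
    rw [hK]; field_simp
  calc ∑ G ∈ S, coef (obs β mon x) G ^ 2 * weight η x G
      ≤ ∑ G ∈ S, K * ∑ r, U r (delE G (mkEdge a b hab)) * w (delE G (mkEdge a b hab)) := by
        refine sum_le_sum fun G hG => ?_
        obtain ⟨-, hpos, hgood⟩ := hS G hG
        rw [weight_eq_wM]
        refine (mul_le_mul (coef_obs_sq_le β mon x hab hpos)
          (wM_le_step hη hn _ hab hpos hgood) (wM_nonneg h0 _ _)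
          (mul_nonneg (by positivity) (sum_nonneg fun r _ => hU0 r _))).trans_eq ?_
        rw [← Finset.sum_mul, ← hK']
        simp only [U, w]
        ring
    _ = ∑ G' ∈ S.image (fun G => delE G (mkEdge a b hab)), K * ∑ r, U r G' * w G' :=
        (sum_image (f := fun G' => K * ∑ r, U r G' * w G')
          fun G hG G' hG' h => delE_inj (hS G hG).2.1 (hS G' hG').2.1 h).symm
    _ ≤ ∑ G' ∈ multi n k, K * ∑ r, U r G' * w G' := by
        refine sum_le_sum_of_subset_of_nonneg ?_ fun G' _ _ =>
          mul_nonneg hK0 (sum_nonneg fun r _ => mul_nonneg (hU0 r G') (hw0 G'))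
        intro G' hG'
        obtain ⟨G, hG, rfl⟩ := mem_image.1 hG'
        obtain ⟨hsz, hpos, -⟩ := hS G hG
        have := size_delE G _ hpos
        exact mem_multi.2 (by omega)
    _ = _ := by
        rw [← mul_sum, sum_comm]
        rfl

open Classical in
/-- For a placement, the non-terminal coefficients come from removing an edge at a branch point. -/
lemma nonterminal_le {β η : ℝ} (hη : 1 ≤ η) (hn : η ^ 2 ≤ n) (k : ℕ) (mon : Spec m R)
    (x : Fin m → Fin n) :
    ∑ G ∈ (multi n (k + 1)).filter (fun G => ¬ Terminal x G),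
        coef (obs β mon x) G ^ 2 * weight η x G ≤
      β ^ 2 * ((R : ℝ) + (R : ℝ) ^ 2) * (η ^ 2 / n + 1 / η) * ∑ r : Fin (R + 1), ∑ a, ∑ b,
        valM β η k (fun s => monom (liftSpec mon) x s * spinVal (s r a) * spinVal (s r b))
          (insert b (insert a (univ.image x))) := by
  have h0 : (0 : ℝ) ≤ η := by linarith
  have hn0 : (0 : ℝ) < n := by nlinarith
  set M := univ.image x with hM
  set T := fun G => coef (obs β mon x) G ^ 2 * weight η x G with hT
  have hT0 : ∀ G, 0 ≤ T G := fun G =>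
    mul_nonneg (sq_nonneg _) (by rw [weight_eq_wM]; exact wM_nonneg h0 _ _)
  set K := β ^ 2 * ((R : ℝ) + (R : ℝ) ^ 2) * (η ^ 2 / n + 1 / η) with hK
  have hK0 : 0 ≤ K := by positivity
  let P : Fin n × Fin n → MG n → Prop := fun p G => ∃ h : p.1 ≠ p.2,
    0 < G (mkEdge p.1 p.2 h) ∧ (3 ≤ deg G p.1 ∨ (p.1 ∈ M ∧ 2 ≤ deg G p.1))
  have hex : ∀ G, ¬ Terminal x G → ∃ p, P p G := by
    intro G hG
    simp only [Terminal, not_forall] at hG
    obtain ⟨v, hv⟩ := hG
    have hv' : 3 ≤ deg G v ∨ (v ∈ M ∧ 2 ≤ deg G v) := by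
      by_contra hc
      refine hv ⟨by omega, fun hm => ?_⟩
      have : v ∈ M := by simpa [hM] using hm
      by_contra hlt
      exact hc (Or.inr ⟨this, by omega⟩)
    obtain ⟨l, hl, hpos⟩ := exists_edge_of_deg (G := G) (u := v) (by omega)
    exact ⟨(v, l), hl, hpos, hv'⟩
  calc ∑ G ∈ (multi n (k + 1)).filter (fun G => ¬ Terminal x G), T G
      ≤ ∑ G ∈ (multi n (k + 1)).filter (fun G => ¬ Terminal x G), ∑ p,
          (if P p G then T G else 0) := by
        refine sum_le_sum fun G hG => ?_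
        obtain ⟨p, hp⟩ := hex G (mem_filter.1 hG).2
        refine le_trans ?_ (single_le_sum (fun q _ => ?_) (mem_univ p))
        · rw [if_pos hp]
        · split <;> simp [hT0]
    _ ≤ ∑ G ∈ multi n (k + 1), ∑ p, (if P p G then T G else 0) :=
        sum_le_sum_of_subset_of_nonneg (filter_subset _ _) fun G _ _ =>
          sum_nonneg fun p _ => by split <;> simp [hT0]
    _ = ∑ p, ∑ G ∈ (multi n (k + 1)).filter (P p), T G := by
        rw [sum_comm]; simp only [sum_filter]
    _ ≤ ∑ p : Fin n × Fin n, K * ∑ r : Fin (R + 1),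
          valM β η k (fun s => monom (liftSpec mon) x s * spinVal (s r p.1) * spinVal (s r p.2))
            (insert p.2 (insert p.1 M)) := by
        refine sum_le_sum fun p _ => ?_
        by_cases hab : p.1 ≠ p.2
        swap
        · rw [filter_eq_empty_iff.2 fun G _ h => hab h.1, sum_empty]
          exact mul_nonneg hK0 (sum_nonneg fun r _ => valM_nonneg h0 _ _ _ _)
        refine branch_edge_le hη hn k mon x hab _ fun G hG => ?_
        obtain ⟨hGm, _, hpos, hgood⟩ := mem_filter.1 hG
        exact ⟨mem_multi.1 hGm, hpos, hgood⟩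
    _ = _ := by
        rw [← mul_sum, Fintype.sum_prod_type]
        congr 1
        exact (sum_congr rfl fun a _ => sum_comm).trans sum_comm

/-- The combinatorial factor of the branch step. -/
lemma const_le (m R : ℕ) :
    ((R : ℝ) + (R : ℝ) ^ 2) * (((R : ℝ) + 1) * (((m : ℝ) + 1) * ((m : ℝ) + 2))) ≤
      (((m : ℝ) + 2) * ((R : ℝ) + 2)) ^ 4 := by
  have hm : (0 : ℝ) ≤ m := Nat.cast_nonneg m
  have hR : (0 : ℝ) ≤ R := Nat.cast_nonneg R
  have h1 : (R : ℝ) + (R : ℝ) ^ 2 ≤ ((R : ℝ) + 2) ^ 2 := by nlinarith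
  have h2 : ((R : ℝ) + 1) * (((m : ℝ) + 1) * ((m : ℝ) + 2)) ≤
      ((R : ℝ) + 2) * ((m : ℝ) + 2) ^ 2 :=
    mul_le_mul (by linarith) (by nlinarith) (by positivity) (by positivity)
  refine (mul_le_mul h1 h2 (by positivity) (by positivity)).trans ?_
  refine (le_mul_of_one_le_right (b := ((R : ℝ) + 2) * ((m : ℝ) + 2) ^ 2) (by positivity)
    (one_le_mul_of_one_le_of_one_le (by linarith) (one_le_pow₀ (by linarith)))).trans_eq ?_
  ring

open Classical in
/-- The branch step: the mass with `k + 1` edges is the terminal mass plus a small multiple of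
the masses with `k` edges. -/
theorem mass_le_terminal_add {β η B : ℝ} {k : ℕ} (hη : 1 ≤ η) (hn : η ^ 2 ≤ n) (mon : Spec m R)
    (hB : ∀ m' ≤ m + 2, ∀ mon' : Spec m' (R + 1), mass β η n k mon' ≤ B) :
    mass β η n (k + 1) mon ≤ termMass β η n (k + 1) mon
      + β ^ 2 * (((m : ℝ) + 2) * ((R : ℝ) + 2)) ^ 4 * (η ^ 2 / n + 1 / η) * B := by
  have h0 : (0 : ℝ) ≤ η := by linarith
  have hB0 : 0 ≤ B := (mass_nonneg h0 β k (fun i => i.elim0 : Spec 0 (R + 1))).trans
    (hB 0 (by omega) _)
  have hsplit : mass β η n (k + 1) mon = termMass β η n (k + 1) mon +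
      ∑ x ∈ places n m, ∑ G ∈ (multi n (k + 1)).filter (fun G => ¬ Terminal x G),
        coef (obs β mon x) G ^ 2 * weight η x G := by
    rw [mass, termMass, ← sum_add_distrib]
    exact sum_congr rfl fun x _ => (sum_filter_add_sum_filter_not _ _ _).symm
  rw [hsplit]
  refine add_le_add le_rfl ?_
  have key := sum_le_sum (s := places n m) fun x _ =>
    nonterminal_le (β := β) hη hn k mon x
  refine key.trans ?_
  rw [← mul_sum, sum_comm]
  have hκ : 0 ≤ η ^ 2 / (n : ℝ) + 1 / η := by positivity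
  set κ := η ^ 2 / (n : ℝ) + 1 / η
  have hcoef : 0 ≤ β ^ 2 * ((R : ℝ) + (R : ℝ) ^ 2) * κ := by positivity
  refine (mul_le_mul_of_nonneg_left
    (sum_le_sum fun r _ => sum_insert_two_le (liftSpec mon) r hB0 hB) hcoef).trans ?_
  rw [sum_const, card_univ, Fintype.card_fin, nsmul_eq_mul, Nat.cast_add, Nat.cast_one]
  exact le_of_eq_of_le (by ring) (mul_le_mul_of_nonneg_right
    (mul_le_mul_of_nonneg_right (mul_le_mul_of_nonneg_left (const_le m R) (sq_nonneg β)) hκ) hB0)

end

end Vale.Agent.P146.Super
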