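import Vale.Agent.P146.Super.Graph
import Mathlib.Analysis.SpecialFunctions.Gaussian.GaussianIntegral
import Mathlib.MeasureTheory.Integral.Pi

/-!
Gaussian tails for the couplings: exponential moments of squares, maximal coupling and row sums
(module NB of the notes).
-/

namespace Vale.Agent.P146.Super

open MeasureTheory ProbabilityTheory Finset

noncomputable section

variable {n : ℕ}

lemma pdf_mul_exp_sq (s x : ℝ) : gaussianPDFReal 0 1 x * Real.exp (s * x ^ 2) =
    (√(2 * Real.pi))⁻¹ * Real.exp (-(1 / 2 - s) * x ^ 2) := by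
  rw [gaussianPDFReal]
  simp only [NNReal.coe_one, mul_one, sub_zero]
  rw [mul_assoc, ← Real.exp_add]
  ring_nf

lemma integrable_exp_sq {s : ℝ} (hs : s < 1 / 2) :
    Integrable (fun x : ℝ => Real.exp (s * x ^ 2)) (gaussianReal 0 1) := by
  rw [gaussianReal_of_var_ne_zero _ one_ne_zero]
  refine (integrable_withDensity_iff_integrable_smul' (by fun_prop)
    (ae_of_all _ fun x => ENNReal.ofReal_lt_top)).2 ?_
  refine (integrable_congr (ae_of_all _ fun x => ?_)).2
    ((integrable_exp_neg_mul_sq (by linarith : 0 < 1 / 2 - s)).const_mul (√(2 * Real.pi))⁻¹)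
  simp only [smul_eq_mul]
  rw [ENNReal.toReal_ofReal (gaussianPDFReal_nonneg _ _ _), pdf_mul_exp_sq]

lemma integral_exp_sq {s : ℝ} (hs : s < 1 / 2) :
    ∫ x, Real.exp (s * x ^ 2) ∂gaussianReal 0 1 = (√(1 - 2 * s))⁻¹ := by
  rw [integral_gaussianReal_eq_integral_smul one_ne_zero]
  simp only [smul_eq_mul, pdf_mul_exp_sq]
  rw [integral_const_mul, integral_gaussian,
    show Real.pi / (1 / 2 - s) = 2 * Real.pi / (1 - 2 * s) by field_simp,
    Real.sqrt_div (by positivity)]
  have : 0 < √(2 * Real.pi) := by positivity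
  field_simp

lemma mgf_centered {s : ℝ} (hs : |s| ≤ 1 / 8) :
    ∫ x, Real.exp (s * (x ^ 2 - 1)) ∂gaussianReal 0 1 ≤ Real.exp (4 * s ^ 2) := by
  obtain ⟨h1, h2⟩ := abs_le.1 hs
  have hpos : (0 : ℝ) < 1 - 2 * s := by linarith
  have e : (fun x : ℝ => Real.exp (s * (x ^ 2 - 1))) =
      fun x => Real.exp (-s) * Real.exp (s * x ^ 2) := by
    funext x; rw [← Real.exp_add]; ring_nf
  rw [e, integral_const_mul, integral_exp_sq (by linarith)]
  have h3 : 1 / (1 - 2 * s) ≤ Real.exp (2 * s / (1 - 2 * s)) := by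
    refine le_trans (le_of_eq ?_) (Real.add_one_le_exp _)
    rw [div_add_one hpos.ne']
    ring_nf
  have h4 : (√(1 - 2 * s))⁻¹ ≤ Real.exp (2 * s / (1 - 2 * s) / 2) := by
    rw [Real.exp_half, ← Real.sqrt_inv, inv_eq_one_div]
    exact Real.sqrt_le_sqrt h3
  refine (mul_le_mul_of_nonneg_left h4 (Real.exp_pos _).le).trans ?_
  rw [← Real.exp_add]
  refine Real.exp_le_exp.2 ?_
  have h5 : 2 * s / (1 - 2 * s) / 2 ≤ s + 4 * s ^ 2 := by
    rw [div_div, div_le_iff₀ (by linarith)]
    nlinarith [sq_nonneg s]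
  linarith

lemma integrable_exp_sum_tail (S : Finset (Edge n)) {a : ℝ} (ha : a < 1 / 2) :
    Integrable (fun g : Edge n → ℝ => Real.exp (a * ∑ e ∈ S, (g e ^ 2 - 1))) (law n) := by
  classical
  have e : (fun g : Edge n → ℝ => Real.exp (a * ∑ e ∈ S, (g e ^ 2 - 1))) =
      fun g => ∏ e, (if e ∈ S then Real.exp (a * (g e ^ 2 - 1)) else 1) := by
    funext g
    rw [mul_sum, Real.exp_sum, Fintype.prod_ite_mem]
  rw [e]
  refine Integrable.fintype_prod (f := fun e x => if e ∈ S then Real.exp (a * (x ^ 2 - 1)) else 1)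
    fun e => ?_
  by_cases he : e ∈ S
  · simp only [if_pos he]
    refine ((integrable_exp_sq ha).const_mul (Real.exp (-a))).congr (ae_of_all _ fun x => ?_)
    simp only []
    rw [← Real.exp_add]; ring_nf
  · simp only [if_neg he]
    exact integrable_const _

lemma integral_exp_sum_le (S : Finset (Edge n)) {a : ℝ} (ha : |a| ≤ 1 / 8) :
    ∫ g, Real.exp (a * ∑ e ∈ S, (g e ^ 2 - 1)) ∂law n ≤ Real.exp (4 * a ^ 2 * S.card) := by
  classical
  have e : ∀ g : Edge n → ℝ, Real.exp (a * ∑ e ∈ S, (g e ^ 2 - 1)) =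
      ∏ e, (if e ∈ S then Real.exp (a * (g e ^ 2 - 1)) else 1) := fun g => by
    rw [mul_sum, Real.exp_sum, Fintype.prod_ite_mem]
  simp only [e]
  rw [integral_fintype_prod_eq_prod
    (f := fun e x => if e ∈ S then Real.exp (a * (x ^ 2 - 1)) else 1)]
  calc ∏ e, ∫ x, (if e ∈ S then Real.exp (a * (x ^ 2 - 1)) else 1) ∂gaussianReal 0 1
      ≤ ∏ e, (if e ∈ S then Real.exp (4 * a ^ 2) else 1) := by
        refine Finset.prod_le_prod (fun e _ => ?_) fun e _ => ?_
        · split_ifs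
          · exact integral_nonneg fun x => (Real.exp_pos _).le
          · simp
        · split_ifs
          · exact mgf_centered ha
          · simp
    _ = Real.exp (4 * a ^ 2 * S.card) := by
        rw [Fintype.prod_ite_mem, prod_const, ← Real.exp_nat_mul]; ring_nf

/-- Two-sided Chernoff bound for a sum of centred squares. -/
lemma law_sum_sq_tail (S : Finset (Edge n)) {a : ℝ} (ha0 : 0 ≤ a) (ha : a ≤ 1 / 8) (t : ℝ) :
    (law n).real {g | t ≤ |∑ e ∈ S, (g e ^ 2 - 1)|} ≤
      2 * Real.exp (4 * a ^ 2 * S.card - a * t) := by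
  have key : ∀ b : ℝ, |b| ≤ 1 / 8 →
      (law n).real {g | |b| * t ≤ b * ∑ e ∈ S, (g e ^ 2 - 1)} ≤
        Real.exp (4 * b ^ 2 * S.card - |b| * t) := by
    intro b hb
    have h := mul_meas_ge_le_integral_of_nonneg (μ := law n) (ae_of_all _ fun g => (Real.exp_pos _).le)
      (integrable_exp_sum_tail S (by linarith [abs_le.1 hb] : b < 1 / 2)) (Real.exp (|b| * t))
    simp only [Real.exp_le_exp] at h
    rw [Real.exp_sub, le_div_iff₀ (Real.exp_pos _), mul_comm]
    exact h.trans (integral_exp_sum_le S hb)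
  have h1 := key a (by rwa [abs_of_nonneg ha0])
  have h2 := key (-a) (by rwa [abs_neg, abs_of_nonneg ha0])
  rw [abs_of_nonneg ha0] at h1
  rw [abs_neg, abs_of_nonneg ha0, neg_sq] at h2
  have hsub : {g : Edge n → ℝ | t ≤ |∑ e ∈ S, (g e ^ 2 - 1)|} ⊆
      {g | a * t ≤ a * ∑ e ∈ S, (g e ^ 2 - 1)} ∪ {g | a * t ≤ -a * ∑ e ∈ S, (g e ^ 2 - 1)} := by
    intro g hg
    rcases le_abs.1 (show t ≤ |∑ e ∈ S, (g e ^ 2 - 1)| from hg) with h | h
    · exact Or.inl (mul_le_mul_of_nonneg_left h ha0)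
    · refine Or.inr ?_
      have := mul_le_mul_of_nonneg_left h ha0
      simp only [Set.mem_ofPred_eq]; linarith
  exact (measureReal_mono hsub).trans ((measureReal_union_le _ _).trans (by linarith))

/-- No coupling is large. -/
lemma law_abs_large {A : ℝ} (hA : 1 ≤ A) (e : Edge n) :
    (law n).real {g | A ≤ |g e|} ≤ 2 * Real.exp (1 - A ^ 2 / 8) := by
  have h := law_sum_sq_tail {e} (a := 1 / 8) (by norm_num) le_rfl (A ^ 2 - 1)
  simp only [card_singleton, sum_singleton] at h
  have hsub : {g : Edge n → ℝ | A ≤ |g e|} ⊆ {g | A ^ 2 - 1 ≤ |g e ^ 2 - 1|} := fun g hg => by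
    have : A ^ 2 ≤ g e ^ 2 := by
      rw [← sq_abs (g e)]
      exact pow_le_pow_left₀ (by linarith) hg 2
    exact le_trans (sub_le_sub_right this 1) (le_abs_self _)
  refine (measureReal_mono hsub).trans (h.trans ?_)
  refine mul_le_mul_of_nonneg_left (Real.exp_le_exp.2 ?_) zero_le_two
  push_cast
  linarith

/-- A row sum of the matrix as a sum over edges. -/
lemma row_sum (g : Edge n → ℝ) (u : Fin n) :
    ∑ l, jmat g u l ^ 2 = (∑ e ∈ univ.filter (inc u), g e ^ 2) / n := by
  classical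
  have hn : (0 : ℝ) ≤ n := Nat.cast_nonneg n
  rw [sum_div]
  have e1 : ∑ l, jmat g u l ^ 2 = ∑ l ∈ univ.filter (fun l => u ≠ l),
      jmat g u l ^ 2 := by
    refine (sum_subset (filter_subset _ _) fun l _ hl => ?_).symm
    simp only [mem_filter, mem_univ, true_and, not_not] at hl
    simp [jmat, hl]
  rw [e1]
  refine sum_bij (fun l hl => mkEdge u l (mem_filter.1 hl).2) ?_ ?_ ?_ ?_
  · intro l hl
    exact mem_filter.2 ⟨mem_univ _, inc_mkEdge_left u l _⟩
  · intro l hl l' hl' h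
    exact mkEdge_inj _ _ h
  · intro e he
    obtain ⟨l, hl, rfl⟩ := exists_other (mem_filter.1 he).2
    exact ⟨l, mem_filter.2 ⟨mem_univ _, hl⟩, rfl⟩
  · intro l hl
    rw [jmat, dif_neg (mem_filter.1 hl).2, div_pow, Real.sq_sqrt hn]

lemma card_inc (u : Fin n) : (univ.filter (inc u : Edge n → Prop)).card = n - 1 := by
  classical
  have h : (univ.filter fun l => u ≠ l).card = (univ.filter (inc u : Edge n → Prop)).card := by
    refine card_bij (fun l hl => mkEdge u l (mem_filter.1 hl).2) ?_ ?_ ?_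
    · intro l hl
      exact mem_filter.2 ⟨mem_univ _, inc_mkEdge_left u l _⟩
    · intro l hl l' hl' h
      exact mkEdge_inj _ _ h
    · intro e he
      obtain ⟨l, hl, rfl⟩ := exists_other (mem_filter.1 he).2
      exact ⟨l, mem_filter.2 ⟨mem_univ _, hl⟩, rfl⟩
  rw [← h, filter_ne, card_erase_of_mem (mem_univ u), card_univ, Fintype.card_fin]

lemma card_edges_le : (Fintype.card (Edge n) : ℝ) ≤ (n : ℝ) ^ 2 := by
  have h : Fintype.card (Edge n) ≤ n * n := by
    refine (Fintype.card_le_of_injective (fun e : Edge n => e.1) Subtype.val_injective).trans ?_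
    simp
  calc (Fintype.card (Edge n) : ℝ) ≤ ((n * n : ℕ) : ℝ) := by exact_mod_cast h
    _ = _ := by push_cast; ring

end

end Vale.Agent.P146.Super
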