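import Vale.Agent.P146.Super.Defs
import Vale.Agent.P146.Bound

/-!
# P146, superconcentration: replicated Gibbs averages

Boundedness, derivative in one coupling, behaviour under spin flips, relabelling and merging.
-/

namespace Vale.Agent.P146.Super

open MeasureTheory ProbabilityTheory Finset

noncomputable section

variable {n m R : ℕ}

/-- The spin monomial of a specification. -/
def monom (mon : Spec m R) (x : Fin m → Fin n) (s : Fin R → Fin n → Bool) : ℝ :=
  ∏ i, ∏ r ∈ mon i, spinVal (s r (x i))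

/-- The spin product of an edge. -/
def bond (e : Edge n) (σ : Fin n → Bool) : ℝ := spinVal (σ e.1.1) * spinVal (σ e.1.2)

/-- The replicated Gibbs average of any function of the replicas. -/
def avg (β : ℝ) (g : Edge n → ℝ) (f : (Fin R → Fin n → Bool) → ℝ) : ℝ :=
  ∑ s, (∏ r, gibbs β g (s r)) * f s

lemma obs_eq_avg (β : ℝ) (mon : Spec m R) (x : Fin m → Fin n) (g : Edge n → ℝ) :
    obs β mon x g = avg β g (monom mon x) := rfl

lemma spinVal_mul_self (b : Bool) : spinVal b * spinVal b = 1 := by cases b <;> simp [spinVal]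

lemma abs_monom (mon : Spec m R) (x : Fin m → Fin n) (s : Fin R → Fin n → Bool) :
    |monom mon x s| = 1 := by
  simp [monom, Finset.abs_prod, abs_spinVal]

lemma gibbs_nonneg (β : ℝ) (g : Edge n → ℝ) (σ : Fin n → Bool) : 0 ≤ gibbs β g σ :=
  div_nonneg (Real.exp_pos _).le (sum_exp_pos β g).le

lemma sum_gibbs (β : ℝ) (g : Edge n → ℝ) : ∑ σ, gibbs β g σ = 1 := by
  simp only [gibbs, ← Finset.sum_div]
  exact div_self (sum_exp_pos β g).ne'

lemma sum_prod_gibbs (β : ℝ) (g : Edge n → ℝ) :
    ∑ s : Fin R → Fin n → Bool, ∏ r, gibbs β g (s r) = 1 := by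
  rw [← Fintype.prod_sum (f := fun (_ : Fin R) σ => gibbs β g σ), sum_gibbs, Finset.prod_const_one]

lemma abs_avg_le (β : ℝ) (g : Edge n → ℝ) {f : (Fin R → Fin n → Bool) → ℝ} {C : ℝ}
    (hf : ∀ s, |f s| ≤ C) : |avg β g f| ≤ C := by
  refine (abs_sum_le_sum_abs _ _).trans ((sum_le_sum fun s _ => ?_).trans_eq
    (by rw [← Finset.sum_mul, sum_prod_gibbs (R := R) β g, one_mul]))
  rw [abs_mul, abs_of_nonneg (prod_nonneg fun r _ => gibbs_nonneg β g (s r))]
  exact mul_le_mul_of_nonneg_left (hf s) (prod_nonneg fun r _ => gibbs_nonneg β g (s r))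

theorem abs_obs_le_one (β : ℝ) (mon : Spec m R) (x : Fin m → Fin n) (g : Edge n → ℝ) :
    |obs β mon x g| ≤ 1 :=
  abs_avg_le β g fun s => (abs_monom mon x s).le

theorem measurable_obs (β : ℝ) (mon : Spec m R) (x : Fin m → Fin n) :
    Measurable (obs β mon x) := by
  unfold obs gibbs energy; fun_prop

lemma measurable_avg (β : ℝ) (f : (Fin R → Fin n → Bool) → ℝ) :
    Measurable fun g : Edge n → ℝ => avg β g f := by
  unfold avg gibbs energy; fun_prop

lemma energy_update (g : Edge n → ℝ) (e : Edge n) (t : ℝ) (σ : Fin n → Bool) :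
    energy (Function.update g e t) σ = energy g σ + (t - g e) * bond e σ / Real.sqrt n := by
  simp only [energy, ← add_div]
  congr 1
  rw [← Finset.add_sum_erase _ _ (mem_univ e), ← Finset.add_sum_erase _ _ (mem_univ e),
    Function.update_self]
  have : ∀ d ∈ (univ : Finset (Edge n)).erase e,
      Function.update g e t d * (spinVal (σ d.1.1) * spinVal (σ d.1.2)) =
        g d * (spinVal (σ d.1.1) * spinVal (σ d.1.2)) := fun d hd => by
    rw [Function.update_of_ne (ne_of_mem_erase hd)]
  rw [sum_congr rfl this]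
  simp only [bond]
  ring

lemma hasDerivAt_gibbs (β : ℝ) (g : Edge n → ℝ) (e : Edge n) (σ : Fin n → Bool) :
    HasDerivAt (fun t => gibbs β (Function.update g e t) σ)
      (gibbs β g σ * (β / Real.sqrt n * (bond e σ - ∑ τ, gibbs β g τ * bond e τ))) (g e) := by
  have hE : ∀ τ, HasDerivAt (fun t => Real.exp (β * energy (Function.update g e t) τ))
      (Real.exp (β * energy g τ) * (β / Real.sqrt n * bond e τ)) (g e) := by
    intro τ
    simp only [energy_update]
    have h := (((((hasDerivAt_id' (g e)).sub_const (g e)).mul_const (bond e τ)).div_const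
      (Real.sqrt n)).const_add (energy g τ)).const_mul β |>.exp
    refine h.congr_deriv ?_
    simp only [sub_self, zero_mul, zero_div, add_zero]
    ring
  have hZ := HasDerivAt.fun_sum (u := (univ : Finset (Fin n → Bool))) fun τ _ => hE τ
  have h0 : Function.update g e (g e) = g := Function.update_eq_self e g
  have hne : (∑ τ, Real.exp (β * energy (Function.update g e (g e)) τ)) ≠ 0 :=
    (sum_exp_pos β _).ne'
  have h := (hE σ).fun_div hZ hne
  refine h.congr_deriv ?_
  simp only [h0, gibbs]
  rw [show ∑ τ, Real.exp (β * energy g τ) * (β / Real.sqrt n * bond e τ) =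
      β / Real.sqrt n * ∑ τ, Real.exp (β * energy g τ) * bond e τ by
        rw [Finset.mul_sum]; exact sum_congr rfl fun τ _ => by ring,
    show ∑ τ, Real.exp (β * energy g τ) / (∑ τ', Real.exp (β * energy g τ')) * bond e τ =
      (∑ τ, Real.exp (β * energy g τ) * bond e τ) / ∑ τ', Real.exp (β * energy g τ') by
        rw [Finset.sum_div]; exact sum_congr rfl fun τ _ => by ring]
  have := (sum_exp_pos β g).ne'
  field_simp

/-- The coefficient of a replica in the derivative: the last replica is the fresh one. -/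
def dcoef (R : ℕ) (r : Fin (R + 1)) : ℝ := if r = Fin.last R then -(R : ℝ) else 1

lemma sum_dcoef_sq (R : ℕ) : ∑ r : Fin (R + 1), dcoef R r ^ 2 = (R : ℝ) + (R : ℝ) ^ 2 := by
  rw [Fin.sum_univ_castSucc]
  simp [dcoef, Fin.castSucc_ne_last]

lemma avg_succ (β : ℝ) (g : Edge n → ℝ) (f : (Fin (R + 1) → Fin n → Bool) → ℝ) :
    avg β g f = ∑ τ, gibbs β g τ * avg β g fun s => f (Fin.snoc s τ) := by
  simp only [avg, Finset.mul_sum]
  rw [← (Fin.snocEquiv fun _ : Fin (R + 1) => Fin n → Bool).sum_comp, Fintype.sum_prod_type]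
  refine sum_congr rfl fun τ _ => sum_congr rfl fun s _ => ?_
  rw [Fin.prod_univ_castSucc]
  simp only [Fin.snocEquiv, Equiv.coe_fn_mk, Fin.snoc_castSucc, Fin.snoc_last]
  ring

/-- The derivative of a replicated average brings one replica more. -/
theorem hasDerivAt_avg (β : ℝ) (g : Edge n → ℝ) (e : Edge n)
    (f : (Fin R → Fin n → Bool) → ℝ) :
    HasDerivAt (fun t => avg β (Function.update g e t) f)
      (β / Real.sqrt n * ∑ r : Fin (R + 1), dcoef R r *
        avg β g fun s => f (fun i => s i.castSucc) * bond e (s r)) (g e) := by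
  set μ := ∑ τ, gibbs β g τ * bond e τ with hμ
  have hP : ∀ s : Fin R → Fin n → Bool,
      HasDerivAt (fun t => (∏ r, gibbs β (Function.update g e t) (s r)) * f s)
        ((∏ r, gibbs β g (s r)) * (β / Real.sqrt n * (∑ r, bond e (s r) - R * μ)) * f s)
        (g e) := by
    intro s
    refine ((HasDerivAt.fun_finsetProd fun r (_ : r ∈ (univ : Finset (Fin R))) =>
      hasDerivAt_gibbs β g e (s r)).mul_const (f s)).congr_deriv ?_
    congr 1
    simp only [Function.update_eq_self, smul_eq_mul]
    rw [mul_sub, Finset.mul_sum, mul_sub, Finset.mul_sum,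
      show ∀ a : ℝ, a * (β / Real.sqrt n * (R * μ)) = ∑ _r : Fin R, a * (β / Real.sqrt n * μ) from
        fun a => by rw [sum_const, card_univ, Fintype.card_fin, nsmul_eq_mul]; ring,
      ← Finset.sum_sub_distrib]
    refine sum_congr rfl fun r _ => ?_
    rw [← Finset.mul_prod_erase univ (fun r => gibbs β g (s r)) (mem_univ r)]
    ring
  refine (HasDerivAt.fun_sum (u := (univ : Finset (Fin R → Fin n → Bool))) fun s _ => hP s
    ).congr_deriv ?_
  rw [Fin.sum_univ_castSucc]
  have e1 : ∀ i : Fin R, avg β g (fun s : Fin (R + 1) → Fin n → Bool =>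
      f (fun j => s j.castSucc) * bond e (s i.castSucc)) = avg β g fun s => f s * bond e (s i) := by
    intro i
    rw [avg_succ]
    simp only [Fin.snoc_castSucc, ← Finset.sum_mul, sum_gibbs, one_mul]
  have e2 : avg β g (fun s : Fin (R + 1) → Fin n → Bool =>
      f (fun j => s j.castSucc) * bond e (s (Fin.last R))) = μ * avg β g f := by
    rw [avg_succ, hμ, Finset.sum_mul]
    simp only [Fin.snoc_castSucc, Fin.snoc_last, avg, Finset.mul_sum]
    exact sum_congr rfl fun τ _ => sum_congr rfl fun s _ => by ring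
  simp only [dcoef, Fin.castSucc_ne_last, if_false, if_true, one_mul]
  rw [e2, sum_congr rfl fun i (_ : i ∈ (univ : Finset (Fin R))) => e1 i]
  simp only [avg]
  rw [Finset.sum_comm, ← mul_assoc (-(R : ℝ)) μ, Finset.mul_sum (a := -(R : ℝ) * μ),
    ← Finset.sum_add_distrib, Finset.mul_sum (a := β / Real.sqrt n)]
  refine sum_congr rfl fun s _ => ?_
  rw [show ∑ i : Fin R, (∏ r : Fin R, gibbs β g (s r)) * (f s * bond e (s i)) =
      (∏ r, gibbs β g (s r)) * f s * ∑ i, bond e (s i) by
        rw [Finset.mul_sum]; exact sum_congr rfl fun i _ => by ring]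
  ring

theorem hasDerivAt_obs (β : ℝ) (mon : Spec m R) (x : Fin m → Fin n) (g : Edge n → ℝ) (e : Edge n) :
    HasDerivAt (fun t => obs β mon x (Function.update g e t))
      (β / Real.sqrt n * ∑ r : Fin (R + 1), dcoef R r *
        avg β g fun s => monom mon x (fun i => s i.castSucc) * bond e (s r)) (g e) :=
  hasDerivAt_avg β g e (monom mon x)

/-- The replica sets, seen among one replica more. -/
def liftSpec (mon : Spec m R) : Spec m (R + 1) := fun i => (mon i).map Fin.castSuccEmb

lemma monom_lift (mon : Spec m R) (x : Fin m → Fin n) (s : Fin (R + 1) → Fin n → Bool) :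
    monom (liftSpec mon) x s = monom mon x fun i => s i.castSucc := by
  simp [monom, liftSpec]

lemma monom_snoc (mon : Spec m R) (x : Fin m → Fin n) (S : Finset (Fin R)) (v : Fin n)
    (s : Fin R → Fin n → Bool) :
    monom (Fin.snoc mon S : Spec (m + 1) R) (Fin.snoc x v) s =
      monom mon x s * ∏ r ∈ S, spinVal (s r v) := by
  simp only [monom]
  rw [Fin.prod_univ_castSucc]
  simp

lemma prod_symmDiff {ι : Type*} [DecidableEq ι] (A B : Finset ι) (f : ι → ℝ)
    (hf : ∀ r, f r * f r = 1) :
    ∏ r ∈ symmDiff A B, f r = (∏ r ∈ A, f r) * ∏ r ∈ B, f r := by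
  have hd : Disjoint (A \ B) (B \ A) := disjoint_sdiff_sdiff
  rw [symmDiff_def, sup_eq_union, prod_union hd,
    ← prod_inter_mul_prod_sdiff A B f, ← prod_inter_mul_prod_sdiff B A f, inter_comm B A]
  have h1 : (∏ r ∈ A ∩ B, f r) * ∏ r ∈ A ∩ B, f r = 1 := by
    rw [← prod_mul_distrib]; exact prod_eq_one fun r _ => hf r
  linear_combination (-((∏ r ∈ A \ B, f r) * ∏ r ∈ B \ A, f r)) * h1

lemma monom_toggle (mon : Spec m R) (x : Fin m → Fin n) (i : Fin m) (S : Finset (Fin R))
    (s : Fin R → Fin n → Bool) :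
    monom (Function.update mon i (symmDiff (mon i) S)) x s =
      monom mon x s * ∏ r ∈ S, spinVal (s r (x i)) := by
  simp only [monom]
  rw [← Finset.mul_prod_erase univ _ (mem_univ i), ← Finset.mul_prod_erase univ _ (mem_univ i),
    Function.update_self, prod_symmDiff _ _ _ fun r => spinVal_mul_self _,
    prod_congr (g := fun j => ∏ r ∈ mon j, spinVal (s r (x j))) rfl fun j hj => by
      rw [Function.update_of_ne (ne_of_mem_erase hj)]]
  ring

/-- Merging two marks at the same vertex. -/
theorem obs_merge (β : ℝ) (mon : Spec (m + 1) R) (x : Fin (m + 1) → Fin n) {i j : Fin (m + 1)}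
    (hij : i ≠ j) (hx : x i = x j) (g : Edge n → ℝ) :
    obs β mon x g =
      obs β (fun k => Function.update mon i (symmDiff (mon i) (mon j)) (j.succAbove k))
        (fun k => x (j.succAbove k)) g := by
  simp only [obs_eq_avg]
  congr 1
  funext s
  have h := monom_toggle mon x i (mon j) s
  unfold monom at h ⊢
  rw [Fin.prod_univ_succAbove _ j, Function.update_of_ne hij.symm, hx] at h
  have h1 : (∏ r ∈ mon j, spinVal (s r (x j))) * ∏ r ∈ mon j, spinVal (s r (x j)) = 1 := by
    rw [← prod_mul_distrib]; exact prod_eq_one fun r _ => spinVal_mul_self _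
  linear_combination (-(∏ r ∈ mon j, spinVal (s r (x j)))) * h
    + ((∏ k, ∏ r ∈ Function.update mon i (symmDiff (mon i) (mon j)) (j.succAbove k),
        spinVal (s r (x (j.succAbove k)))) - ∏ k, ∏ r ∈ mon k, spinVal (s r (x k))) * h1

/-- The flip of the spin at one vertex. -/
def flipAt (v : Fin n) (σ : Fin n → Bool) : Fin n → Bool :=
  fun w => if w = v then !σ w else σ w

/-- The couplings at a vertex with changed sign. -/
def negAt (v : Fin n) (g : Edge n → ℝ) : Edge n → ℝ := fun e => if inc v e then -g e else g e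

lemma spinVal_flipAt (v w : Fin n) (σ : Fin n → Bool) :
    spinVal (flipAt v σ w) = (if w = v then -1 else 1) * spinVal (σ w) := by
  by_cases h : w = v
  · cases hb : σ w <;> simp [flipAt, spinVal, h, h ▸ hb]
  · simp [flipAt, h]

lemma flipAt_flipAt (v : Fin n) (σ : Fin n → Bool) : flipAt v (flipAt v σ) = σ := by
  funext w; by_cases h : w = v <;> simp [flipAt, h]

/-- Flipping is an involution. -/
def flipEquiv (v : Fin n) : (Fin n → Bool) ≃ (Fin n → Bool) :=
  ⟨flipAt v, flipAt v, flipAt_flipAt v, flipAt_flipAt v⟩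

lemma energy_negAt (v : Fin n) (g : Edge n → ℝ) (σ : Fin n → Bool) :
    energy (negAt v g) (flipAt v σ) = energy g σ := by
  simp only [energy]
  congr 1
  refine sum_congr rfl fun e _ => ?_
  have hne : e.1.1 ≠ e.1.2 := ne_of_lt e.2
  simp only [spinVal_flipAt, negAt, inc]
  by_cases h1 : e.1.1 = v
  · have h2 : e.1.2 ≠ v := fun h => hne (h1.trans h.symm)
    simp [h1, h2]
  · by_cases h2 : e.1.2 = v
    · simp [h1, h2]
    · simp [h1, h2]

lemma gibbs_negAt (β : ℝ) (v : Fin n) (g : Edge n → ℝ) (σ : Fin n → Bool) :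
    gibbs β (negAt v g) (flipAt v σ) = gibbs β g σ := by
  simp only [gibbs]
  rw [← (flipEquiv v).sum_comp (fun τ => Real.exp (β * energy (negAt v g) τ)), energy_negAt]
  simp [flipEquiv, energy_negAt]

/-- The number of spins of a specification at a vertex. -/
def spinsAt (mon : Spec m R) (x : Fin m → Fin n) (v : Fin n) : ℕ :=
  ∑ i ∈ univ.filter (fun i => x i = v), (mon i).card

lemma obs_negAt (β : ℝ) (v : Fin n) (mon : Spec m R) (x : Fin m → Fin n) (g : Edge n → ℝ) :
    obs β mon x (negAt v g) = (-1) ^ spinsAt mon x v * obs β mon x g := by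
  have key : ∀ s : Fin R → Fin n → Bool,
      monom mon x (fun r => flipAt v (s r)) = (-1) ^ spinsAt mon x v * monom mon x s := by
    intro s
    simp only [monom, spinVal_flipAt, prod_mul_distrib, prod_const]
    congr 1
    rw [spinsAt, ← prod_pow_eq_pow_sum, prod_filter]
    refine prod_congr rfl fun i _ => ?_
    by_cases h : x i = v <;> simp [h]
  simp only [obs_eq_avg, avg, Finset.mul_sum]
  rw [← (Equiv.piCongrRight fun _ : Fin R => flipEquiv v).sum_comp]
  refine sum_congr rfl fun s _ => ?_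
  show (∏ r, gibbs β (negAt v g) (flipAt v (s r))) * monom mon x (fun r => flipAt v (s r)) = _
  rw [key, prod_congr rfl fun r (_ : r ∈ univ) => gibbs_negAt β v g (s r)]
  ring

lemma mkEdge_swap (u l : Fin n) (h : u ≠ l) (h' : l ≠ u) : mkEdge u l h = mkEdge l u h' := by
  unfold mkEdge
  rcases lt_or_gt_of_ne h with hlt | hlt
  · rw [dif_pos hlt, dif_neg (not_lt.2 hlt.le)]
  · rw [dif_neg (not_lt.2 hlt.le), dif_pos hlt]

lemma mkEdge_ends (e : Edge n) (h : e.1.1 ≠ e.1.2) : mkEdge e.1.1 e.1.2 h = e := by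
  unfold mkEdge; rw [dif_pos e.2]

lemma bond_mkEdge (u l : Fin n) (h : u ≠ l) (σ : Fin n → Bool) :
    bond (mkEdge u l h) σ = spinVal (σ u) * spinVal (σ l) := by
  unfold mkEdge bond
  split
  · rfl
  · exact mul_comm _ _

lemma mapEdge_symm_apply (π : Equiv.Perm (Fin n)) (e : Edge n) :
    mapEdge π.symm (mapEdge π e) = e := by
  have hne : e.1.1 ≠ e.1.2 := ne_of_lt e.2
  rcases lt_or_gt_of_ne (fun h => hne (π.injective h) : π e.1.1 ≠ π e.1.2) with hlt | hlt
  · simp [mapEdge, mkEdge, hlt, e.2]
  · simp [mapEdge, mkEdge, not_lt.2 hlt.le, not_lt.2 e.2.le]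

/-- The edge map as an equivalence. -/
def mapEdgeEquiv (π : Equiv.Perm (Fin n)) : Edge n ≃ Edge n :=
  ⟨mapEdge π, mapEdge π.symm, mapEdge_symm_apply π,
    fun e => by simpa using mapEdge_symm_apply π.symm e⟩

lemma bond_relabel (π : Equiv.Perm (Fin n)) (e : Edge n) (σ : Fin n → Bool) :
    bond (mapEdge π e) σ = bond e fun v => σ (π v) := by
  rw [mapEdge, bond_mkEdge]; rfl

lemma energy_relabel (π : Equiv.Perm (Fin n)) (g : Edge n → ℝ) (σ : Fin n → Bool) :
    energy (fun e => g (mapEdge π e)) (fun v => σ (π v)) = energy g σ := by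
  simp only [energy]
  congr 1
  rw [← (mapEdgeEquiv π).sum_comp fun e => g e * (spinVal (σ e.1.1) * spinVal (σ e.1.2))]
  exact sum_congr rfl fun e _ => congrArg (g (mapEdge π e) * ·) (bond_relabel π e σ).symm

lemma gibbs_relabel (β : ℝ) (π : Equiv.Perm (Fin n)) (g : Edge n → ℝ) (σ : Fin n → Bool) :
    gibbs β (fun e => g (mapEdge π e)) (fun v => σ (π v)) = gibbs β g σ := by
  simp only [gibbs]
  rw [← (π.symm.arrowCongr (Equiv.refl Bool)).sum_comp
    (fun τ => Real.exp (β * energy (fun e => g (mapEdge π e)) τ)), energy_relabel]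
  congr 1
  exact sum_congr rfl fun τ _ => congrArg (fun z => Real.exp (β * z)) (energy_relabel π g τ)

lemma obs_relabel (β : ℝ) (π : Equiv.Perm (Fin n)) (mon : Spec m R) (x : Fin m → Fin n)
    (g : Edge n → ℝ) :
    obs β mon x (fun e => g (mapEdge π e)) = obs β mon (fun i => π (x i)) g := by
  simp only [obs_eq_avg, avg]
  rw [← (Equiv.piCongrRight fun _ : Fin R => π.symm.arrowCongr (Equiv.refl Bool)).sum_comp]
  refine sum_congr rfl fun s _ => ?_
  congr 1
  exact prod_congr rfl fun r _ => gibbs_relabel β π g (s r)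

end

end Vale.Agent.P146.Super
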