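import Vale.Agent.P146.Super.Step
import Vale.Agent.P146.Super.Hermite
import Vale.Agent.P146.Bound

/-!
# P146, superconcentration: reduction of the variance to the mass of the two-mark specification

`Var F_n` is at most the low Hermite coefficients of the pair correlations, which are dominated by
the weighted mass, plus a tail of order `n / k`.
-/

namespace Vale.Agent.P146.Super

open MeasureTheory ProbabilityTheory Finset

noncomputable section

variable {n : ℕ}

/-- The specification of a pair correlation. -/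
def mon2 : Spec 2 1 := fun _ => Finset.univ

/-- The two ends of an edge. -/
def ends (e : Edge n) : Fin 2 → Fin n := ![e.1.1, e.1.2]

lemma ends_injective (e : Edge n) : Function.Injective (ends e) := by
  intro i j h
  have hne : e.1.1 ≠ e.1.2 := ne_of_lt e.2
  fin_cases i <;> fin_cases j <;> simp [ends] at h ⊢ <;> first | exact hne h | exact hne h.symm

lemma ends_injective' : Function.Injective (ends (n := n)) := fun _ _ h =>
  Subtype.ext (Prod.ext (congrFun h 0) (congrFun h 1))

lemma obs_ends (β : ℝ) (e : Edge n) (g : Edge n → ℝ) :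
    obs β mon2 (ends e) g = ∑ σ, gibbs β g σ * bond e σ := by
  unfold obs mon2
  rw [← (Equiv.funUnique (Fin 1) (Fin n → Bool)).symm.sum_comp]
  refine sum_congr rfl fun σ _ => ?_
  simp [Fin.prod_univ_two, ends, bond]

lemma hasDerivAt_freeEnergy (β : ℝ) (e : Edge n) (g : Edge n → ℝ) :
    HasDerivAt (fun t => freeEnergy n β (Function.update g e t))
      (β / Real.sqrt n * obs β mon2 (ends e) g) (g e) := by
  have hE : ∀ τ, HasDerivAt (fun t => Real.exp (β * energy (Function.update g e t) τ))
      (Real.exp (β * energy g τ) * (β * (bond e τ / Real.sqrt n))) (g e) := by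
    intro τ
    have h1 : HasDerivAt (fun t => β * energy (Function.update g e t) τ)
        (β * (bond e τ / Real.sqrt n)) (g e) := by
      simp only [energy_update]
      have h0 := ((((hasDerivAt_id (g e)).sub_const (g e)).mul_const (bond e τ)).div_const
        (Real.sqrt n)).const_add (energy g τ)
      simpa using h0.const_mul β
    simpa [Function.update_eq_self] using h1.exp
  have hS := HasDerivAt.fun_sum (u := (univ : Finset (Fin n → Bool))) fun τ _ => hE τ
  have h2 := hS.log (by
    simp only [Function.update_eq_self]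
    exact (sum_exp_pos β g).ne')
  unfold freeEnergy
  convert! h2 using 1
  rw [obs_ends, Finset.mul_sum, Finset.sum_div]
  simp only [Function.update_eq_self]
  refine sum_congr rfl fun τ _ => ?_
  rw [gibbs]
  ring

lemma card_edge_two (n : ℕ) : (Fintype.card (Edge n) : ℝ) ≤ (n : ℝ) ^ 2 / 2 := by
  rw [le_div_iff₀ two_pos, mul_comm]
  exact_mod_cast card_edge (n := n)

/-- **Step 1.** Low coefficients of the pair correlations plus a tail. -/
theorem variance_le_pairs (hn : 2 ≤ n) {β : ℝ} (hβ : 0 ≤ β) (k : ℕ) :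
    variance (freeEnergy n β) (law n)
      ≤ β ^ 2 / n * ∑ e, ∑ G ∈ multi n k, coef (obs β mon2 (ends e)) G ^ 2
        + β ^ 2 * n / (2 * ((k : ℝ) + 1)) := by
  have hn0 : (0 : ℝ) < n := by exact_mod_cast (by omega : 0 < n)
  have hs : (1 : ℝ) ≤ Real.sqrt n := Real.one_le_sqrt.2 (by exact_mod_cast (by omega : 1 ≤ n))
  have hsq : (β / Real.sqrt n) ^ 2 = β ^ 2 / n := by rw [div_pow, Real.sq_sqrt hn0.le]
  have hd : ∀ (e : Edge n) (g : Edge n → ℝ),
      |β / Real.sqrt n * obs β mon2 (ends e) g| ≤ ((n : ℝ) * Real.log 2 + β) + β * ∑ i, |g i| := by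
    intro e g
    have h0 : 0 ≤ (n : ℝ) * Real.log 2 + β * ∑ i, |g i| :=
      add_nonneg (mul_nonneg hn0.le (Real.log_nonneg one_le_two))
        (mul_nonneg hβ (sum_nonneg fun i _ => abs_nonneg (g i)))
    have h1 : |β / Real.sqrt n * obs β mon2 (ends e) g| ≤ β * 1 := by
      rw [abs_mul]
      refine mul_le_mul ?_ (abs_obs_le_one β mon2 (ends e) g) (abs_nonneg _) hβ
      rw [abs_div, abs_of_nonneg hβ, abs_of_nonneg (Real.sqrt_nonneg _)]
      exact div_le_self hβ hs
    linarith
  have hf : ∀ g : Edge n → ℝ,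
      |freeEnergy n β g| ≤ ((n : ℝ) * Real.log 2 + β) + β * ∑ i, |g i| := fun g =>
    (freeEnergy_abs hn hβ g).trans (by linarith)
  refine (variance_le_low_add_tail (measurable_freeEnergy n β)
    (fun e => (measurable_obs β mon2 (ends e)).const_mul _) hf hd
    (hasDerivAt_freeEnergy β) k).trans (add_le_add (le_of_eq ?_) ?_)
  · rw [Finset.mul_sum]
    refine sum_congr rfl fun e _ => ?_
    rw [Finset.mul_sum]
    refine sum_congr rfl fun G _ => ?_
    rw [← hsq, ← mul_pow, coef, coef, ← integral_const_mul]
    congr 1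
    exact integral_congr_ae (ae_of_all _ fun g => mul_assoc _ _ _)
  · rw [← div_div]
    refine div_le_div_of_nonneg_right ?_ (by positivity)
    calc ∑ e, ∫ g, (β / Real.sqrt n * obs β mon2 (ends e) g) ^ 2 ∂law n
        ≤ ∑ _e : Edge n, β ^ 2 / n := by
          refine sum_le_sum fun e _ => ?_
          have hm : Measurable fun g => (β / Real.sqrt n * obs β mon2 (ends e) g) ^ 2 :=
            ((measurable_obs β mon2 (ends e)).const_mul _).pow_const 2
          have hb : ∀ g, (β / Real.sqrt n * obs β mon2 (ends e) g) ^ 2 ≤ β ^ 2 / n := fun g => by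
            rw [mul_pow, hsq]
            refine mul_le_of_le_one_right (by positivity) ?_
            rw [← sq_abs]
            exact pow_le_one₀ (abs_nonneg _) (abs_obs_le_one β mon2 (ends e) g)
          refine (integral_mono ((integrable_const (β ^ 2 / n)).mono' hm.aestronglyMeasurable
            (ae_of_all _ fun g => ?_)) (integrable_const _) hb).trans_eq (by simp)
          rw [Real.norm_eq_abs, abs_of_nonneg (sq_nonneg _)]
          exact hb g
      _ ≤ β ^ 2 * n / 2 := by
          rw [sum_const, nsmul_eq_mul, card_univ]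
          refine (mul_le_mul_of_nonneg_right (card_edge_two n) (by positivity)).trans (le_of_eq ?_)
          field_simp

lemma inv_le_weight {η : ℝ} (hη : 1 ≤ η) (e : Edge n) {G : MG n}
    (hG : ParityOK mon2 (ends e) G) : (n : ℝ)⁻¹ ≤ weight η (ends e) G := by
  classical
  have hne : e.1.1 ≠ e.1.2 := ne_of_lt e.2
  have hη0 : 0 < η := lt_of_lt_of_le one_pos hη
  have hmark : ∀ v, (∃ i, ends e i = v) ↔ v = e.1.1 ∨ v = e.1.2 := fun v => by
    simp [Fin.exists_fin_two, ends, eq_comm]
  have hodd : ∀ v, v = e.1.1 ∨ v = e.1.2 → deg G v % 2 = 1 := by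
    intro v hv
    have h := hG v
    rw [Finset.sum_filter, Fin.sum_univ_two] at h
    rcases hv with rfl | rfl
    · simpa [mon2, ends, hne.symm] using h
    · simpa [mon2, ends, hne] using h
  have heven : ∀ v, ¬ (v = e.1.1 ∨ v = e.1.2) → deg G v % 2 = 0 := by
    intro v hv
    rw [not_or] at hv
    have h := hG v
    rw [Finset.sum_filter, Fin.sum_univ_two] at h
    simpa [mon2, ends, Ne.symm hv.1, Ne.symm hv.2] using h
  have hterm : ∀ v, (if v = e.1.1 ∨ v = e.1.2 then (Real.sqrt n)⁻¹ else 1)
      ≤ wv n η (deg G v) (decide (∃ i, ends e i = v)) := by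
    intro v
    by_cases hv : v = e.1.1 ∨ v = e.1.2
    · rw [if_pos hv, wv, phi2, omega, if_pos (hodd v hv), if_pos (hodd v hv), pow_one]
      exact le_mul_of_one_le_right (by positivity) (one_le_zpow₀ hη (by positivity))
    · rw [if_neg hv, wv, decide_eq_false (fun h => hv ((hmark v).1 h)), phi2, omega]
      have h0 : ¬ deg G v % 2 = 1 := by rw [heven v hv]; omega
      simp only [if_neg h0, Bool.false_eq_true, and_false, if_false, pow_zero, inv_one, one_mul]
      refine one_le_zpow₀ hη ?_
      split_ifs
      · exact Nat.cast_nonneg _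
      · exact le_rfl
  refine le_trans (le_of_eq ?_)
    (Finset.prod_le_prod (fun v _ => by split_ifs <;> positivity) fun v _ => hterm v)
  rw [Finset.prod_ite, Finset.prod_const_one, mul_one, Finset.prod_const,
    show (univ.filter fun v => v = e.1.1 ∨ v = e.1.2) = {e.1.1, e.1.2} by ext v; simp,
    card_pair hne, inv_pow, Real.sq_sqrt (Nat.cast_nonneg n)]

/-- **Step 1, weighted form.** The variance is at most the two-mark mass plus the tail. -/
theorem variance_le_mass (hn : 2 ≤ n) {β η : ℝ} (hβ : 0 ≤ β) (hη : 1 ≤ η) (k : ℕ) :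
    variance (freeEnergy n β) (law n)
      ≤ β ^ 2 * mass β η n k mon2 + β ^ 2 * n / (2 * ((k : ℝ) + 1)) := by
  classical
  have hn0 : (0 : ℝ) < n := by exact_mod_cast (by omega : 0 < n)
  have hη0 : 0 < η := lt_of_lt_of_le one_pos hη
  have hw : ∀ (x : Fin 2 → Fin n) (G : MG n), 0 ≤ weight η x G := fun x G =>
    Finset.prod_nonneg fun v _ => by unfold wv; positivity
  refine (variance_le_pairs hn hβ k).trans (add_le_add ?_ le_rfl)
  rw [div_mul_eq_mul_div, div_le_iff₀ hn0, mul_assoc]
  refine mul_le_mul_of_nonneg_left ?_ (sq_nonneg β)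
  unfold mass
  rw [Finset.sum_mul]
  refine le_trans (Finset.sum_le_sum (g := fun e =>
    (∑ G ∈ multi n k, coef (obs β mon2 (ends e)) G ^ 2 * weight η (ends e) G) * (n : ℝ))
    fun e _ => ?_) ?_
  · rw [Finset.sum_mul]
    refine Finset.sum_le_sum fun G _ => ?_
    by_cases h0 : coef (obs β mon2 (ends e)) G = 0
    · simp [h0]
    · rw [mul_assoc]
      refine le_mul_of_one_le_right (sq_nonneg _) ?_
      have h := mul_le_mul_of_nonneg_right (inv_le_weight hη e (parityOK_of_coef_ne_zero h0)) hn0.le
      rwa [inv_mul_cancel₀ hn0.ne'] at h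
  · rw [← Finset.sum_image (f := fun x => (∑ G ∈ multi n k,
      coef (obs β mon2 x) G ^ 2 * weight η x G) * (n : ℝ)) fun a _ b _ h => ends_injective' h]
    refine Finset.sum_le_sum_of_subset_of_nonneg (fun x hx => ?_) fun x _ _ =>
      mul_nonneg (Finset.sum_nonneg fun G _ => mul_nonneg (sq_nonneg _) (hw x G)) hn0.le
    obtain ⟨e, -, rfl⟩ := Finset.mem_image.1 hx
    simp [places, ends_injective]

end

end Vale.Agent.P146.Super
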