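import Vale.Agent.P146.Super.Graph
import Mathlib.Algebra.Order.BigOperators.Ring.Finset

/-!
# P146, superconcentration: Hermite expansion of non-backtracking walks

The expansion `zval` is compared with the walks made of fresh steps only, through a relaxed
transfer operator with nonnegative coefficients.
-/

namespace Vale.Agent.P146.Super

open Finset

noncomputable section

variable {n : ℕ}

lemma mul_herm_self (k : ℕ) (x : ℝ) :
    herm k x * x = Real.sqrt ((k : ℝ) + 1) * herm (k + 1) x + Real.sqrt (k : ℝ) * herm (k - 1) x := by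
  cases k with
  | zero => simp [herm]
  | succ j =>
    have hj : (0 : ℝ) < Real.sqrt ((j : ℝ) + 2) := Real.sqrt_pos.2 (by positivity)
    simp only [herm, Nat.add_sub_cancel, Nat.cast_add, Nat.cast_one]
    rw [show (j : ℝ) + 1 + 1 = (j : ℝ) + 2 by ring, mul_div_cancel₀ _ hj.ne']
    ring

lemma hG_mul_self (G : MG n) (g : Edge n → ℝ) (e : Edge n) :
    hG G g * g e = Real.sqrt ((G e : ℝ) + 1) * hG (addE G e) g
      + Real.sqrt (G e : ℝ) * hG (delE G e) g := by
  unfold hG
  rw [← Finset.mul_prod_erase univ (fun f => herm (G f) (g f)) (mem_univ e),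
    ← Finset.mul_prod_erase univ (fun f => herm (addE G e f) (g f)) (mem_univ e),
    ← Finset.mul_prod_erase univ (fun f => herm (delE G e f) (g f)) (mem_univ e),
    Finset.prod_congr rfl fun f hf =>
      show herm (addE G e f) (g f) = herm (G f) (g f) by rw [addE_of_ne _ (ne_of_mem_erase hf)],
    Finset.prod_congr rfl fun f hf =>
      show herm (delE G e f) (g f) = herm (G f) (g f) by rw [delE_of_ne _ (ne_of_mem_erase hf)]]
  rw [addE_self, delE_self, mul_right_comm, mul_herm_self]
  ring

/-- The exact Hermite expansion of a product with a walk sum. -/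
lemma hG_mul_nbw (g : Edge n → ℝ) (z : Fin n → ℝ) : ∀ (r : ℕ) (p u : Fin n) (G : MG n),
    hG G g * nbw g z r p u = zval r p u G fun y G' => hG G' g * z y := by
  intro r
  induction r with
  | zero => intro p u G; simp [nbw, zval]
  | succ r ih =>
    intro p u G
    simp only [nbw, zval, Finset.mul_sum]
    refine Finset.sum_congr rfl fun l _ => ?_
    by_cases h : u = l
    · subst h; simp [jmat]
    by_cases hp : l = p
    · simp [hp]
    simp only [dif_neg h, if_neg hp, jmat]
    rw [← ih, ← ih, show hG G g * (g (mkEdge u l h) / Real.sqrt n * nbw g z r u l)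
      = hG G g * g (mkEdge u l h) * nbw g z r u l / Real.sqrt n by ring, hG_mul_self]
    ring

/-- The walk expansion is linear in the function it is applied to. -/
lemma zval_sum {ι : Type*} (s : Finset ι) (c : ι → ℝ) (f : ι → Fin n → MG n → ℝ) :
    ∀ (r : ℕ) (p u : Fin n) (G : MG n),
      zval r p u G (fun y G' => ∑ i ∈ s, c i * f i y G') = ∑ i ∈ s, c i * zval r p u G (f i) := by
  intro r
  induction r with
  | zero => intro p u G; simp [zval]
  | succ r ih =>
    intro p u G
    simp only [zval, Finset.mul_sum]
    rw [Finset.sum_comm]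
    refine Finset.sum_congr rfl fun l _ => ?_
    by_cases h : u = l
    · simp [h]
    by_cases hp : l = p
    · simp [hp]
    simp only [dif_neg h, if_neg hp, ih, Finset.mul_sum]
    rw [← Finset.sum_add_distrib, Finset.sum_div]
    refine Finset.sum_congr rfl fun i _ => ?_
    ring

/-- The relaxed transfer operator: in the forward phase only additions are allowed. -/
def rel (M : Finset (Fin n)) : ℕ → Bool → Fin n → MG n → (Fin n → MG n → ℝ) → ℝ
  | 0, _, u, G, f => f u G
  | r + 1, ph, u, G, f => ∑ l, if h : u = l then 0 else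
      if Fresh M G l then rel M r true l (addE G (mkEdge u l h)) f / Real.sqrt n
      else (Real.sqrt ((G (mkEdge u l h) : ℝ) + 1) * rel M r false l (addE G (mkEdge u l h)) f
        + if ph then 0
          else Real.sqrt (G (mkEdge u l h) : ℝ) * rel M r false l (delE G (mkEdge u l h)) f)
        / Real.sqrt n

lemma rel_nonneg (M : Finset (Fin n)) {f : Fin n → MG n → ℝ} (hf : ∀ u G, 0 ≤ f u G) :
    ∀ (r : ℕ) (ph : Bool) (u : Fin n) (G : MG n), 0 ≤ rel M r ph u G f := by
  intro r
  induction r with
  | zero => intro ph u G; exact hf u G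
  | succ r ih =>
    intro ph u G
    refine Finset.sum_nonneg fun l _ => ?_
    by_cases h : u = l
    · simp [h]
    rw [dif_neg h]
    split
    · exact div_nonneg (ih _ _ _) (Real.sqrt_nonneg _)
    · refine div_nonneg (add_nonneg (mul_nonneg (Real.sqrt_nonneg _) (ih _ _ _)) ?_)
        (Real.sqrt_nonneg _)
      split
      · exact le_refl _
      · exact mul_nonneg (Real.sqrt_nonneg _) (ih _ _ _)

/-- Only the edge to `p` meets `u`. -/
def Inv (p u : Fin n) (G : MG n) : Prop :=
  (∀ l, ∀ h : u ≠ l, l ≠ p → G (mkEdge u l h) = 0) ∧ (p = u ∨ 0 < deg G p)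

lemma inv_fresh_step {M : Finset (Fin n)} {G : MG n} {u l : Fin n} (h : u ≠ l)
    (hl : Fresh M G l) : Inv u l (addE G (mkEdge u l h)) := by
  refine ⟨fun w hw hwu => ?_, Or.inr ?_⟩
  · have h0 : G (mkEdge l w hw) = 0 :=
      Nat.le_zero.1 (hl.1 ▸ le_deg G (inc_mkEdge_left l w hw))
    rw [addE_of_ne, h0]
    intro he
    refine hwu (mkEdge_inj hw h.symm ?_)
    rw [he, mkEdge_symm]
  · rw [deg_addE, if_pos (inc_mkEdge_left u l h)]
    omega

lemma inv_start {G : MG n} {v : Fin n} (hv : deg G v = 0) : Inv v v G :=
  ⟨fun _ h _ => Nat.le_zero.1 (hv ▸ le_deg G (inc_mkEdge_left v _ h)), Or.inl rfl⟩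

lemma abs_zval_le (M : Finset (Fin n)) (f : Fin n → MG n → ℝ) : ∀ (r : ℕ) (p u : Fin n) (G : MG n),
    |zval r p u G f| ≤ rel M r false u G (fun y G' => |f y G'|) ∧
      (Inv p u G → |zval r p u G f| ≤ rel M r true u G fun y G' => |f y G'|) := by
  intro r
  induction r with
  | zero => intro p u G; simp [zval, rel]
  | succ r ih =>
    intro p u G
    have key : ∀ ph : Bool, (ph = true → Inv p u G) →
        |zval (r + 1) p u G f| ≤ rel M (r + 1) ph u G fun y G' => |f y G'| := by
      intro ph hph
      simp only [zval, rel]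
      refine (Finset.abs_sum_le_sum_abs _ _).trans (Finset.sum_le_sum fun l _ => ?_)
      by_cases h : u = l
      · simp [h]
      rw [dif_neg h, dif_neg h]
      have hs := Real.sqrt_nonneg (n : ℝ)
      have hnn : ∀ (ph' : Bool) (u' : Fin n) (G' : MG n),
          0 ≤ rel M r ph' u' G' fun y G' => |f y G'| :=
        rel_nonneg M (fun _ _ => abs_nonneg _) r
      by_cases hp : l = p
      · rw [if_pos hp, abs_zero]
        split
        · exact div_nonneg (hnn _ _ _) hs
        · refine div_nonneg (add_nonneg (mul_nonneg (Real.sqrt_nonneg _) (hnn _ _ _)) ?_) hs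
          split
          · exact le_refl _
          · exact mul_nonneg (Real.sqrt_nonneg _) (hnn _ _ _)
      rw [if_neg hp, abs_div, abs_of_nonneg hs]
      by_cases hl : Fresh M G l
      · rw [if_pos hl, fresh_edge hl h]
        refine div_le_div_of_nonneg_right ?_ hs
        simp only [Nat.cast_zero, zero_add, Real.sqrt_one, one_mul, Real.sqrt_zero, zero_mul, add_zero]
        exact (ih u l _).2 (inv_fresh_step h hl)
      rw [if_neg hl]
      refine div_le_div_of_nonneg_right ((abs_add_le _ _).trans (add_le_add ?_ ?_)) hs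
      · rw [abs_mul, abs_of_nonneg (Real.sqrt_nonneg _)]
        exact mul_le_mul_of_nonneg_left (ih u l _).1 (Real.sqrt_nonneg _)
      · cases ph with
        | false =>
          simp only [Bool.false_eq_true, if_false]
          rw [abs_mul, abs_of_nonneg (Real.sqrt_nonneg _)]
          exact mul_le_mul_of_nonneg_left (ih u l _).1 (Real.sqrt_nonneg _)
        | true => simp [(hph rfl).1 l h hp]
    exact ⟨key false (by simp), fun hinv => key true fun _ => hinv⟩

lemma cleanVal_le_rel (M : Finset (Fin n)) {f : Fin n → MG n → ℝ} (hf : ∀ u G, 0 ≤ f u G) :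
    ∀ (r : ℕ) (u : Fin n) (G : MG n), cleanVal M r u G f ≤ rel M r true u G f := by
  intro r
  induction r with
  | zero => intro u G; simp [cleanVal, rel]
  | succ r ih =>
    intro u G
    simp only [cleanVal, rel]
    refine Finset.sum_le_sum fun l _ => ?_
    by_cases h : u = l
    · simp [h]
    rw [dif_neg h, dif_neg h]
    split
    · exact div_le_div_of_nonneg_right (ih _ _) (Real.sqrt_nonneg _)
    · simp only [if_true, add_zero]
      exact div_nonneg (mul_nonneg (Real.sqrt_nonneg _) (rel_nonneg M hf _ _ _ _)) (Real.sqrt_nonneg _)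

/-- The part of the relaxed operator with at least one step that is not fresh. -/
def dev (M : Finset (Fin n)) (r : ℕ) (u : Fin n) (G : MG n) (f : Fin n → MG n → ℝ) : ℝ :=
  rel M r true u G f - cleanVal M r u G f

lemma dev_nonneg (M : Finset (Fin n)) {f : Fin n → MG n → ℝ} (hf : ∀ u G, 0 ≤ f u G) (r : ℕ)
    (u : Fin n) (G : MG n) : 0 ≤ dev M r u G f :=
  sub_nonneg.2 (cleanVal_le_rel M hf r u G)

lemma dev_succ (M : Finset (Fin n)) (r : ℕ) (u : Fin n) (G : MG n) (f : Fin n → MG n → ℝ) :
    dev M (r + 1) u G f = ∑ l, if h : u = l then 0 else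
      if Fresh M G l then dev M r l (addE G (mkEdge u l h)) f / Real.sqrt n
      else Real.sqrt ((G (mkEdge u l h) : ℝ) + 1) * rel M r false l (addE G (mkEdge u l h)) f
        / Real.sqrt n := by
  unfold dev
  simp only [rel, cleanVal, ← Finset.sum_sub_distrib]
  refine Finset.sum_congr rfl fun l _ => ?_
  by_cases h : u = l
  · simp [h]
  rw [dif_neg h, dif_neg h, dif_neg h]
  split
  · ring
  · simp

lemma abs_zval_sub_clean_le (M : Finset (Fin n)) (f : Fin n → MG n → ℝ) :
    ∀ (r : ℕ) (p u : Fin n) (G : MG n), Inv p u G →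
      |zval r p u G f - cleanVal M r u G f| ≤ dev M r u G fun y G' => |f y G'| := by
  intro r
  induction r with
  | zero => intro p u G _; simp [zval, cleanVal, dev, rel]
  | succ r ih =>
    intro p u G hinv
    rw [dev_succ]
    simp only [zval, cleanVal, ← Finset.sum_sub_distrib]
    refine (Finset.abs_sum_le_sum_abs _ _).trans (Finset.sum_le_sum fun l _ => ?_)
    by_cases h : u = l
    · simp [h]
    rw [dif_neg h, dif_neg h, dif_neg h]
    have hs := Real.sqrt_nonneg (n : ℝ)
    by_cases hl : Fresh M G l
    · have hp : l ≠ p := by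
        intro hp
        rcases hinv.2 with h2 | h2
        · exact h (h2.symm.trans hp.symm)
        · rw [← hp, hl.1] at h2; exact lt_irrefl 0 h2
      rw [if_neg hp, if_pos hl, if_pos hl, fresh_edge hl h]
      simp only [Nat.cast_zero, zero_add, Real.sqrt_one, one_mul, Real.sqrt_zero, zero_mul, add_zero]
      rw [← sub_div, abs_div, abs_of_nonneg hs]
      exact div_le_div_of_nonneg_right (ih u l _ (inv_fresh_step h hl)) hs
    · rw [if_neg hl, if_neg hl, sub_zero]
      by_cases hp : l = p
      · rw [if_pos hp, abs_zero]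
        exact div_nonneg (mul_nonneg (Real.sqrt_nonneg _)
          (rel_nonneg M (fun _ _ => abs_nonneg _) _ _ _ _)) hs
      · rw [if_neg hp, abs_div, abs_of_nonneg hs, hinv.1 l h hp]
        refine div_le_div_of_nonneg_right ?_ hs
        simp only [Nat.cast_zero, zero_add, Real.sqrt_zero, zero_mul, add_zero, Real.sqrt_one, one_mul]
        exact (abs_zval_le M f r u l _).1

end

end Vale.Agent.P146.Super
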