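import Vale.Agent.P146.Super.Items
import Vale.Agent.P146.Super.Walk
import Vale.Agent.P146.Super.Gibbs
import Vale.Agent.P146.Super.Hermite

/-!
# P146, superconcentration: the exact sum over the terminal structures

The exact expansion of all items of a structure gives the Hermite coefficients, at the cycle part,
of the replica average of a product of walk tests. Bessel and the operator bound on a good event
then bound the whole sum.
-/

namespace Vale.Agent.P146.Super

open MeasureTheory ProbabilityTheory Finset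

noncomputable section

variable {n m R : ℕ}

/-! ## Crude size of the walk sums -/

/-- A crude size of the couplings. -/
def crude (g : Edge n → ℝ) : ℝ := 1 + ∑ e, |g e|

lemma one_le_crude (g : Edge n → ℝ) : 1 ≤ crude g :=
  le_add_of_nonneg_right (Finset.sum_nonneg fun _ _ => abs_nonneg _)

lemma crude_nonneg (g : Edge n → ℝ) : 0 ≤ crude g := zero_le_one.trans (one_le_crude g)

lemma measurable_crude : Measurable (crude (n := n)) := by unfold crude; fun_prop

lemma sum_abs_jmat_le (g : Edge n → ℝ) (u : Fin n) : ∑ l, |jmat g u l| ≤ crude g := by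
  classical
  have hn : (1 : ℝ) ≤ Real.sqrt n := Real.one_le_sqrt.2 (by exact_mod_cast u.pos)
  have h1 : ∀ l ∈ (univ : Finset (Fin n)).filter (fun l => u ≠ l),
      |jmat g u l| ≤ if h : u = l then 0 else |g (mkEdge u l h)| := by
    intro l hl
    have hne := (mem_filter.1 hl).2
    rw [jmat, dif_neg hne, dif_neg hne, abs_div, abs_of_nonneg (Real.sqrt_nonneg _)]
    exact div_le_self (abs_nonneg _) hn
  calc ∑ l, |jmat g u l| = ∑ l ∈ univ.filter (fun l => u ≠ l), |jmat g u l| :=
        (sum_subset (filter_subset _ _) fun l _ hl => by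
          simp only [mem_filter, mem_univ, true_and, not_not] at hl
          simp [jmat, hl]).symm
    _ ≤ ∑ l ∈ univ.filter (fun l => u ≠ l), if h : u = l then 0 else |g (mkEdge u l h)| :=
        sum_le_sum h1
    _ = ∑ l : {l : Fin n // u ≠ l}, |g (mkEdge u l.1 l.2)| := by
        rw [sum_subtype (univ.filter fun l => u ≠ l) (p := fun l => u ≠ l) (by simp)]
        exact sum_congr rfl fun l _ => dif_neg l.2
    _ = ∑ e ∈ (univ : Finset {l : Fin n // u ≠ l}).image (fun l => mkEdge u l.1 l.2), |g e| :=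
        (sum_image (f := fun e => |g e|) fun a _ b _ h => Subtype.ext (mkEdge_inj a.2 b.2 h)).symm
    _ ≤ ∑ e, |g e| := sum_le_univ_sum_of_nonneg fun _ => abs_nonneg _
    _ ≤ crude g := by rw [crude]; linarith

lemma abs_nbw_le (g : Edge n → ℝ) (z : Fin n → ℝ) {B : ℝ} (hB : 0 ≤ B) (hz : ∀ u, |z u| ≤ B) :
    ∀ (r : ℕ) (p u : Fin n), |nbw g z r p u| ≤ crude g ^ r * B := by
  intro r
  induction r with
  | zero => intro p u; simpa [nbw] using hz u
  | succ r ih =>
    intro p u
    rw [nbw]
    refine (abs_sum_le_sum_abs _ _).trans ?_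
    refine (sum_le_sum (g := fun l => |jmat g u l| * (crude g ^ r * B)) fun l _ => ?_).trans ?_
    · split_ifs
      · rw [abs_zero]
        exact mul_nonneg (abs_nonneg _) (mul_nonneg (pow_nonneg (crude_nonneg g) _) hB)
      · rw [abs_mul]
        exact mul_le_mul_of_nonneg_left (ih _ _) (abs_nonneg _)
    · rw [← Finset.sum_mul, pow_succ', mul_assoc]
      exact mul_le_mul_of_nonneg_right (sum_abs_jmat_le g u)
        (mul_nonneg (pow_nonneg (crude_nonneg g) _) hB)

lemma measurable_walkSum (z : Fin n → ℝ) : ∀ (r : ℕ) (p u : Fin n),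
    Measurable fun g : Edge n → ℝ => nbw g z r p u := by
  intro r
  induction r with
  | zero => intro p u; exact measurable_const
  | succ r ih =>
    intro p u
    simp only [nbw]
    refine Finset.measurable_sum _ fun l _ => ?_
    split_ifs with h
    · exact measurable_const
    · refine Measurable.mul ?_ (ih u l)
      unfold jmat
      split_ifs
      · exact measurable_const
      · exact (measurable_pi_apply _).div_const _

lemma nbw_sum {ι : Type*} (g : Edge n → ℝ) (s : Finset ι) (c : ι → ℝ) (z : ι → Fin n → ℝ) :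
    ∀ (r : ℕ) (p u : Fin n),
      nbw g (fun y => ∑ i ∈ s, c i * z i y) r p u = ∑ i ∈ s, c i * nbw g (z i) r p u := by
  intro r
  induction r with
  | zero => intro p u; simp [nbw]
  | succ r ih =>
    intro p u
    simp only [nbw, ih, Finset.mul_sum]
    rw [Finset.sum_comm]
    refine sum_congr rfl fun l _ => ?_
    split_ifs
    · simp
    · exact sum_congr rfl fun i _ => by ring

/-- The walk expansion commutes with integration. -/
lemma zval_integral {α : Type*} [MeasurableSpace α] (μ : Measure α) :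
    ∀ (r : ℕ) (p u : Fin n) (G : MG n) (f : α → Fin n → MG n → ℝ),
      (∀ y G', Integrable (fun a => f a y G') μ) →
      Integrable (fun a => zval r p u G (f a)) μ ∧
        zval r p u G (fun y G' => ∫ a, f a y G' ∂μ) = ∫ a, zval r p u G (f a) ∂μ := by
  intro r
  induction r with
  | zero => intro p u G f hf; exact ⟨hf u G, rfl⟩
  | succ r ih =>
    intro p u G f hf
    have hterm : ∀ l : Fin n, Integrable (fun a => if h : u = l then 0 else if l = p then 0 else
        (Real.sqrt ((G (mkEdge u l h) : ℝ) + 1) * zval r u l (addE G (mkEdge u l h)) (f a)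
          + Real.sqrt (G (mkEdge u l h) : ℝ) * zval r u l (delE G (mkEdge u l h)) (f a))
            / Real.sqrt n) μ := by
      intro l
      by_cases h : u = l
      · simp [h]
      by_cases hp : l = p
      · simp [hp]
      simp only [dif_neg h, if_neg hp]
      exact (((ih _ _ _ f hf).1.const_mul _).add ((ih _ _ _ f hf).1.const_mul _)).div_const _
    refine ⟨?_, ?_⟩
    · simp only [zval]
      exact integrable_finsetSum _ fun l _ => hterm l
    · simp only [zval]
      rw [integral_finsetSum _ fun l _ => hterm l]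
      refine sum_congr rfl fun l _ => ?_
      by_cases h : u = l
      · simp [h]
      by_cases hp : l = p
      · simp [hp]
      simp only [dif_neg h, if_neg hp]
      rw [integral_div, integral_add ((ih _ _ _ f hf).1.const_mul _) ((ih _ _ _ f hf).1.const_mul _),
        integral_const_mul, integral_const_mul, (ih _ _ _ f hf).2, (ih _ _ _ f hf).2]

/-! ## Partially placed monomials -/

/-- The spins of one mark. -/
def spins (mon : Spec m R) (i : Fin m) (σ : Fin R → Fin n → Bool) (v : Fin n) : ℝ :=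
  ∏ r ∈ mon i, spinVal (σ r v)

lemma abs_spins (mon : Spec m R) (i : Fin m) (σ : Fin R → Fin n → Bool) (v : Fin n) :
    |spins mon i σ v| = 1 := by
  simp [spins, Finset.abs_prod, abs_spinVal]

/-- The monomial of a partial placement. -/
def pmon (mon : Spec m R) (x : Pl n m) (σ : Fin R → Fin n → Bool) : ℝ :=
  ∏ i, match x i with
    | none => 1
    | some v => spins mon i σ v

lemma abs_pmon (mon : Spec m R) (x : Pl n m) (σ : Fin R → Fin n → Bool) : |pmon mon x σ| = 1 := by
  rw [pmon, Finset.abs_prod]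
  refine prod_eq_one fun i _ => ?_
  cases x i with
  | none => simp
  | some v => exact abs_spins mon i σ v

lemma pmon_setP (mon : Spec m R) (x : Pl n m) (σ : Fin R → Fin n → Bool) {i : Fin m}
    (hi : x i = none) (v : Fin n) :
    pmon mon (setP x i v) σ = pmon mon x σ * spins mon i σ v := by
  rw [pmon, pmon, ← Finset.mul_prod_erase _ _ (mem_univ i), ← Finset.mul_prod_erase _ _ (mem_univ i)]
  simp only [setP, Function.update_self, hi, one_mul]
  rw [mul_comm]
  congr 1
  refine prod_congr rfl fun j hj => ?_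
  rw [Function.update_of_ne (ne_of_mem_erase hj)]

lemma placed_setP_ex (x : Pl n m) (i : Fin m) (v : Fin n) :
    placed (setP x i v) = insert i (placed x) := by
  ext j
  unfold placed
  rw [mem_insert, mem_filter, mem_filter, setP]
  by_cases h : j = i
  · subst h; simp
  · simp [h]

/-- The test function of one item. -/
def qItem (mon : Spec m R) (b : Fin m) : Item m → (Edge n → ℝ) → (Fin R → Fin n → Bool) → ℝ
  | none, _, σ => (∑ v, spins mon b σ v) / Real.sqrt n
  | some (a, r), g, σ => (∑ v, spins mon a σ v * nbw g (spins mon b σ) r v v) / Real.sqrt n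

lemma measurable_qItem (mon : Spec m R) (b : Fin m) (o : Item m) (σ : Fin R → Fin n → Bool) :
    Measurable fun g : Edge n → ℝ => qItem mon b o g σ := by
  rcases o with _ | ⟨a, r⟩
  · exact measurable_const
  · exact (Finset.measurable_sum _ fun v _ => (measurable_walkSum _ r v v).const_mul _).div_const _

lemma abs_qItem_le (hn : 1 ≤ n) (mon : Spec m R) (b : Fin m) (o : Item m) (g : Edge n → ℝ)
    (σ : Fin R → Fin n → Bool) : |qItem mon b o g σ| ≤ (n : ℝ) * crude g ^ len o := by
  have hs : (1 : ℝ) ≤ Real.sqrt n := Real.one_le_sqrt.2 (by exact_mod_cast hn)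
  rcases o with _ | ⟨a, r⟩
  · rw [qItem, abs_div, abs_of_nonneg (Real.sqrt_nonneg _), len, pow_zero, mul_one]
    refine (div_le_self (abs_nonneg _) hs).trans ((abs_sum_le_sum_abs _ _).trans ?_)
    simp [abs_spins]
  · rw [qItem, abs_div, abs_of_nonneg (Real.sqrt_nonneg _)]
    refine (div_le_self (abs_nonneg _) hs).trans ((abs_sum_le_sum_abs _ _).trans ?_)
    refine (sum_le_sum (g := fun _ : Fin n => crude g ^ r) fun v _ => ?_).trans (by simp [len])
    rw [abs_mul, abs_spins, one_mul]
    simpa using abs_nbw_le g (spins mon b σ) zero_le_one (fun u => (abs_spins mon b σ u).le) r v v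

/-- The squared size of one item test on the good event, in units of `n`. -/
def goodCost : Item m → ℝ
  | none => 1
  | some (_, r) => (4 * ((r : ℝ) + 1)) ^ 2

lemma goodCost_nonneg (o : Item m) : 0 ≤ goodCost o := by
  rcases o with _ | ⟨a, r⟩ <;> simp [goodCost, sq_nonneg]

lemma sq_qItem_le {j : ℕ} (mon : Spec m R) (b : Fin m) (o : Item m) (ho : len o ≤ j)
    (g : Edge n → ℝ)
    (hg : ∀ r ≤ j, ∀ z : Fin n → ℝ, ∑ u, nbw g z r u u ^ 2 ≤ (4 * ((r : ℝ) + 1)) ^ 2 * ∑ u, z u ^ 2)
    (σ : Fin R → Fin n → Bool) : qItem mon b o g σ ^ 2 ≤ (n : ℝ) * goodCost o := by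
  rcases Nat.eq_zero_or_pos n with hn | hn
  · subst hn
    rcases o with _ | ⟨a, r⟩ <;> simp [qItem, goodCost]
  have hn' : (0 : ℝ) < n := by exact_mod_cast hn
  have h1 : ∀ (i : Fin m) (v : Fin n), spins mon i σ v ^ 2 = 1 := fun i v => by
    rw [← sq_abs, abs_spins, one_pow]
  rcases o with _ | ⟨a, r⟩
  · rw [qItem, div_pow, Real.sq_sqrt hn'.le, goodCost, mul_one, div_le_iff₀ hn']
    refine sq_sum_le_card_mul_sum_sq.trans (le_of_eq ?_)
    simp [h1]
  · rw [qItem, div_pow, Real.sq_sqrt hn'.le, goodCost, div_le_iff₀ hn']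
    refine (Finset.sum_mul_sq_le_sq_mul_sq _ _ _).trans ?_
    have h2 := hg r ho (spins mon b σ)
    simp only [h1, Finset.sum_const, Finset.card_univ, Fintype.card_fin, nsmul_eq_mul, mul_one] at h2 ⊢
    calc (n : ℝ) * ∑ u, nbw g (spins mon b σ) r u u ^ 2
        ≤ (n : ℝ) * ((4 * ((r : ℝ) + 1)) ^ 2 * n) := mul_le_mul_of_nonneg_left h2 hn'.le
      _ = _ := by ring

/-! ## The representation -/

lemma em_crude_pow (k : ℕ) : EM fun g : Edge n → ℝ => crude g ^ k := by
  refine ⟨(k.factorial : ℝ) * Real.exp 1, 1, by positivity, zero_le_one, fun g => ?_⟩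
  rw [abs_of_nonneg (pow_nonneg (crude_nonneg g) _), mul_assoc, ← Real.exp_add, one_mul]
  have h := Real.pow_div_factorial_le_exp _ (crude_nonneg g) k
  rw [div_le_iff₀' (by positivity)] at h
  simpa [crude] using h

lemma em_of_le_crude {F : (Edge n → ℝ) → ℝ} (A : ℝ) (k : ℕ)
    (h : ∀ g, |F g| ≤ A * crude g ^ k) : EM F := by
  obtain ⟨C, a, hC, ha, hk⟩ := em_crude_pow (n := n) k
  refine ⟨|A| * C, a, by positivity, ha, fun g => (h g).trans ?_⟩
  rw [mul_assoc]
  exact mul_le_mul (le_abs_self A) ((le_abs_self _).trans (hk g))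
    (pow_nonneg (crude_nonneg g) _) (abs_nonneg A)

/-- The replica average of a partial monomial times a test. -/
def pavg (β : ℝ) (mon : Spec m R) (Q : (Edge n → ℝ) → (Fin R → Fin n → Bool) → ℝ) (x : Pl n m)
    (g : Edge n → ℝ) : ℝ :=
  avg β g fun σ => pmon mon x σ * Q g σ

lemma measurable_pavg (β : ℝ) (mon : Spec m R) {Q : (Edge n → ℝ) → (Fin R → Fin n → Bool) → ℝ}
    (hQ : ∀ σ, Measurable fun g => Q g σ) (x : Pl n m) : Measurable (pavg β mon Q x) := by
  unfold pavg avg
  refine Finset.measurable_sum _ fun σ _ => Measurable.mul ?_ ((hQ σ).const_mul _)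
  unfold gibbs energy
  fun_prop

lemma abs_pavg_le (β : ℝ) (mon : Spec m R) {Q : (Edge n → ℝ) → (Fin R → Fin n → Bool) → ℝ}
    (x : Pl n m) (g : Edge n → ℝ) {B : ℝ} (h : ∀ σ, |Q g σ| ≤ B) : |pavg β mon Q x g| ≤ B :=
  abs_avg_le β g fun σ => by rw [abs_mul, abs_pmon, one_mul]; exact h σ

/-- A state vector given by the Hermite coefficients of replica averages. -/
def Rep (β : ℝ) (mon : Spec m R) (S : Finset (Fin m))
    (Q : (Edge n → ℝ) → (Fin R → Fin n → Bool) → ℝ) (h : St n m → ℝ) : Prop :=
  ∀ x G, placed x = S → h (x, G) = coef (pavg β mon Q x) G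

lemma rep_opE (β : ℝ) (mon : Spec m R) {S : Finset (Fin m)}
    {Q : (Edge n → ℝ) → (Fin R → Fin n → Bool) → ℝ} {h : St n m → ℝ} (hh : Rep β mon S Q h)
    (hQ : ∀ σ, Measurable fun g => Q g σ) {A : ℝ} {k : ℕ}
    (hQb : ∀ g σ, |Q g σ| ≤ A * crude g ^ k) {b : Fin m} (hb : b ∈ S) (o : Item m)
    (ho : ∀ a r, o = some (a, r) → a ∈ S ∧ a ≠ b) :
    Rep β mon (rest S b o) (fun g σ => Q g σ * qItem mon b o g σ) (opE b o h) := by
  intro x G hx
  have hint : ∀ (y : Pl n m) (H : MG n),
      Integrable (fun g => pavg β mon Q y g * hG H g) (law n) := fun y H =>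
    ((em_of_le_crude A k fun g => abs_pavg_le β mon y g (hQb g)).mul (em_hG H)).integrable
      ((measurable_pavg β mon hQ y).mul (measurable_hG H))
  have hnone : ∀ i, i ∉ placed x → x i = none := fun i hi => by
    simpa [placed] using hi
  rcases o with _ | ⟨a, r⟩
  · have hxb : x b = none := hnone b (by rw [hx]; simp [rest])
    have hp : ∀ v, placed (setP x b v) = S := fun v => by
      rw [placed_setP_ex, hx]; simp [rest, insert_erase hb]
    simp only [opE]
    rw [sum_congr rfl fun v _ => hh _ G (hp v)]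
    simp only [coef]
    rw [← integral_finsetSum _ fun v _ => hint _ _, ← integral_div]
    congr 1
    funext g
    simp only [pavg, avg, qItem, pmon_setP mon x _ hxb, Finset.sum_mul, Finset.mul_sum,
      Finset.sum_div]
    rw [Finset.sum_comm]
    exact sum_congr rfl fun σ _ => sum_congr rfl fun v _ => by ring
  · obtain ⟨haS, hab⟩ := ho a r rfl
    have hxa : x a = none := hnone a (by rw [hx]; simp [rest])
    have hxb : x b = none := hnone b (by rw [hx]; simp [rest])
    have hxb' : ∀ v, setP x a v b = none := fun v => by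
      simp [setP, Function.update_of_ne (Ne.symm hab), hxb]
    have hp : ∀ v y, placed (setP (setP x a v) b y) = S := fun v y => by
      rw [placed_setP_ex, placed_setP_ex, hx]
      simp only [rest]
      rw [insert_erase (mem_erase.2 ⟨hab, haS⟩), insert_erase hb]
    simp only [opE]
    rw [sum_congr rfl fun v (_ : v ∈ univ) =>
      show zval r v v G (fun y H => h (setP (setP x a v) b y, H))
        = zval r v v G (fun y H => ∫ g, pavg β mon Q (setP (setP x a v) b y) g * hG H g ∂law n) by
      congr 1; funext y H; exact hh _ H (hp v y)]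
    have hz := fun v : Fin n => zval_integral (law n) r v v G
      (fun g y H => pavg β mon Q (setP (setP x a v) b y) g * hG H g) fun y H => hint _ H
    rw [sum_congr rfl fun v _ => (hz v).2, ← integral_finsetSum _ fun v _ => (hz v).1,
      ← integral_div, coef]
    congr 1
    funext g
    have hlin : ∀ v : Fin n,
        zval r v v G (fun y H => pavg β mon Q (setP (setP x a v) b y) g * hG H g)
          = ∑ σ, (∏ i, gibbs β g (σ i)) * (pmon mon x σ * Q g σ * spins mon a σ v) *
              (hG G g * nbw g (spins mon b σ) r v v) := by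
      intro v
      rw [show (fun y H => pavg β mon Q (setP (setP x a v) b y) g * hG H g)
          = fun y H => hG H g * ∑ σ, ((∏ i, gibbs β g (σ i)) *
              (pmon mon x σ * Q g σ * spins mon a σ v)) * spins mon b σ y by
        funext y H
        simp only [pavg, avg, pmon_setP mon _ _ (hxb' v), pmon_setP mon x _ hxa, Finset.sum_mul,
          Finset.mul_sum]
        exact sum_congr rfl fun σ _ => by ring]
      rw [← hG_mul_nbw, nbw_sum, Finset.mul_sum]
      exact sum_congr rfl fun σ _ => by ring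
    simp only [hlin]
    simp only [pavg, avg, qItem, Finset.sum_mul, Finset.mul_sum, Finset.sum_div]
    rw [Finset.sum_comm]
    exact sum_congr rfl fun σ _ => sum_congr rfl fun v _ => by ring

lemma rep_cof (β : ℝ) (mon : Spec m R) : Rep (n := n) β mon univ (fun _ _ => 1) (cof β mon) := by
  intro x G hx
  have hall : ∀ i, (x i).isSome := fun i => by
    have := (Finset.ext_iff.1 hx i).2 (mem_univ i)
    simpa [placed] using this
  rw [cof, dif_pos hall]
  congr 1
  funext g
  rw [obs_eq_avg, pavg]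
  congr 1
  funext σ
  rw [mul_one, pmon, monom]
  refine prod_congr rfl fun i _ => ?_
  obtain ⟨v, hv⟩ := Option.isSome_iff_exists.1 (hall i)
  simp [hv, spins]

/-! ## The induction over the structures -/

/-- The number of items of a set of marks. -/
def nIt (mon : Spec m R) (S : Finset (Fin m)) : ℕ :=
  (S.filter (Odd' mon)).card / 2 + (S.filter fun i => ¬ Odd' mon i).card

lemma nIt_le (mon : Spec m R) (S : Finset (Fin m)) : nIt mon S ≤ S.card := by
  have h := Finset.card_filter_add_card_filter_not (s := S) (Odd' mon)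
  unfold nIt
  omega

lemma mem_items {mon : Spec m R} {S : Finset (Fin m)} {b : Fin m} {j : ℕ} {o : Item m}
    (ho : o ∈ items mon S b j) :
    (o = none ∧ ¬ Odd' mon b) ∨
      ∃ a r, o = some (a, r) ∧ Odd' mon b ∧ a ∈ S ∧ a ≠ b ∧ Odd' mon a ∧ r ≤ j := by
  unfold items at ho
  split_ifs at ho with h
  · simp only [mem_image, mem_product, mem_filter, mem_erase, mem_Icc] at ho
    obtain ⟨⟨a, r⟩, ⟨⟨⟨hab, haS⟩, hao⟩, -, hr⟩, rfl⟩ := ho
    exact Or.inr ⟨a, r, rfl, h, haS, hab, hao, hr⟩
  · exact Or.inl ⟨mem_singleton.1 ho, h⟩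

lemma len_le_of_mem {mon : Spec m R} {S : Finset (Fin m)} {b : Fin m} {j : ℕ} {o : Item m}
    (ho : o ∈ items mon S b j) : len o ≤ j := by
  rcases mem_items ho with ⟨rfl, -⟩ | ⟨a, r, rfl, -, -, -, -, hr⟩
  · exact Nat.zero_le _
  · exact hr

lemma card_rest_lt {mon : Spec m R} {S : Finset (Fin m)} {b : Fin m} {j : ℕ} {o : Item m}
    (hb : b ∈ S) (ho : o ∈ items mon S b j) : (rest S b o).card < S.card := by
  rcases mem_items ho with ⟨rfl, -⟩ | ⟨a, r, rfl, -⟩
  · exact card_erase_lt_of_mem hb
  · exact (card_le_card (erase_subset _ _)).trans_lt (card_erase_lt_of_mem hb)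

lemma nIt_rest {mon : Spec m R} {S : Finset (Fin m)} {b : Fin m} {j : ℕ} {o : Item m}
    (hb : b ∈ S) (ho : o ∈ items mon S b j) : nIt mon (rest S b o) + 1 = nIt mon S := by
  rcases mem_items ho with ⟨rfl, hbo⟩ | ⟨a, r, rfl, hbo, haS, hab, hao, -⟩
  · unfold nIt rest
    rw [filter_erase, filter_erase, card_erase_of_mem (by simp [hb, hbo] :
        b ∈ S.filter fun i => ¬ Odd' mon i), erase_eq_of_notMem (by simp [hbo] :
        b ∉ S.filter (Odd' mon))]
    have : 0 < (S.filter fun i => ¬ Odd' mon i).card := card_pos.2 ⟨b, by simp [hb, hbo]⟩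
    omega
  · unfold nIt rest
    have ha' : a ∈ (S.filter (Odd' mon)).erase b := by simp [haS, hab, hao]
    have hb' : b ∈ S.filter (Odd' mon) := by simp [hb, hbo]
    rw [filter_erase, filter_erase, filter_erase, filter_erase, card_erase_of_mem ha',
      card_erase_of_mem hb', erase_eq_of_notMem (a := b) (by simp [hbo] :
        b ∉ S.filter fun i => ¬ Odd' mon i),
      erase_eq_of_notMem (a := a) (by simp [hao] : a ∉ S.filter fun i => ¬ Odd' mon i)]
    have : 2 ≤ (S.filter (Odd' mon)).card := by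
      have := card_pos.2 ⟨a, ha'⟩
      rw [card_erase_of_mem hb'] at this
      omega
    omega

/-- The total good cost of the items of one step. -/
def stepCost (m j : ℕ) : ℝ := 1 + 16 * (m : ℝ) * ((j : ℝ) + 1) ^ 3

lemma one_le_stepCost (m j : ℕ) : 1 ≤ stepCost m j :=
  le_add_of_nonneg_right (by positivity)

lemma sum_goodCost_le (mon : Spec m R) (S : Finset (Fin m)) (b : Fin m) {j J : ℕ} (hj : j ≤ J) :
    ∑ o ∈ items mon S b j, goodCost o ≤ stepCost m J := by
  unfold items
  split_ifs
  · rw [sum_image fun x _ y _ h => Option.some_injective _ h]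
    refine (sum_le_card_nsmul _ _ ((4 * ((J : ℝ) + 1)) ^ 2) fun x hx => ?_).trans ?_
    · have hr : x.2 ≤ J := (mem_Icc.1 (mem_product.1 hx).2).2.trans hj
      have : (x.2 : ℝ) ≤ J := by exact_mod_cast hr
      exact pow_le_pow_left₀ (by positivity) (by linarith) 2
    · rw [nsmul_eq_mul, card_product, Nat.card_Icc]
      have h1 : ((S.erase b).filter (Odd' mon)).card ≤ m :=
        (card_le_univ _).trans_eq (Fintype.card_fin m)
      have h2 : j + 1 - 1 ≤ J + 1 := by omega
      have h3 : ((((S.erase b).filter (Odd' mon)).card * (j + 1 - 1) : ℕ) : ℝ)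
          ≤ (m : ℝ) * ((J : ℝ) + 1) := by exact_mod_cast Nat.mul_le_mul h1 h2
      refine (mul_le_mul_of_nonneg_right h3 (by positivity)).trans ?_
      unfold stepCost
      nlinarith
  · simpa [goodCost] using one_le_stepCost m J

lemma card_items_le (mon : Spec m R) (S : Finset (Fin m)) (b : Fin m) {j J : ℕ} (hj : j ≤ J) :
    ((items mon S b j).card : ℝ) ≤ stepCost m J := by
  refine le_trans ?_ (sum_goodCost_le mon S b hj)
  rw [← nsmul_one]
  refine card_nsmul_le_sum _ _ _ fun o _ => ?_
  rcases o with _ | ⟨a, r⟩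
  · exact le_of_eq (by simp [goodCost])
  · simp only [goodCost]
    nlinarith [show (0 : ℝ) ≤ r from Nat.cast_nonneg r]

lemma cycSq_le (β : ℝ) (mon : Spec m R) {Q : (Edge n → ℝ) → (Fin R → Fin n → Bool) → ℝ}
    {h : St n m → ℝ} (hh : Rep β mon ∅ Q h) (hQ : ∀ σ, Measurable fun g => Q g σ) {A : ℝ} {k : ℕ}
    (hQb : ∀ g σ, |Q g σ| ≤ A * crude g ^ k) (j : ℕ) :
    cycSq j h ≤ ∫ g, pavg β mon Q (noPl n m) g ^ 2 ∂law n := by
  unfold cycSq
  rw [sum_congr rfl fun D _ => by rw [hh (noPl n m) D (by simp [placed, noPl])]]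
  exact sum_coef_sq_le ((em_of_le_crude A k fun g => abs_pavg_le β mon _ g (hQb g)).memLp
    (measurable_pavg β mon hQ _)) _

lemma lsum_le (hn : 1 ≤ n) (β : ℝ) (mon : Spec m R) {J : ℕ} {Good : Set (Edge n → ℝ)}
    (hGood : ∀ g ∈ Good, ∀ r ≤ J, ∀ z : Fin n → ℝ,
      ∑ u, nbw g z r u u ^ 2 ≤ (4 * ((r : ℝ) + 1)) ^ 2 * ∑ u, z u ^ 2)
    (hGm : MeasurableSet Good) :
    ∀ (p : ℕ) (S : Finset (Fin m)) (j : ℕ) (Q : (Edge n → ℝ) → (Fin R → Fin n → Bool) → ℝ)
      (h : St n m → ℝ) (A : ℝ), j ≤ J → S.card ≤ p → 0 ≤ A → Rep β mon S Q h →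
      (∀ σ, Measurable fun g => Q g σ) →
      (∀ g σ, |Q g σ| ≤ (n : ℝ) ^ (m - S.card) * crude g ^ (J - j)) →
      (∀ g ∈ Good, ∀ σ, Q g σ ^ 2 ≤ A) →
      lsum mon opE cycSq p S j h ≤ A * ((n : ℝ) * stepCost m J) ^ nIt mon S
        + stepCost m J ^ S.card * ∫ g, Goodᶜ.indicator
            (fun g => (n : ℝ) ^ (2 * m) * crude g ^ (2 * J)) g ∂law n := by
  have hn' : (1 : ℝ) ≤ n := by exact_mod_cast hn
  have hbase : ∀ (j : ℕ) (Q : (Edge n → ℝ) → (Fin R → Fin n → Bool) → ℝ) (h : St n m → ℝ)
      (A : ℝ), j ≤ J → 0 ≤ A → Rep β mon (∅ : Finset (Fin m)) Q h →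
      (∀ σ, Measurable fun g => Q g σ) →
      (∀ g σ, |Q g σ| ≤ (n : ℝ) ^ (m - (∅ : Finset (Fin m)).card) * crude g ^ (J - j)) →
      (∀ g ∈ Good, ∀ σ, Q g σ ^ 2 ≤ A) →
      cycSq j h ≤ A * ((n : ℝ) * stepCost m J) ^ nIt mon ∅
        + stepCost m J ^ (∅ : Finset (Fin m)).card * ∫ g, Goodᶜ.indicator
            (fun g => (n : ℝ) ^ (2 * m) * crude g ^ (2 * J)) g ∂law n := by
    intro j Q h A hj hA hh hQm hQb hQA
    have hW : Integrable (Goodᶜ.indicator fun g => (n : ℝ) ^ (2 * m) * crude g ^ (2 * J)) (law n) :=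
      (((em_crude_pow _).integrable (measurable_crude.pow_const _)).const_mul _).indicator hGm.compl
    refine (cycSq_le β mon hh hQm hQb j).trans ?_
    simp only [nIt, filter_empty, card_empty, Nat.zero_div, add_zero, pow_zero, mul_one, one_mul]
    have hP := ((em_of_le_crude _ _ fun g => abs_pavg_le β mon (noPl n m) g (hQb g)).memLp
      (measurable_pavg β mon hQm _)).integrable_sq
    refine (integral_mono (g := fun g => A + Goodᶜ.indicator
      (fun g => (n : ℝ) ^ (2 * m) * crude g ^ (2 * J)) g) hP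
      ((integrable_const A).add hW) fun g => ?_).trans (le_of_eq ?_)
    · simp only
      by_cases hg : g ∈ Good
      · rw [Set.indicator_of_notMem (by simpa using hg), add_zero]
        have h1 := abs_pavg_le β mon (noPl n m) g (B := Real.sqrt A) fun σ => by
          rw [← Real.sqrt_sq_eq_abs]
          exact Real.sqrt_le_sqrt (hQA g hg σ)
        rw [← sq_abs, ← Real.sq_sqrt hA]
        exact pow_le_pow_left₀ (abs_nonneg _) h1 2
      · rw [Set.indicator_of_mem (by simpa using hg)]
        refine le_add_of_nonneg_of_le hA ?_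
        rw [← sq_abs]
        refine (pow_le_pow_left₀ (abs_nonneg _) (abs_pavg_le β mon _ g (hQb g)) 2).trans ?_
        rw [mul_pow, ← pow_mul, ← pow_mul, card_empty, Nat.sub_zero, mul_comm m 2]
        exact mul_le_mul_of_nonneg_left (pow_le_pow_right₀ (one_le_crude g) (by omega))
          (by positivity)
    · rw [integral_add (integrable_const A) hW]
      simp
  intro p
  induction p with
  | zero =>
    intro S j Q h A hj hS hA hh hQm hQb hQA
    obtain rfl := card_eq_zero.1 (Nat.le_zero.1 hS)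
    simpa [lsum] using hbase j Q h A hj hA hh hQm hQb hQA
  | succ p ih =>
    intro S j Q h A hj hS hA hh hQm hQb hQA
    rw [lsum]
    split_ifs with hne
    swap
    · obtain rfl := not_nonempty_iff_eq_empty.1 hne
      exact hbase j Q h A hj hA hh hQm hQb hQA
    set b := S.max' hne
    have hb : b ∈ S := max'_mem _ _
    set I := ∫ g, Goodᶜ.indicator (fun g => (n : ℝ) ^ (2 * m) * crude g ^ (2 * J)) g ∂law n
    have hI : 0 ≤ I := integral_nonneg fun g => Set.indicator_nonneg
      (fun g _ => mul_nonneg (by positivity) (pow_nonneg (crude_nonneg g) _)) g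
    have hm : S.card ≤ m := (card_le_univ _).trans_eq (Fintype.card_fin m)
    have hc0 : (0 : ℝ) ≤ stepCost m J := zero_le_one.trans (one_le_stepCost m J)
    refine (sum_le_sum (g := fun o => A * ((n : ℝ) * goodCost o) *
      ((n : ℝ) * stepCost m J) ^ (nIt mon S - 1) + stepCost m J ^ (S.card - 1) * I)
      fun o ho => ?_).trans ?_
    · have hlen := len_le_of_mem ho
      have hlt := card_rest_lt hb ho
      refine (ih (rest S b o) (j - len o) (fun g σ => Q g σ * qItem mon b o g σ) _
        (A * ((n : ℝ) * goodCost o)) (by omega) (by omega)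
        (mul_nonneg hA (mul_nonneg (by positivity) (goodCost_nonneg o)))
        (rep_opE β mon hh hQm hQb hb o fun a r h => ?_)
        (fun σ => (hQm σ).mul (measurable_qItem mon b o σ)) (fun g σ => ?_) fun g hg σ => ?_).trans ?_
      · rcases mem_items ho with ⟨rfl, -⟩ | ⟨a', r', rfl, -, h1, h2, -⟩
        · cases h
        · cases h; exact ⟨h1, h2⟩
      · rw [abs_mul]
        refine (mul_le_mul (hQb g σ) (abs_qItem_le hn mon b o g σ) (abs_nonneg _)
          (mul_nonneg (by positivity) (pow_nonneg (crude_nonneg g) _))).trans ?_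
        rw [mul_mul_mul_comm, ← pow_succ, ← pow_add]
        exact mul_le_mul (pow_le_pow_right₀ hn' (by omega))
          (pow_le_pow_right₀ (one_le_crude g) (by omega)) (pow_nonneg (crude_nonneg g) _)
          (by positivity)
      · rw [mul_pow]
        exact mul_le_mul (hQA g hg σ)
          (sq_qItem_le mon b o (hlen.trans hj) g (hGood g hg) σ) (sq_nonneg _) hA
      · refine add_le_add (le_of_eq ?_)
          (mul_le_mul_of_nonneg_right (pow_le_pow_right₀ (one_le_stepCost m J) (by omega)) hI)
        rw [← nIt_rest hb ho, Nat.add_sub_cancel]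
    · rw [sum_add_distrib, sum_const, nsmul_eq_mul, ← Finset.sum_mul, ← Finset.mul_sum,
        ← Finset.mul_sum, ← mul_assoc ((items mon S b j).card : ℝ)]
      have hs : 1 ≤ S.card := card_pos.2 hne
      refine add_le_add ?_ (mul_le_mul_of_nonneg_right ?_ hI)
      · rcases (items mon S b j).eq_empty_or_nonempty with he | ⟨o, ho⟩
        · rw [he]; simp only [sum_empty, mul_zero, zero_mul]; positivity
        · have ht := nIt_rest hb ho
          calc A * ((n : ℝ) * ∑ o ∈ items mon S b j, goodCost o) *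
                ((n : ℝ) * stepCost m J) ^ (nIt mon S - 1)
              ≤ A * ((n : ℝ) * stepCost m J) * ((n : ℝ) * stepCost m J) ^ (nIt mon S - 1) := by
                gcongr
                exact sum_goodCost_le mon S b hj
            _ = A * ((n : ℝ) * stepCost m J) ^ nIt mon S := by
                rw [mul_assoc, ← pow_succ']
                congr 2
                omega
      · calc ((items mon S b j).card : ℝ) * stepCost m J ^ (S.card - 1)
            ≤ stepCost m J * stepCost m J ^ (S.card - 1) :=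
              mul_le_mul_of_nonneg_right (card_items_le mon S b hj) (by positivity)
          _ = stepCost m J ^ S.card := by rw [← pow_succ']; congr 1; omega

/-! ## The bad event -/

lemma card_edge_le (n : ℕ) : Fintype.card (Edge n) ≤ n * n := by
  refine (Fintype.card_subtype_le _).trans ?_
  simp

lemma integral_crude_pow_le (p : ℕ) :
    ∫ g, crude g ^ p ∂law n ≤ 8 * ((p : ℝ) * ((n : ℝ) ^ 2 + 1)) ^ p := by
  classical
  set N : ℝ := (Fintype.card (Edge n) : ℝ) + 1 with hN
  have hN0 : 0 < N := by positivity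
  have hexp1 : ∀ x : Option (Edge n), Integrable
      (fun g : Edge n → ℝ => Real.exp (x.elim 1 fun e => |g e|)) (law n) := by
    intro x
    rcases x with _ | e
    · simp only [Option.elim_none]
      exact integrable_const _
    · simp only [Option.elim_some]
      refine (integrable_exp_abs_sum (n := n) 1).mono'
        (Measurable.aestronglyMeasurable (by fun_prop)) (ae_of_all _ fun g => ?_)
      rw [Real.norm_eq_abs, Real.abs_exp, one_mul]
      exact Real.exp_le_exp.2
        (single_le_sum (fun i _ => abs_nonneg (g i)) (mem_univ e))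
  have hpt : ∀ g : Edge n → ℝ, crude g ^ p
      ≤ (p.factorial : ℝ) * N ^ p * ((∑ x : Option (Edge n),
          Real.exp (x.elim 1 fun e => |g e|)) / N) := by
    intro g
    have hc := convexOn_exp.map_sum_le (t := (univ : Finset (Option (Edge n))))
      (w := fun _ => N⁻¹) (p := fun x => x.elim 1 fun e => |g e|) (fun _ _ => by positivity)
      (by simp [hN]; field_simp) fun _ _ => trivial
    simp only [smul_eq_mul, ← Finset.mul_sum] at hc
    have hsum : ∑ x : Option (Edge n), x.elim 1 (fun e => |g e|) = crude g := by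
      rw [Fintype.sum_option]; rfl
    rw [hsum] at hc
    have h := Real.pow_div_factorial_le_exp (N⁻¹ * crude g)
      (mul_nonneg (by positivity) (crude_nonneg g)) p
    rw [div_le_iff₀' (by positivity)] at h
    calc crude g ^ p = N ^ p * (N⁻¹ * crude g) ^ p := by
          rw [← mul_pow, ← mul_assoc, mul_inv_cancel₀ hN0.ne', one_mul]
      _ ≤ N ^ p * ((p.factorial : ℝ) * Real.exp (N⁻¹ * crude g)) :=
          mul_le_mul_of_nonneg_left h (by positivity)
      _ ≤ N ^ p * ((p.factorial : ℝ) * (N⁻¹ * ∑ x : Option (Edge n),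
            Real.exp (x.elim 1 fun e => |g e|))) := by gcongr
      _ = _ := by rw [div_eq_inv_mul]; ring
  have hI1 : ∀ x : Option (Edge n),
      ∫ g, Real.exp (x.elim 1 fun e => |g e|) ∂law n ≤ 8 := by
    intro x
    rcases x with _ | e
    · have := Real.exp_one_lt_d9
      simp only [Option.elim_none, integral_const, probReal_univ, smul_eq_mul, one_mul]
      linarith
    · simp only [Option.elim_some]
      have hmap := integral_map (μ := law n) (φ := fun g : Edge n → ℝ => g e)
        (f := fun t : ℝ => Real.exp |t|) (measurable_pi_apply e).aemeasurable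
        (Continuous.aestronglyMeasurable (by fun_prop))
      rw [(measurePreserving_eval (fun _ : Edge n => gaussianReal 0 1) e).map_eq] at hmap
      rw [← hmap]
      have j1 : Integrable (fun t : ℝ => Real.exp t) (gaussianReal 0 1) := by
        simpa using integrable_exp_mul_gaussianReal (μ := 0) (v := 1) 1
      have j2 : Integrable (fun t : ℝ => Real.exp (-t)) (gaussianReal 0 1) := by
        simpa using integrable_exp_mul_gaussianReal (μ := 0) (v := 1) (-1)
      refine (integral_mono (g := fun t => Real.exp t + Real.exp (-t))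
        (by simpa using integrable_exp_abs 1) (j1.add j2) fun t => ?_).trans ?_
      · rcases le_total 0 t with h | h
        · simp only [abs_of_nonneg h]; linarith [Real.exp_pos (-t)]
        · simp only [abs_of_nonpos h]; linarith [Real.exp_pos t]
      · rw [integral_add j1 j2]
        have h1 := congrFun (mgf_id_gaussianReal (μ := 0) (v := 1)) 1
        have h2 := congrFun (mgf_id_gaussianReal (μ := 0) (v := 1)) (-1)
        simp only [mgf, id, one_mul, neg_one_mul, zero_mul, zero_add, NNReal.coe_one, one_pow,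
          neg_one_sq] at h1 h2
        rw [h1, h2]
        have := Real.exp_one_lt_d9
        have : Real.exp ((1 : ℝ) / 2) ≤ Real.exp 1 := Real.exp_le_exp.2 (by norm_num)
        linarith
  refine (integral_mono ((em_crude_pow p).integrable (measurable_crude.pow_const _))
    (((integrable_finsetSum _ fun x _ => hexp1 x).div_const _).const_mul _) hpt).trans ?_
  rw [integral_const_mul, integral_div, integral_finsetSum _ fun x _ => hexp1 x]
  have h8 : (∑ x : Option (Edge n), ∫ g, Real.exp (x.elim 1 fun e => |g e|) ∂law n) / N ≤ 8 := by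
    rw [div_le_iff₀ hN0]
    refine (sum_le_sum fun x _ => hI1 x).trans (le_of_eq ?_)
    simp [hN]; ring
  calc _ ≤ (p.factorial : ℝ) * N ^ p * 8 := mul_le_mul_of_nonneg_left h8 (by positivity)
    _ ≤ (p : ℝ) ^ p * ((n : ℝ) ^ 2 + 1) ^ p * 8 := by
        have h1 : (p.factorial : ℝ) ≤ (p : ℝ) ^ p := by exact_mod_cast Nat.factorial_le_pow p
        have h2 : N ≤ (n : ℝ) ^ 2 + 1 := by
          have : (Fintype.card (Edge n) : ℝ) ≤ (n : ℝ) ^ 2 := by
            rw [sq]; exact_mod_cast card_edge_le n
          linarith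
        gcongr
    _ = _ := by rw [mul_pow]; ring

lemma integral_bad_le {Good : Set (Edge n → ℝ)} (hGm : MeasurableSet Good) {δ : ℝ}
    (hδ : (law n Goodᶜ).toReal ≤ δ) (m J : ℕ) :
    ∫ g, Goodᶜ.indicator (fun g => (n : ℝ) ^ (2 * m) * crude g ^ (2 * J)) g ∂law n
      ≤ (((n : ℝ) + m + J + 2) ^ (2 * m + 6 * J + 2)) * Real.sqrt δ := by
  set F := fun g : Edge n → ℝ => (n : ℝ) ^ (2 * m) * crude g ^ (2 * J) with hF
  have hFm : Measurable F := (measurable_crude.pow_const _).const_mul _
  have hFe : EM F := em_of_le_crude ((n : ℝ) ^ (2 * m)) (2 * J) fun g => by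
    rw [abs_of_nonneg (mul_nonneg (by positivity) (pow_nonneg (crude_nonneg g) _))]
  have h1 : Measurable (Goodᶜ.indicator fun _ : Edge n → ℝ => (1 : ℝ)) :=
    measurable_const.indicator hGm.compl
  have hL : MemLp (Goodᶜ.indicator fun _ : Edge n → ℝ => (1 : ℝ)) 2 (law n) :=
    (memLp_const 1).indicator hGm.compl
  have hL' : MemLp F 2 (law n) := hFe.memLp hFm
  have hmul : (fun g => Goodᶜ.indicator F g)
      = fun g => Goodᶜ.indicator (fun _ => (1 : ℝ)) g * F g := by
    funext g
    by_cases hg : g ∈ Goodᶜ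
    · simp [Set.indicator_of_mem hg]
    · simp [Set.indicator_of_notMem hg]
  rw [hmul, ← inner_toLp hL hL']
  refine (real_inner_le_norm _ _).trans ?_
  rw [@norm_eq_sqrt_real_inner _ _ _ (hL.toLp _), @norm_eq_sqrt_real_inner _ _ _ (hL'.toLp _),
    inner_toLp hL hL, inner_toLp hL' hL', mul_comm]
  refine mul_le_mul ?_ (Real.sqrt_le_sqrt ?_) (Real.sqrt_nonneg _) (by positivity)
  · rw [Real.sqrt_le_left (by positivity)]
    have e : (fun g => F g * F g) = fun g => (n : ℝ) ^ (4 * m) * crude g ^ (4 * J) := by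
      funext g; simp only [hF]; ring
    rw [e, integral_const_mul]
    refine (mul_le_mul_of_nonneg_left (integral_crude_pow_le (n := n) (4 * J)) (by positivity)).trans ?_
    set X : ℝ := (n : ℝ) + m + J + 2 with hX
    have hn0 : (0 : ℝ) ≤ n := Nat.cast_nonneg n
    have hm0 : (0 : ℝ) ≤ m := Nat.cast_nonneg m
    have hJ0 : (0 : ℝ) ≤ J := Nat.cast_nonneg J
    have hnX : (n : ℝ) ≤ X := by rw [hX]; linarith
    have hX2 : 2 ≤ X := by rw [hX]; linarith
    have hb : ((4 * J : ℕ) : ℝ) * ((n : ℝ) ^ 2 + 1) ≤ X ^ 3 := by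
      push_cast
      have h4 : 4 * (J : ℝ) ≤ 4 * X - 8 := by rw [hX]; linarith
      rw [hX]
      nlinarith [mul_nonneg hn0 hJ0, mul_nonneg (mul_nonneg hn0 hn0) hJ0,
        mul_nonneg (mul_nonneg hn0 hn0) hn0, sq_nonneg ((n : ℝ) - J), sq_nonneg ((n : ℝ) - 2),
        mul_nonneg hn0 (sq_nonneg ((n : ℝ) - J)), mul_nonneg hJ0 (sq_nonneg ((n : ℝ) - J)),
        mul_nonneg hm0 (sq_nonneg ((n : ℝ) + m + J)), mul_nonneg hJ0 (sq_nonneg (n : ℝ)),
        mul_nonneg hm0 hJ0, mul_nonneg hm0 hn0, sq_nonneg ((J : ℝ) - 1)]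
    calc (n : ℝ) ^ (4 * m) * (8 * (((4 * J : ℕ) : ℝ) * ((n : ℝ) ^ 2 + 1)) ^ (4 * J))
        ≤ X ^ (4 * m) * (X ^ 4 * (X ^ 3) ^ (4 * J)) := by
          gcongr
          nlinarith [pow_le_pow_left₀ (by norm_num : (0:ℝ) ≤ 2) hX2 4]
      _ = (X ^ (2 * m + 6 * J + 2)) ^ 2 := by
          rw [← pow_mul X 3, ← pow_mul, ← pow_add, ← pow_add]; congr 1; omega
  · refine le_trans (le_of_eq ?_) hδ
    rw [← measureReal_def, show (fun g => Goodᶜ.indicator (fun _ => (1 : ℝ)) g *
        Goodᶜ.indicator (fun _ => (1 : ℝ)) g) = Goodᶜ.indicator (fun _ => (1 : ℝ)) by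
      funext g; by_cases hg : g ∈ Goodᶜ <;> simp [Set.indicator, hg]]
    exact integral_indicator_one hGm.compl

/-- **The exact structure sum.** -/
theorem lsum_exact_le (hn : 1 ≤ n) (β : ℝ) (mon : Spec m R) (j : ℕ) {Good : Set (Edge n → ℝ)}
    (hGm : MeasurableSet Good) {δ : ℝ} (hδ : (law n Goodᶜ).toReal ≤ δ)
    (hGood : ∀ g ∈ Good, ∀ r ≤ j, ∀ z : Fin n → ℝ,
      ∑ u, nbw g z r u u ^ 2 ≤ (4 * ((r : ℝ) + 1)) ^ 2 * ∑ u, z u ^ 2) :
    lsum mon opE cycSq m univ j (cof (n := n) β mon)
      ≤ (n : ℝ) ^ nIt mon univ * ((1 + 16 * (m : ℝ) * ((j : ℝ) + 1) ^ 3) ^ m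
        + ((n : ℝ) + m + j + 2) ^ (12 * (m + j + 1)) * Real.sqrt δ) := by
  have h := lsum_le hn β mon hGood hGm m univ j (fun _ _ => 1) (cof β mon) 1 le_rfl (by simp)
    zero_le_one (rep_cof β mon) (fun _ => measurable_const)
    (fun g σ => by simp) (fun g _ σ => by simp)
  refine h.trans ?_
  rw [one_mul, card_univ, Fintype.card_fin, mul_pow, mul_add]
  have hL := one_le_stepCost m j
  refine add_le_add (mul_le_mul_of_nonneg_left
    (pow_le_pow_right₀ hL ((nIt_le mon univ).trans (by simp))) (by positivity)) ?_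
  have hn' : (1 : ℝ) ≤ n := by exact_mod_cast hn
  set X : ℝ := (n : ℝ) + m + j + 2 with hX
  have hm0 : (0 : ℝ) ≤ m := Nat.cast_nonneg m
  have hj0 : (0 : ℝ) ≤ j := Nat.cast_nonneg j
  have hX4 : 3 ≤ X := by rw [hX]; linarith
  have hmX : (m : ℝ) ≤ X := by rw [hX]; linarith
  have hjX : (j : ℝ) + 1 ≤ X := by rw [hX]; linarith
  have hsc : stepCost m j ≤ X ^ 8 := by
    have h3 : (m : ℝ) * ((j : ℝ) + 1) ^ 3 ≤ X * X ^ 3 := by gcongr
    have h81 : (81 : ℝ) ≤ X ^ 4 := by
      have := pow_le_pow_left₀ (by norm_num : (0:ℝ) ≤ 3) hX4 4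
      norm_num at this
      exact this
    unfold stepCost
    nlinarith
  calc stepCost m j ^ m *
        ∫ g, Goodᶜ.indicator (fun g => (n : ℝ) ^ (2 * m) * crude g ^ (2 * j)) g ∂law n
      ≤ (X ^ 8) ^ m * (X ^ (2 * m + 6 * j + 2) * Real.sqrt δ) := by
        refine mul_le_mul (pow_le_pow_left₀ (zero_le_one.trans hL) hsc m)
          (integral_bad_le hGm hδ m j) (integral_nonneg fun g => Set.indicator_nonneg
            (fun g _ => mul_nonneg (by positivity) (pow_nonneg (crude_nonneg g) _)) g)
          (by positivity)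
    _ ≤ X ^ (12 * (m + j + 1)) * Real.sqrt δ := by
        rw [← mul_assoc, ← pow_mul, ← pow_add]
        exact mul_le_mul_of_nonneg_right (pow_le_pow_right₀ (by linarith) (by omega))
          (Real.sqrt_nonneg _)
    _ ≤ (n : ℝ) ^ nIt mon univ * (X ^ (12 * (m + j + 1)) * Real.sqrt δ) :=
        le_mul_of_one_le_left (by positivity) (one_le_pow₀ hn')

end

end Vale.Agent.P146.Super
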