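import Vale.Agent.P146.Super.Iter
import Vale.Agent.P146.Super.Paths

/-!
# P146, superconcentration: placing one item of a terminal structure

An item is an isolated even mark or a path joining two odd marks. A partial placement knows the
vertices of the marks already placed. The operators below act backwards, from the states where
the item is placed to the states where it is not yet placed; they carry a factor `1 / sqrt n`.
-/

namespace Vale.Agent.P146.Super

open Finset

noncomputable section

variable {n m R : ℕ}

/-- Partial placements of the marks. -/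
abbrev Pl (n m : ℕ) := Fin m → Option (Fin n)

/-- States: a partial placement and a multigraph. -/
abbrev St (n m : ℕ) := Pl n m × MG n

/-- Put mark `i` at `v`. -/
def setP (x : Pl n m) (i : Fin m) (v : Fin n) : Pl n m := Function.update x i (some v)

/-- The marked vertices. -/
def marks (x : Pl n m) : Finset (Fin n) := univ.filter fun v => ∃ i, x i = some v

/-- The number of placed marks. -/
def placed (x : Pl n m) : Finset (Fin m) := univ.filter fun i => (x i).isSome

/-- States with placed set `S` and at most `j` edges. -/
def stS (n : ℕ) (S : Finset (Fin m)) (j : ℕ) : Finset (St n m) :=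
  (univ.filter fun x : Pl n m => placed x = S) ×ˢ multi n j

/-- The potential of a state between items. -/
def psiP (s : St n m) : ℕ :=
  2 * psiA s.2 + psiC (marks s.1) s.2 + 2 * ((placed s.1).card - (marks s.1).card)

/-- Weighted square sum over states. -/
def isq (θ : ℝ) (S : Finset (Fin m)) (j : ℕ) (h : St n m → ℝ) : ℝ :=
  ∑ s ∈ stS n S j, h s ^ 2 / θ ^ psiP s

/-- An item: `none` is an isolated mark, `some (a, r)` a path of length `r` from mark `a`. -/
abbrev Item (m : ℕ) := Option (Fin m × ℕ)

/-- An odd mark. -/
def Odd' (mon : Spec m R) (i : Fin m) : Prop := (mon i).card % 2 = 1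

instance (mon : Spec m R) (i : Fin m) : Decidable (Odd' mon i) := by unfold Odd'; infer_instance

/-- The items through `b`, among the marks of `S`, with at most `j` edges. -/
def items (mon : Spec m R) (S : Finset (Fin m)) (b : Fin m) (j : ℕ) : Finset (Item m) :=
  if Odd' mon b then (((S.erase b).filter (Odd' mon)) ×ˢ Icc 1 j).image some else {none}

/-- The marks left by an item. -/
def rest (S : Finset (Fin m)) (b : Fin m) : Item m → Finset (Fin m)
  | none => S.erase b
  | some (a, _) => (S.erase b).erase a

/-- The number of edges of an item. -/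
def len : Item m → ℕ
  | none => 0
  | some (_, r) => r

/-- The exact expansion of an item. -/
def opE (b : Fin m) : Item m → (St n m → ℝ) → St n m → ℝ
  | none, h, s => (∑ v, h (setP s.1 b v, s.2)) / Real.sqrt n
  | some (a, r), h, s =>
      (∑ v, zval r v v s.2 fun y G => h (setP (setP s.1 a v) b y, G)) / Real.sqrt n

/-- The fresh part of an item. -/
def opC (b : Fin m) : Item m → (St n m → ℝ) → St n m → ℝ
  | none, h, s =>
      (∑ v, if Fresh (marks s.1) s.2 v then h (setP s.1 b v, s.2) else 0) / Real.sqrt n
  | some (a, r), h, s =>
      (∑ v, if Fresh (marks s.1) s.2 v then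
        cleanVal (insert v (marks s.1)) r v s.2 (fun y G => h (setP (setP s.1 a v) b y, G))
        else 0) / Real.sqrt n

/-- The deviation of an item from its fresh part. -/
def opD (b : Fin m) : Item m → (St n m → ℝ) → St n m → ℝ
  | none, h, s =>
      (∑ v, if Fresh (marks s.1) s.2 v then 0 else |h (setP s.1 b v, s.2)|) / Real.sqrt n
  | some (a, r), h, s =>
      (∑ v, if Fresh (marks s.1) s.2 v then
          dev (insert v (marks s.1)) r v s.2 (fun y G => |h (setP (setP s.1 a v) b y, G)|)
        else rel (insert v (marks s.1)) r false v s.2
          (fun y G => |h (setP (setP s.1 a v) b y, G)|)) / Real.sqrt n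

/-- The sum over all structures of the marks `S`, peeling the largest mark first, of a functional
of the resulting state vectors. The first argument is fuel, at least `S.card`. -/
def lsum {H : Type*} (mon : Spec m R) (op : Fin m → Item m → H → H) (F : ℕ → H → ℝ) :
    ℕ → Finset (Fin m) → ℕ → H → ℝ
  | 0, S, j, h => if S = ∅ then F j h else 0
  | p + 1, S, j, h => if hS : S.Nonempty then
      ∑ o ∈ items mon S (S.max' hS) j,
        lsum mon op F p (rest S (S.max' hS) o) (j - len o) (op (S.max' hS) o h)
      else F j h

/-- The multigraphs left when all items are removed: all degrees zero or two. -/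
def cyclesSet (n j : ℕ) : Finset (MG n) :=
  (multi n j).filter fun D => ∀ v, deg D v = 0 ∨ deg D v = 2

/-- The empty placement. -/
def noPl (n m : ℕ) : Pl n m := fun _ => none

/-- The square sum over the cycle parts. -/
def cycSq (j : ℕ) (h : St n m → ℝ) : ℝ := ∑ D ∈ cyclesSet n j, h (noPl n m, D) ^ 2

/-- The terminal states with placed set `S`. -/
def termSt (n : ℕ) (mon : Spec m R) (S : Finset (Fin m)) (j : ℕ) : Finset (St n m) :=
  (stS n S j).filter fun s =>
    (∀ i ∈ S, ∀ i' ∈ S, s.1 i = s.1 i' → i = i') ∧
    (∀ i ∈ S, ∀ v, s.1 i = some v → deg s.2 v = (mon i).card % 2) ∧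
    ∀ v, v ∉ marks s.1 → deg s.2 v = 0 ∨ deg s.2 v = 2

/-- Relabelling of a placement. -/
def mapPl (π : Equiv.Perm (Fin n)) (x : Pl n m) : Pl n m := fun i => (x i).map π

/-- Invariance under relabelling. -/
def Symm' (h : St n m → ℝ) : Prop := ∀ π s, h (mapPl π s.1, mapMG π s.2) = h s

/-- The coefficient attached to a state with all marks placed. -/
def cof (β : ℝ) (mon : Spec m R) (s : St n m) : ℝ :=
  if h : ∀ i, (s.1 i).isSome then coef (obs β mon fun i => (s.1 i).get (h i)) s.2 else 0

end

end Vale.Agent.P146.Super
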