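import Vale.Agent.P146.Super.Items
import Mathlib.Algebra.Order.Chebyshev

/-!
# P146, superconcentration: the fresh parts of the items

The fresh part of the placement of one item is a weighted contraction; on invariant functions it
loses at most the proportion of fresh placements on terminal states. Both statements are iterated
over all structures of the marks.
-/

namespace Vale.Agent.P146.Super

open Finset

noncomputable section

variable {n m R : ℕ}

/-! ### Placements -/

lemma setP_apply_self (x : Pl n m) (i : Fin m) (v : Fin n) : setP x i v i = some v := by simp [setP]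

lemma setP_of_ne (x : Pl n m) {i k : Fin m} (v : Fin n) (h : k ≠ i) : setP x i v k = x k := by
  simp [setP, h]

lemma mem_marks {x : Pl n m} {v : Fin n} : v ∈ marks x ↔ ∃ i, x i = some v := by simp [marks]

lemma mem_placed {x : Pl n m} {i : Fin m} : i ∈ placed x ↔ (x i).isSome := by simp [placed]

lemma eq_none_of_not_placed {x : Pl n m} {i : Fin m} (h : i ∉ placed x) : x i = none := by
  rw [mem_placed] at h
  cases hx : x i with
  | none => rfl
  | some v => simp [hx] at h

lemma placed_setP_eq (x : Pl n m) (i : Fin m) (v : Fin n) :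
    placed (setP x i v) = insert i (placed x) := by
  ext k
  by_cases h : k = i
  · subst h; simp [mem_placed, setP_apply_self]
  · simp [mem_placed, setP_of_ne x v h, h]

lemma marks_setP_new {x : Pl n m} {i : Fin m} (h : i ∉ placed x) (v : Fin n) :
    marks (setP x i v) = insert v (marks x) := by
  have hx := eq_none_of_not_placed h
  ext w
  simp only [mem_marks, mem_insert]
  constructor
  · rintro ⟨k, hk⟩
    by_cases hki : k = i
    · subst hki; rw [setP_apply_self] at hk; exact Or.inl (Option.some.inj hk).symm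
    · rw [setP_of_ne x v hki] at hk; exact Or.inr ⟨k, hk⟩
  · rintro (rfl | ⟨k, hk⟩)
    · exact ⟨i, setP_apply_self _ _ _⟩
    · exact ⟨k, by rw [setP_of_ne x v (by rintro rfl; rw [hx] at hk; simp at hk), hk]⟩

lemma mapPl_setP (π : Equiv.Perm (Fin n)) (x : Pl n m) (i : Fin m) (v : Fin n) :
    mapPl π (setP x i v) = setP (mapPl π x) i (π v) := by
  funext k
  by_cases h : k = i
  · subst h; simp [mapPl, setP_apply_self]
  · simp [mapPl, setP_of_ne _ _ h]

lemma marks_mapPl (π : Equiv.Perm (Fin n)) (x : Pl n m) :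
    marks (mapPl π x) = (marks x).image π := by
  ext w
  simp only [mem_marks, mem_image, mapPl, Option.map_eq_some_iff]
  constructor
  · rintro ⟨i, a, ha, rfl⟩; exact ⟨a, ⟨i, ha⟩, rfl⟩
  · rintro ⟨a, ⟨i, ha⟩, rfl⟩; exact ⟨i, a, ha, rfl⟩

lemma mapPl_eq_self (π : Equiv.Perm (Fin n)) (x : Pl n m) (h : ∀ v ∈ marks x, π v = v) :
    mapPl π x = x := by
  funext i
  simp only [mapPl]
  cases hi : x i with
  | none => rfl
  | some v => simp [h v (mem_marks.2 ⟨i, hi⟩)]

lemma mapPl_mul (π ρ : Equiv.Perm (Fin n)) (x : Pl n m) :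
    mapPl (π * ρ) x = mapPl π (mapPl ρ x) := by
  funext i
  simp only [mapPl, Option.map_map]
  rfl

/-! ### Clean walks under relabelling -/

lemma mapMG_injective (π : Equiv.Perm (Fin n)) : Function.Injective (mapMG π : MG n → MG n) := by
  intro G H h
  funext e
  have h1 := congrFun h (mapEdge π e)
  simpa only [mapMG, mapEdge_symm_mapEdge] using h1

lemma fresh_map (π : Equiv.Perm (Fin n)) {M : Finset (Fin n)} {G : MG n} {l : Fin n} :
    Fresh (M.image π) (mapMG π G) (π l) ↔ Fresh M G l := by
  unfold Fresh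
  rw [deg_mapMG_apply, π.injective.mem_finset_image]

/-- The action of a relabelling on the states of a walk. -/
def mapPt (π : Equiv.Perm (Fin n)) (p : Fin n × MG n) : Fin n × MG n := (π p.1, mapMG π p.2)

lemma mapPt_injective (π : Equiv.Perm (Fin n)) : Function.Injective (mapPt π) := by
  intro p p' h
  simp only [mapPt, Prod.mk.injEq] at h
  exact Prod.ext (π.injective h.1) (mapMG_injective π h.2)

lemma freshStep_map (π : Equiv.Perm (Fin n)) (M : Finset (Fin n)) (s : Fin n × MG n) :
    freshStep (M.image π) (mapPt π s) = (freshStep M s).image (mapPt π) := by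
  ext p
  simp only [mem_image, mem_freshStep, mapPt]
  constructor
  · rintro ⟨l, hl, hf, rfl⟩
    obtain ⟨l, rfl⟩ := π.surjective l
    have hl' : s.1 ≠ l := fun e => hl (congrArg π e)
    refine ⟨_, ⟨l, hl', (fresh_map π).1 hf, rfl⟩, ?_⟩
    simp only [mapMG_addE, mapEdge_mkEdge]
  · rintro ⟨_, ⟨l, hl, hf, rfl⟩, rfl⟩
    refine ⟨π l, fun e => hl (π.injective e), (fresh_map π).2 hf, ?_⟩
    simp only [mapMG_addE, mapEdge_mkEdge]

lemma pts_map (π : Equiv.Perm (Fin n)) (M : Finset (Fin n)) (r : ℕ) (u : Fin n) (G : MG n) :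
    pts (M.image π) r (π u) (mapMG π G) = (pts M r u G).image (mapPt π) := by
  induction r with
  | zero => simp [pts_zero, mapPt]
  | succ r ih =>
    rw [pts_succ, pts_succ, ih, image_biUnion, biUnion_image]
    exact biUnion_congr rfl fun s _ => freshStep_map π M s

/-- The fresh part of an item preserves invariance under relabelling. -/
theorem symm_opC {h : St n m → ℝ} (hs : Symm' h) (b : Fin m) (o : Item m) :
    Symm' (opC b o h) := by
  intro π s
  cases o with
  | none =>
    simp only [opC]
    congr 1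
    refine (Fintype.sum_equiv π _ _ fun v => ?_).symm
    simp only [marks_mapPl, fresh_map, ← mapPl_setP]
    split_ifs
    · exact (hs π (setP s.1 b v, s.2)).symm
    · rfl
  | some o =>
    obtain ⟨a, r⟩ := o
    simp only [opC]
    congr 1
    refine (Fintype.sum_equiv π _ _ fun v => ?_).symm
    simp only [marks_mapPl, fresh_map]
    split_ifs
    · rw [← image_insert, cleanVal_eq_sum, cleanVal_eq_sum, pts_map,
        sum_image (fun p _ p' _ e => mapPt_injective π e)]
      congr 1
      refine sum_congr rfl fun p _ => ?_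
      simp only [mapPt, ← mapPl_setP]
      exact (hs π (setP (setP s.1 a v) b p.1, p.2)).symm
    · rfl

/-- The coefficients are invariant, given the invariance of the coefficients of an observable. -/
theorem symm_cof {β : ℝ} {mon : Spec m R}
    (hrel : ∀ (π : Equiv.Perm (Fin n)) (x : Fin m → Fin n) (G : MG n),
      coef (obs β mon fun i => π (x i)) (mapMG π G) = coef (obs β mon x) G) :
    Symm' (cof (n := n) β mon) := by
  intro π s
  unfold cof
  by_cases hx : ∀ i, (s.1 i).isSome
  · have hx' : ∀ i, (mapPl π s.1 i).isSome := fun i => by simpa [mapPl] using hx i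
    rw [dif_pos hx, dif_pos hx']
    have e : (fun i => (mapPl π s.1 i).get (hx' i)) = fun i => π ((s.1 i).get (hx i)) := by
      funext i
      simp only [mapPl, Option.get_map]
    rw [e, hrel]
  · rw [dif_neg hx, dif_neg]
    intro hx'
    exact hx fun i => by simpa [mapPl] using hx' i

/-! ### The targets of an item -/

/-- The fresh vertices of a state. -/
def freshV (s : St n m) : Finset (Fin n) := univ.filter fun v => Fresh (marks s.1) s.2 v

/-- The state with the path from `v` to `p.1` placed at the marks `a` and `b`. -/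
def endSt (x : Pl n m) (a b : Fin m) (v : Fin n) (p : Fin n × MG n) : St n m :=
  (setP (setP x a v) b p.1, p.2)

/-- The states reached by the fresh part of an item. -/
def tgt (b : Fin m) : Item m → St n m → Finset (St n m)
  | none, s => (freshV s).image fun v => (setP s.1 b v, s.2)
  | some (a, r), s => (freshV s).biUnion fun v =>
      (pts (insert v (marks s.1)) r v s.2).image (endSt s.1 a b v)

lemma mem_tgt_none {b : Fin m} {s t : St n m} :
    t ∈ tgt b none s ↔ ∃ v, Fresh (marks s.1) s.2 v ∧ t = (setP s.1 b v, s.2) := by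
  simp [tgt, freshV, eq_comm]

lemma mem_tgt_some {a b : Fin m} {r : ℕ} {s t : St n m} :
    t ∈ tgt b (some (a, r)) s ↔ ∃ v y G, Fresh (marks s.1) s.2 v ∧
      (y, G) ∈ pts (insert v (marks s.1)) r v s.2 ∧ t = (setP (setP s.1 a v) b y, G) := by
  simp [tgt, freshV, endSt, eq_comm]

/-- The properties of an item through `b` which are used below. -/
lemma items_spec {mon : Spec m R} {S : Finset (Fin m)} {b : Fin m} {j : ℕ} {o : Item m}
    (ho : o ∈ items mon S b j) :
    (o = none ∧ ¬Odd' mon b) ∨
      ∃ a r, o = some (a, r) ∧ Odd' mon b ∧ Odd' mon a ∧ a ∈ S ∧ a ≠ b ∧ 1 ≤ r ∧ r ≤ j := by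
  unfold items at ho
  split_ifs at ho with hb
  · simp only [mem_image, mem_product, mem_filter, mem_erase, mem_Icc, Prod.exists] at ho
    obtain ⟨a, r, ⟨⟨⟨h1, h2⟩, h3⟩, h4, h5⟩, rfl⟩ := ho
    exact Or.inr ⟨a, r, rfl, hb, h3, h2, h1, h4, h5⟩
  · exact Or.inl ⟨mem_singleton.1 ho, hb⟩

lemma mem_items_some {mon : Spec m R} {S : Finset (Fin m)} {a b : Fin m} {j r : ℕ}
    (hb : Odd' mon b) (ha : Odd' mon a) (haS : a ∈ S) (hab : a ≠ b) (hr : 1 ≤ r) (hrj : r ≤ j) :
    some (a, r) ∈ items mon S b j := by
  simp [items, hb, ha, haS, hab, hr, hrj]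

lemma opC_eq_sum {b : Fin m} {o : Item m} (ho : ∀ a r, o = some (a, r) → a ≠ b)
    (h : St n m → ℝ) (s : St n m) :
    opC b o h s = (∑ t ∈ tgt b o s, h t) / Real.sqrt n ^ (len o + 1) := by
  cases o with
  | none =>
    simp only [opC, tgt, len, zero_add, pow_one, freshV]
    rw [sum_image, sum_filter]
    intro v _ v' _ e
    have h1 := congrFun (congrArg Prod.fst e) b
    simpa [setP_apply_self] using h1
  | some o =>
    obtain ⟨a, r⟩ := o
    have hab := ho a r rfl
    simp only [opC, tgt, len, freshV]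
    rw [sum_biUnion, sum_filter, pow_succ, ← div_div]
    · congr 1
      rw [sum_div]
      refine sum_congr rfl fun v _ => ?_
      split_ifs
      · rw [cleanVal_eq_sum, sum_image]
        · rfl
        intro p _ p' _ e
        simp only [endSt, Prod.mk.injEq] at e
        have h1 := congrFun e.1 b
        simp only [setP_apply_self, Option.some.injEq] at h1
        exact Prod.ext h1 e.2
      · simp
    · intro v _ v' _ hne
      refine Finset.disjoint_left.2 fun t ht ht' => hne ?_
      simp only [mem_image, endSt] at ht ht'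
      obtain ⟨p, -, rfl⟩ := ht
      obtain ⟨p', -, he⟩ := ht'
      have h1 := congrFun (congrArg Prod.fst he) a
      simpa [setP_of_ne _ _ hab, setP_apply_self, eq_comm] using h1

lemma card_tgt_le (b : Fin m) (o : Item m) (s : St n m) :
    (tgt b o s).card ≤ n ^ (len o + 1) := by
  have hf : (freshV s).card ≤ n := (card_filter_le _ _).trans (by simp)
  cases o with
  | none => simpa [tgt, len] using card_image_le.trans hf
  | some o =>
    obtain ⟨a, r⟩ := o
    refine (card_biUnion_le).trans ((sum_le_card_nsmul _ _ (n ^ r) fun v _ =>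
      card_image_le.trans (card_pts_le _ _ _ _)).trans ?_)
    rw [smul_eq_mul, len, pow_succ']
    exact Nat.mul_le_mul_right _ hf

lemma le_card_tgt {b : Fin m} {o : Item m} (ho : ∀ a r, o = some (a, r) → a ≠ b)
    {s : St n m} {Kb : ℕ} (hK : 2 * (size s.2 + len o) + (marks s.1).card + 2 ≤ Kb) :
    (n - Kb) ^ (len o + 1) ≤ (tgt b o s).card := by
  have hf : n - Kb ≤ (freshV s).card := by
    have h1 := card_old_le (marks s.1) s.2
    have h2 := card_filter_add_card_filter_not (s := (univ : Finset (Fin n)))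
      (fun l => Fresh (marks s.1) s.2 l)
    rw [card_univ, Fintype.card_fin] at h2
    unfold freshV
    omega
  cases o with
  | none =>
    simp only [tgt, len, zero_add, pow_one]
    rw [card_image_of_injective]
    · exact hf
    intro v v' e
    have h1 := congrFun (congrArg Prod.fst e) b
    simpa [setP_apply_self] using h1
  | some o =>
    obtain ⟨a, r⟩ := o
    have hab := ho a r rfl
    simp only [tgt, len] at hK ⊢
    rw [card_biUnion, pow_succ']
    · refine le_trans ?_ (card_nsmul_le_sum _ _ ((n - Kb) ^ r) fun v _ => ?_)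
      · rw [smul_eq_mul]; exact Nat.mul_le_mul_right _ hf
      · rw [card_image_of_injective]
        · refine le_trans (Nat.pow_le_pow_left ?_ r) (le_card_pts _ _ _ _)
          have := card_insert_le v (marks s.1)
          omega
        intro p p' e
        simp only [endSt, Prod.mk.injEq] at e
        have h1 := congrFun e.1 b
        simp only [setP_apply_self, Option.some.injEq] at h1
        exact Prod.ext h1 e.2
    · intro v _ v' _ hne
      refine Finset.disjoint_left.2 fun t ht ht' => hne ?_
      simp only [mem_image, endSt] at ht ht'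
      obtain ⟨p, -, rfl⟩ := ht
      obtain ⟨p', -, he⟩ := ht'
      have h1 := congrFun (congrArg Prod.fst he) a
      simpa [setP_of_ne _ _ hab, setP_apply_self, eq_comm] using h1

lemma psiA_congr {G G' : MG n} (h : ∀ w, deg G' w - 2 = deg G w - 2) : psiA G' = psiA G :=
  sum_congr rfl fun w _ => h w

/-- The shape of the states reached by the fresh part of an item. -/
lemma tgt_spec {mon : Spec m R} {S : Finset (Fin m)} {b : Fin m} (hb : b ∈ S) {j : ℕ}
    {o : Item m} (ho : o ∈ items mon S b j) {s t : St n m}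
    (hs : s ∈ stS n (rest S b o) (j - len o)) (ht : t ∈ tgt b o s) :
    t ∈ stS n S j ∧ psiP t = psiP s := by
  simp only [stS, mem_product, mem_filter, mem_univ, true_and, mem_multi] at hs ⊢
  obtain ⟨hpl, hsz⟩ := hs
  rcases items_spec ho with ⟨rfl, -⟩ | ⟨a, r, rfl, -, -, haS, hab, hr, hrj⟩
  · obtain ⟨v, hv, rfl⟩ := mem_tgt_none.1 ht
    have hbP : b ∉ placed s.1 := by rw [hpl]; simp [rest]
    refine ⟨⟨?_, by simpa [len] using hsz⟩, ?_⟩
    · rw [placed_setP_eq, hpl, rest, insert_erase hb]
    · simp only [psiP, marks_setP_new hbP, placed_setP_eq, card_insert_of_notMem hbP,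
        card_insert_of_notMem hv.2, Nat.add_sub_add_right]
      congr 2
      rw [psiC, psiC, filter_insert, if_neg (by rw [hv.1]; omega)]
  · obtain ⟨v, y, G, hv, hp, rfl⟩ := mem_tgt_some.1 ht
    obtain ⟨hy, hy1, hy0, hv1, hsize, hoth⟩ := pts_spec (mem_insert_self _ _) hv.1 hr hp
    have haP : a ∉ placed s.1 := by rw [hpl]; simp [rest]
    have hbP : b ∉ placed (setP s.1 a v) := by
      rw [placed_setP_eq, mem_insert, hpl]
      simp [rest, Ne.symm hab]
    refine ⟨⟨?_, ?_⟩, ?_⟩
    · rw [placed_setP_eq, placed_setP_eq, hpl, rest, insert_erase (mem_erase.2 ⟨hab, haS⟩),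
        insert_erase hb]
    · change size G ≤ j
      simp only [len] at hsz; omega
    · have hA : psiA G = psiA s.2 := psiA_congr fun w => by
        by_cases h1 : w = y
        · subst h1; rw [hy1, hy0]
        · by_cases h2 : w = v
          · subst h2; rw [hv1, hv.1]
          · rcases hoth w h1 h2 with h3 | ⟨-, h3, h4⟩
            · rw [h3]
            · rw [h3, h4]
      have hC : psiC (insert y (insert v (marks s.1))) G = psiC (marks s.1) s.2 := by
        rw [psiC, psiC, filter_insert, if_neg (by omega), filter_insert, if_neg (by omega)]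
        refine congrArg card (filter_congr fun w hw => ?_)
        have h1 : w ≠ y := fun e => hy (mem_insert_of_mem (e ▸ hw))
        have h2 : w ≠ v := fun e => hv.2 (e ▸ hw)
        rcases hoth w h1 h2 with h3 | ⟨h3, -, -⟩
        · rw [h3]
        · exact absurd (mem_insert_of_mem hw) h3
      simp only [psiP, marks_setP_new hbP, marks_setP_new haP, placed_setP_eq, card_insert_of_notMem hy,
        card_insert_of_notMem hv.2, hA, hC]
      rw [card_insert_of_notMem (by rw [← placed_setP_eq]; exact hbP), card_insert_of_notMem haP]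
      omega

/-- A state is reached by at most one item and one predecessor. -/
lemma tgt_disjoint {mon : Spec m R} {S : Finset (Fin m)} {b : Fin m} {j : ℕ} {o o' : Item m}
    (ho : o ∈ items mon S b j) (ho' : o' ∈ items mon S b j) {s s' t : St n m}
    (hs : placed s.1 = rest S b o) (hs' : placed s'.1 = rest S b o') (ht : t ∈ tgt b o s)
    (ht' : t ∈ tgt b o' s') : o = o' ∧ s = s' := by
  rcases items_spec ho with ⟨rfl, hb⟩ | ⟨a, r, rfl, hb, -, haS, hab, -, -⟩
  · rcases items_spec ho' with ⟨rfl, -⟩ | ⟨a', r', rfl, hb', -⟩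
    swap
    · exact absurd hb' hb
    obtain ⟨v, -, rfl⟩ := mem_tgt_none.1 ht
    obtain ⟨v', -, he⟩ := mem_tgt_none.1 ht'
    simp only [Prod.mk.injEq] at he
    refine ⟨rfl, Prod.ext ?_ he.2⟩
    funext k
    by_cases hk : k = b
    · subst hk
      rw [eq_none_of_not_placed (x := s.1) (i := k) (by rw [hs]; simp [rest]),
        eq_none_of_not_placed (x := s'.1) (i := k) (by rw [hs']; simp [rest])]
    · simpa [setP_of_ne _ _ hk] using congrFun he.1 k
  · rcases items_spec ho' with ⟨rfl, hb'⟩ | ⟨a', r', rfl, -, -, ha'S, hab', -, -⟩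
    · exact absurd hb hb'
    obtain ⟨v, y, G, hv, hp, rfl⟩ := mem_tgt_some.1 ht
    obtain ⟨v', y', G', hv', hp', he⟩ := mem_tgt_some.1 ht'
    simp only [Prod.mk.injEq] at he
    obtain ⟨he, rfl⟩ := he
    have hy : y = y' := by simpa [setP_apply_self] using congrFun he b
    subst hy
    have haP : a ∉ placed s.1 := by rw [hs]; simp [rest]
    have haP' : a' ∉ placed s'.1 := by rw [hs']; simp [rest]
    have hbP : b ∉ placed (setP s.1 a v) := by
      rw [placed_setP_eq, mem_insert, hs]; simp [rest, Ne.symm hab]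
    have hbP' : b ∉ placed (setP s'.1 a' v') := by
      rw [placed_setP_eq, mem_insert, hs']; simp [rest, Ne.symm hab']
    have hy1 : y ∉ insert v (marks s.1) := by
      rcases Nat.eq_zero_or_pos r with h0 | h0
      · exact absurd h0 (by have := (items_spec ho); simp at this; omega)
      · exact (pts_spec (mem_insert_self _ _) hv.1 h0 hp).1
    have hy2 : y ∉ insert v' (marks s'.1) := by
      rcases Nat.eq_zero_or_pos r' with h0 | h0
      · exact absurd h0 (by have := (items_spec ho'); simp at this; omega)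
      · exact (pts_spec (mem_insert_self _ _) hv'.1 h0 hp').1
    have hM : insert v (marks s.1) = insert v' (marks s'.1) := by
      have h1 := congrArg marks he
      rw [marks_setP_new hbP, marks_setP_new haP, marks_setP_new hbP', marks_setP_new haP'] at h1
      calc insert v (marks s.1) = (insert y (insert v (marks s.1))).erase y :=
            (erase_insert hy1).symm
        _ = insert v' (marks s'.1) := by rw [h1, erase_insert hy2]
    rw [← hM] at hp'
    obtain ⟨rfl, rfl, hG⟩ := pts_inj (mem_insert_self _ _)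
      (hM ▸ mem_insert_self v' (marks s'.1)) hp hp'
    have haa : a = a' := by
      by_contra hne
      have h1 := congrFun he a
      rw [setP_of_ne _ _ hab, setP_apply_self, setP_of_ne _ _ hab, setP_of_ne _ _ hne] at h1
      exact hv'.2 (mem_marks.2 ⟨a, h1.symm⟩)
    subst haa
    refine ⟨rfl, Prod.ext ?_ hG⟩
    funext k
    by_cases hk : k = b
    · subst hk
      rw [eq_none_of_not_placed (x := s.1) (i := k) (by rw [hs]; simp [rest]),
        eq_none_of_not_placed (x := s'.1) (i := k) (by rw [hs']; simp [rest])]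
    · by_cases hka : k = a
      · subst hka; rw [eq_none_of_not_placed haP, eq_none_of_not_placed haP']
      · simpa [setP_of_ne _ _ hk, setP_of_ne _ _ hka] using congrFun he k

lemma sq_opC_le (hn : 0 < n) {b : Fin m} {o : Item m} (ho : ∀ a r, o = some (a, r) → a ≠ b)
    (h : St n m → ℝ) (s : St n m) : opC b o h s ^ 2 ≤ ∑ t ∈ tgt b o s, h t ^ 2 := by
  rw [opC_eq_sum ho, div_pow, ← pow_mul, mul_comm (len o + 1), pow_mul,
    Real.sq_sqrt (Nat.cast_nonneg n), div_le_iff₀ (by positivity)]
  refine sq_sum_le_card_mul_sum_sq.trans ?_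
  rw [mul_comm]
  refine mul_le_mul_of_nonneg_left ?_ (sum_nonneg fun _ _ => sq_nonneg _)
  exact_mod_cast card_tgt_le b o s

/-- The fresh parts of the items through one mark form a contraction. -/
theorem sum_isq_opC_le (hn : 0 < n) {θ : ℝ} (hθ : 0 < θ) (mon : Spec m R) {S : Finset (Fin m)}
    {b : Fin m} (hb : b ∈ S) (j : ℕ) (h : St n m → ℝ) :
    ∑ o ∈ items mon S b j, isq θ (rest S b o) (j - len o) (opC b o h) ≤ isq θ S j h := by
  have hab : ∀ o ∈ items mon S b j, ∀ a r, o = some (a, r) → a ≠ b := fun o ho a r e => by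
    rcases items_spec ho with ⟨rfl, -⟩ | ⟨a', r', rfl, -, -, -, h1, -⟩
    · simp at e
    · simp only [Option.some.injEq, Prod.mk.injEq] at e; exact e.1 ▸ h1
  simp only [isq]
  rw [sum_sigma']
  set P := (items mon S b j).sigma fun o => stS n (rest S b o) (j - len o) with hP
  have hd : (P : Set (Σ _ : Item m, St n m)).PairwiseDisjoint fun p => tgt b p.1 p.2 := by
    rintro ⟨o, s⟩ hp ⟨o', s'⟩ hp' hne
    simp only [hP, coe_sigma, Set.mem_sigma_iff, mem_coe, stS, mem_product, mem_filter,
      mem_univ, true_and] at hp hp'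
    refine Finset.disjoint_left.2 fun t ht ht' => hne ?_
    obtain ⟨rfl, rfl⟩ := tgt_disjoint hp.1 hp'.1 hp.2.1 hp'.2.1 ht ht'
    rfl
  calc ∑ p ∈ P, opC b p.1 h p.2 ^ 2 / θ ^ psiP p.2
      ≤ ∑ p ∈ P, ∑ t ∈ tgt b p.1 p.2, h t ^ 2 / θ ^ psiP t := by
        refine sum_le_sum fun p hp => ?_
        rw [mem_sigma] at hp
        rw [sum_congr rfl fun t ht => by rw [(tgt_spec hb hp.1 hp.2 ht).2], ← sum_div]
        exact div_le_div_of_nonneg_right (sq_opC_le hn (hab _ hp.1) h p.2) (by positivity)
    _ = ∑ t ∈ P.biUnion (fun p => tgt b p.1 p.2), h t ^ 2 / θ ^ psiP t := (sum_biUnion hd).symm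
    _ ≤ _ := by
        refine sum_le_sum_of_subset_of_nonneg ?_ fun _ _ _ => by positivity
        intro t ht
        obtain ⟨p, hp, ht⟩ := mem_biUnion.1 ht
        rw [mem_sigma] at hp
        exact (tgt_spec hb hp.1 hp.2 ht).1

/-- An invariant function is constant on the states reached by an item. -/
lemma const_on_tgt {h : St n m → ℝ} (hs : Symm' h) {b : Fin m} {o : Item m} {s t t' : St n m}
    (ht : t ∈ tgt b o s) (ht' : t' ∈ tgt b o s) : h t = h t' := by
  cases o with
  | none =>
    obtain ⟨v, hv, rfl⟩ := mem_tgt_none.1 ht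
    obtain ⟨v', hv', rfl⟩ := mem_tgt_none.1 ht'
    refine ((hs (Equiv.swap v v') _).symm).trans (congrArg h (Prod.ext ?_ ?_))
    · simp only [mapPl_setP, Equiv.swap_apply_left]
      rw [mapPl_eq_self]
      exact fun w hw => Equiv.swap_apply_of_ne_of_ne (fun e => hv.2 (e ▸ hw))
        (fun e => hv'.2 (e ▸ hw))
    · exact mapMG_eq_self _ _ fun w hw => Equiv.swap_apply_of_ne_of_ne
        (fun e => by rw [e, hv.1] at hw; omega) (fun e => by rw [e, hv'.1] at hw; omega)
  | some o =>
    obtain ⟨a, r⟩ := o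
    obtain ⟨v, y, G, hv, hp, rfl⟩ := mem_tgt_some.1 ht
    obtain ⟨v', y', G', hv', hp', rfl⟩ := mem_tgt_some.1 ht'
    set σ := Equiv.swap v v' with hσ
    have h1 : ∀ w ∈ marks s.1, σ w = w := fun w hw =>
      Equiv.swap_apply_of_ne_of_ne (fun e => hv.2 (e ▸ hw)) (fun e => hv'.2 (e ▸ hw))
    have h2 : mapMG σ s.2 = s.2 := mapMG_eq_self _ _ fun w hw =>
      Equiv.swap_apply_of_ne_of_ne (fun e => by rw [e, hv.1] at hw; omega)
        (fun e => by rw [e, hv'.1] at hw; omega)
    have h3 : mapPt σ (y, G) ∈ pts (insert v' (marks s.1)) r v' s.2 := by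
      have h4 := mem_image_of_mem (mapPt σ) hp
      rw [← pts_map, image_insert, h2, hσ, Equiv.swap_apply_left, ← hσ,
        image_congr (g := id) (fun w hw => h1 w hw), image_id] at h4
      exact h4
    obtain ⟨π, g1, -, g3, g4, -⟩ := pts_transitive h3 hp'
    refine ((hs (π * σ) _).symm).trans (congrArg h (Prod.ext ?_ ?_))
    · show mapPl (π * σ) (setP (setP s.1 a v) b y) = setP (setP s.1 a v') b y'
      rw [mapPl_setP, mapPl_setP, mapPl_mul, mapPl_eq_self σ _ h1,
        mapPl_eq_self π _ fun w hw => g1 w (mem_insert_of_mem hw)]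
      simp only [mapPt] at g3
      rw [Equiv.Perm.mul_apply, Equiv.Perm.mul_apply, g3, hσ, Equiv.swap_apply_left,
        g1 v' (mem_insert_self _ _)]
    · show mapMG (π * σ) G = G'
      rw [mapMG_mul]; exact g4

/-- The terminal states are reached from terminal states. -/
lemma termSt_cover {mon : Spec m R} {S : Finset (Fin m)} {b : Fin m} (hb : b ∈ S) {j : ℕ}
    {t : St n m} (ht : t ∈ termSt n mon S j) :
    ∃ o ∈ items mon S b j, ∃ s ∈ termSt n mon (rest S b o) (j - len o), t ∈ tgt b o s := by
  simp only [termSt, stS, mem_filter, mem_product, mem_univ, true_and, mem_multi] at ht ⊢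
  obtain ⟨⟨hpl, hsz⟩, hinj, hdeg, hoff⟩ := ht
  obtain ⟨y, hy⟩ := Option.isSome_iff_exists.1 (mem_placed.1 (hpl ▸ hb))
  have hother : ∀ i, i ≠ b → ∀ w, t.1 i = some w → w ≠ y := fun i hi w hw e =>
    hi (hinj i (hpl ▸ mem_placed.2 (by simp [hw])) b hb (by rw [hw, hy, e]))
  have hdy := hdeg b hb y hy
  by_cases hodd : Odd' mon b
  · -- a path
    have hy1 : deg t.2 y = 1 := hdy.trans hodd
    have hM : ∀ w, w ∈ (marks t.1).erase y → ∃ i ∈ S.erase b, t.1 i = some w := fun w hw => by
      obtain ⟨hne, hw⟩ := mem_erase.1 hw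
      obtain ⟨i, hi⟩ := mem_marks.1 hw
      refine ⟨i, mem_erase.2 ⟨?_, hpl ▸ mem_placed.2 (by simp [hi])⟩, hi⟩
      rintro rfl
      exact hne (Option.some.inj (hi.symm.trans hy))
    have hle1 : ∀ i ∈ S, ∀ w, t.1 i = some w → deg t.2 w ≤ 1 := fun i hi w hw => by
      rw [hdeg i hi w hw]; omega
    obtain ⟨r, v, G0, hr, hv, hv0, hsize, hp⟩ := exists_path (M := (marks t.1).erase y)
      (G := t.2) (u := y) (notMem_erase _ _) hy1
      (fun w => by
        by_cases hw : w ∈ marks t.1
        · obtain ⟨i, hi⟩ := mem_marks.1 hw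
          exact (hle1 i (hpl ▸ mem_placed.2 (by simp [hi])) w hi).trans (by omega)
        · rcases hoff w hw with h | h <;> omega)
      (fun w hw => by
        obtain ⟨i, hi, hi'⟩ := hM w hw
        exact hle1 i (mem_of_mem_erase hi) w hi')
      (fun w hw hwy => by
        rcases hoff w (fun h => hw (mem_erase.2 ⟨hwy, h⟩)) with h | h <;> simp [h])
    obtain ⟨a, haS', ha⟩ := hM v hv
    obtain ⟨hab, haS⟩ := mem_erase.1 haS'
    obtain ⟨hyM, -, hy0, hv1, -, hoth⟩ := pts_spec hv hv0 hr hp
    have hodd' : Odd' mon a := by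
      have := hdeg a haS v ha
      simp only [Odd']; omega
    set x : Pl n m := Function.update (Function.update t.1 b none) a none with hx
    have hxi : ∀ i w, x i = some w → i ≠ a ∧ i ≠ b ∧ t.1 i = some w := fun i w hw => by
      have h1 : i ≠ a := by rintro rfl; simp [hx] at hw
      have h2 : i ≠ b := by rintro rfl; simp [hx, h1] at hw
      exact ⟨h1, h2, by simpa [hx, h1, h2] using hw⟩
    have hpx : placed x = (S.erase b).erase a := by
      ext i
      by_cases h1 : i = a
      · simp [h1, hx, mem_placed]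
      by_cases h2 : i = b
      · simp [h2, hx, mem_placed, Ne.symm hab]
      simp [hx, h1, h2, mem_placed, ← hpl]
    have hmx : ∀ w ∈ marks x, w ≠ v ∧ w ≠ y ∧ w ∈ marks t.1 := fun w hw => by
      obtain ⟨i, hi⟩ := mem_marks.1 hw
      obtain ⟨h1, h2, h3⟩ := hxi i w hi
      refine ⟨fun e => h1 (hinj i (hpl ▸ mem_placed.2 (by simp [h3])) a haS
        (by rw [h3, ha, e])), hother i h2 w h3, mem_marks.2 ⟨i, h3⟩⟩
    have hins : insert v (marks x) = (marks t.1).erase y := by
      ext w
      rw [mem_insert]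
      constructor
      · rintro (rfl | h)
        · exact hv
        · exact mem_erase.2 (hmx w h).2
      · intro hw
        obtain ⟨i, hi, hi'⟩ := hM w hw
        by_cases h1 : i = a
        · subst h1; exact Or.inl (Option.some.inj (hi'.symm.trans ha))
        · exact Or.inr (mem_marks.2 ⟨i, by simp [hx, h1, (mem_erase.1 hi).1, hi']⟩)
    have hG0 : ∀ w, w ∈ marks t.1 → w ≠ y → w ≠ v → deg G0 w = deg t.2 w := fun w hw h1 h2 => by
      rcases hoth w h1 h2 with h | ⟨h, -, -⟩
      · exact h.symm
      · exact absurd (mem_erase.2 ⟨h1, hw⟩) h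
    refine ⟨some (a, r), mem_items_some hodd hodd' haS hab hr (by omega), (x, G0),
      ⟨⟨hpx, by simp only [len]; omega⟩, ?_, ?_, ?_⟩, mem_tgt_some.2 ⟨v, y, t.2, ⟨hv0, ?_⟩, ?_, ?_⟩⟩
    · intro i hi i' hi' e
      simp only [rest, mem_erase] at hi hi'
      refine hinj i hi.2.2 i' hi'.2.2 ?_
      simpa [hx, hi.1, hi.2.1, hi'.1, hi'.2.1] using e
    · intro i hi w hw
      simp only [rest, mem_erase] at hi
      obtain ⟨h1, h2, h3⟩ := hxi i w hw
      obtain ⟨k1, k2, k3⟩ := hmx w (mem_marks.2 ⟨i, hw⟩)
      rw [hG0 w k3 k2 k1, hdeg i hi.2.2 w h3]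
    · intro w hw
      by_cases h1 : w = y
      · subst h1; exact Or.inl hy0
      by_cases h2 : w = v
      · subst h2; exact Or.inl hv0
      have hw' : w ∉ marks t.1 := fun h => by
        have h3 : w ∈ insert v (marks x) := by rw [hins]; exact mem_erase.2 ⟨h1, h⟩
        rcases mem_insert.1 h3 with h3 | h3
        · exact h2 h3
        · exact hw h3
      rcases hoth w h1 h2 with h | ⟨-, h, -⟩
      · rw [← h]; exact hoff w hw'
      · exact Or.inl h
    · exact fun h => (hmx v h).1 rfl
    · rw [hins]; exact hp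
    · refine Prod.ext ?_ rfl
      funext i
      by_cases h2 : i = b
      · subst h2; dsimp only; rw [setP_apply_self, hy]
      by_cases h1 : i = a
      · subst h1; dsimp only; rw [setP_of_ne _ _ h2, setP_apply_self, ha]
      · dsimp only; rw [setP_of_ne _ _ h2, setP_of_ne _ _ h1]; simp [hx, h1, h2]
  · -- an isolated mark
    have hy0 : deg t.2 y = 0 := by
      unfold Odd' at hodd; omega
    set x : Pl n m := Function.update t.1 b none with hx
    have hxi : ∀ i w, x i = some w → i ≠ b ∧ t.1 i = some w := fun i w hw => by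
      have h2 : i ≠ b := by rintro rfl; simp [hx] at hw
      exact ⟨h2, by simpa [hx, h2] using hw⟩
    have hpx : placed x = S.erase b := by
      ext i
      by_cases h2 : i = b
      · simp [h2, hx, mem_placed]
      simp [hx, h2, mem_placed, ← hpl]
    refine ⟨none, by simp [items, hodd], (x, t.2), ⟨⟨hpx, by simpa [len] using hsz⟩, ?_, ?_, ?_⟩,
      mem_tgt_none.2 ⟨y, ⟨hy0, ?_⟩, ?_⟩⟩
    · intro i hi i' hi' e
      simp only [rest, mem_erase] at hi hi'
      refine hinj i hi.2 i' hi'.2 ?_
      simpa [hx, hi.1, hi'.1] using e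
    · intro i hi w hw
      simp only [rest, mem_erase] at hi
      exact hdeg i hi.2 w (hxi i w hw).2
    · intro w hw
      by_cases h1 : w = y
      · subst h1; exact Or.inl hy0
      refine hoff w fun h => hw ?_
      obtain ⟨i, hi⟩ := mem_marks.1 h
      have h2 : i ≠ b := by rintro rfl; exact h1 (Option.some.inj (hi.symm.trans hy))
      exact mem_marks.2 ⟨i, by simp [hx, h2, hi]⟩
    · intro h
      obtain ⟨i, hi⟩ := mem_marks.1 h
      obtain ⟨h1, h2⟩ := hxi i y hi
      exact hother i h1 y h2 rfl
    · refine Prod.ext ?_ rfl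
      funext i
      by_cases h2 : i = b
      · subst h2; dsimp only; rw [setP_apply_self, hy]
      · dsimp only; rw [setP_of_ne _ _ h2]; simp [hx, h2]

/-- On invariant functions the fresh parts lose at most the proportion of fresh placements. -/
theorem sum_termSt_le {mon : Spec m R} {S : Finset (Fin m)} {b : Fin m} (hb : b ∈ S) {j Kb : ℕ}
    {q : ℝ} {h : St n m → ℝ} (hs : Symm' h) (hK : 2 * j + m + 2 ≤ Kb) (hKn : Kb < n)
    (hq : (n : ℝ) ^ (j + 1) ≤ q * ((n : ℝ) - Kb) ^ (j + 1)) :
    ∑ t ∈ termSt n mon S j, h t ^ 2 ≤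
      q * ∑ o ∈ items mon S b j,
        ∑ s ∈ termSt n mon (rest S b o) (j - len o), opC b o h s ^ 2 := by
  have hn : 0 < n := lt_of_le_of_lt (Nat.zero_le _) hKn
  have hn' : (0 : ℝ) < n := by exact_mod_cast hn
  have hd : (0 : ℝ) < (n : ℝ) - Kb := sub_pos.2 (by exact_mod_cast hKn)
  set P := (items mon S b j).sigma fun o => termSt n mon (rest S b o) (j - len o) with hP
  have hsub : termSt n mon S j ⊆ P.biUnion fun p => tgt b p.1 p.2 := fun t ht => by
    obtain ⟨o, ho, s, hs', ht'⟩ := termSt_cover hb ht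
    exact mem_biUnion.2 ⟨⟨o, s⟩, mem_sigma.2 ⟨ho, hs'⟩, ht'⟩
  refine (sum_le_sum_of_subset_of_nonneg hsub fun _ _ _ => sq_nonneg _).trans ?_
  rw [sum_biUnion, mul_sum]
  · simp only [mul_sum]
    rw [sum_sigma' (items mon S b j)]
    refine sum_le_sum fun p hp => ?_
    obtain ⟨o, s⟩ := p
    rw [mem_sigma] at hp
    obtain ⟨ho, hs'⟩ := hp
    simp only [termSt, stS, mem_filter, mem_product, mem_univ, true_and, mem_multi] at hs'
    have hlen : len o ≤ j ∧ ∀ a r, o = some (a, r) → a ≠ b := by
      rcases items_spec ho with ⟨rfl, -⟩ | ⟨a, r, rfl, -, -, -, h1, -, h2⟩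
      · exact ⟨by simp [len], by simp⟩
      · refine ⟨h2, fun a' r' e => ?_⟩
        simp only [Option.some.injEq, Prod.mk.injEq] at e
        exact e.1 ▸ h1
    have hM : (marks s.1).card ≤ m := by
      refine (card_le_card (t := univ.biUnion fun i => (s.1 i).toFinset) ?_).trans
        (card_biUnion_le.trans ?_)
      · intro w hw
        obtain ⟨i, hi⟩ := mem_marks.1 hw
        exact mem_biUnion.2 ⟨i, mem_univ _, by simp [hi]⟩
      · refine (sum_le_card_nsmul _ _ 1 fun i _ => ?_).trans (by simp)
        cases s.1 i <;> simp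
    have hcard := le_card_tgt hlen.2 (s := s) (Kb := Kb) (by
      have := hs'.1.2; omega)
    set N := (tgt b o s).card with hN
    -- the proportion of fresh placements
    have hqN : (n : ℝ) ^ (len o + 1) ≤ q * N := by
      obtain ⟨i, hi⟩ := Nat.exists_eq_add_of_le hlen.1
      have h1 : ((n : ℝ) - Kb) ^ (len o + 1) ≤ N := by
        rw [← Nat.cast_sub hKn.le]
        exact_mod_cast hcard
      have hq0 : 0 ≤ q := by
        by_contra hneg
        exact absurd hq (not_le.2 ((mul_neg_of_neg_of_pos (not_le.1 hneg) (pow_pos hd _)).trans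
          (pow_pos hn' _)))
      refine le_trans ?_ (mul_le_mul_of_nonneg_left h1 hq0)
      refine le_of_mul_le_mul_right ?_ (pow_pos hd i)
      rw [mul_assoc, ← pow_add, show len o + 1 + i = j + 1 by omega]
      refine le_trans ?_ hq
      rw [show j + 1 = len o + 1 + i by omega]
      exact (mul_le_mul_of_nonneg_left (pow_le_pow_left₀ hd.le
        (sub_le_self (n : ℝ) (Nat.cast_nonneg Kb)) i)
        (pow_nonneg (Nat.cast_nonneg n) _)).trans_eq (pow_add _ _ _).symm
    rcases (tgt b o s).eq_empty_or_nonempty with he | ⟨t0, ht0⟩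
    · rw [he, sum_empty]
      have h1 : N = 0 := by rw [hN, he]; rfl
      rw [h1] at hqN
      simp only [Nat.cast_zero, mul_zero] at hqN
      exact absurd hqN (not_le.2 (pow_pos hn' _))
    · rw [opC_eq_sum hlen.2, sum_congr rfl fun t ht => by rw [const_on_tgt hs ht ht0],
        sum_congr rfl fun t ht => const_on_tgt hs ht ht0, sum_const, sum_const, div_pow,
        ← pow_mul, mul_comm (len o + 1), pow_mul, Real.sq_sqrt hn'.le, ← hN, nsmul_eq_mul,
        nsmul_eq_mul, ← mul_div_assoc, le_div_iff₀ (pow_pos hn' _)]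
      nlinarith [mul_le_mul_of_nonneg_left hqN (mul_nonneg (Nat.cast_nonneg (α := ℝ) N)
        (sq_nonneg (h t0)))]
  · rintro ⟨o, s⟩ hp ⟨o', s'⟩ hp' hne
    simp only [hP, coe_sigma, Set.mem_sigma_iff, mem_coe, termSt, stS, mem_product, mem_filter,
      mem_univ, true_and] at hp hp'
    refine Finset.disjoint_left.2 fun t ht ht' => hne ?_
    obtain ⟨rfl, rfl⟩ := tgt_disjoint hp.1 hp'.1 hp.2.1.1 hp'.2.1.1 ht ht'
    rfl

/-! ### Iteration over all structures -/

lemma rest_subset (S : Finset (Fin m)) (b : Fin m) (o : Item m) : rest S b o ⊆ S.erase b := by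
  cases o with
  | none => exact subset_rfl
  | some o => exact erase_subset _ _

/-- The structures of fresh items form a contraction. -/
theorem lsum_opC_le (hn : 0 < n) {θ : ℝ} (hθ : 0 < θ) (mon : Spec m R) :
    ∀ (p : ℕ) (S : Finset (Fin m)) (j : ℕ) (h : St n m → ℝ),
      lsum mon opC cycSq p S j h ≤ isq θ S j h := by
  have h0 : ∀ (S : Finset (Fin m)) (j : ℕ) (h : St n m → ℝ), 0 ≤ isq θ S j h :=
    fun S j h => sum_nonneg fun _ _ => by positivity
  have base : ∀ (j : ℕ) (h : St n m → ℝ), cycSq j h ≤ isq θ ∅ j h := fun j h => by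
    have hpl : placed (noPl n m) = ∅ := by ext i; simp [mem_placed, noPl]
    have hmk : marks (noPl n m) = ∅ := by ext i; simp [mem_marks, noPl]
    have hterm : ∀ D ∈ cyclesSet n j, h (noPl n m, D) ^ 2 =
        h (noPl n m, D) ^ 2 / θ ^ psiP ((noPl n m, D) : St n m) := fun D hD => by
      have : psiA D = 0 := sum_eq_zero fun w _ => by
        rcases (mem_filter.1 hD).2 w with e | e <;> simp [e]
      simp [psiP, this, hpl, hmk, psiC]
    rw [cycSq, sum_congr rfl hterm, isq,
      ← sum_image (f := fun s : St n m => h s ^ 2 / θ ^ psiP s)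
        (g := fun D => ((noPl n m, D) : St n m)) (fun D _ D' _ e => congrArg Prod.snd e)]
    refine sum_le_sum_of_subset_of_nonneg ?_ fun _ _ _ => by positivity
    intro s hs
    obtain ⟨D, hD, rfl⟩ := mem_image.1 hs
    simp only [stS, mem_product, mem_filter, mem_univ, true_and]
    exact ⟨hpl, (mem_filter.1 hD).1⟩
  intro p
  induction p with
  | zero =>
    intro S j h
    simp only [lsum]
    split_ifs with hS
    · subst hS; exact base j h
    · exact h0 _ _ _
  | succ p ih =>
    intro S j h
    rw [lsum]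
    by_cases hS : S.Nonempty
    · rw [dif_pos hS]
      exact (sum_le_sum fun o _ => ih _ _ _).trans
        (sum_isq_opC_le hn hθ mon (S.max'_mem hS) j h)
    · rw [dif_neg hS]
      rw [not_nonempty_iff_eq_empty] at hS
      subst hS
      exact base j h

/-- The terminal mass is controlled by the structures of fresh items. -/
theorem sum_termSt_le_lsum {mon : Spec m R} {Kb : ℕ} {q : ℝ} (hKn : Kb < n) (hq1 : 1 ≤ q) :
    ∀ (p : ℕ) (S : Finset (Fin m)) (j : ℕ) (h : St n m → ℝ), Symm' h → S.card ≤ p →
      2 * j + m + 2 ≤ Kb → (n : ℝ) ^ (j + 1) ≤ q * ((n : ℝ) - Kb) ^ (j + 1) →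
      ∑ t ∈ termSt n mon S j, h t ^ 2 ≤ q ^ p * lsum mon opC cycSq p S j h := by
  have hd : (0 : ℝ) < (n : ℝ) - Kb := sub_pos.2 (by exact_mod_cast hKn)
  have base : ∀ (j : ℕ) (h : St n m → ℝ),
      ∑ t ∈ termSt n mon ∅ j, h t ^ 2 ≤ cycSq j h := fun j h => by
    rw [cycSq, ← sum_image (f := fun s : St n m => h s ^ 2)
      (g := fun D => ((noPl n m, D) : St n m)) (fun D _ D' _ e => congrArg Prod.snd e)]
    refine sum_le_sum_of_subset_of_nonneg ?_ fun _ _ _ => sq_nonneg _
    intro s hs
    simp only [termSt, stS, mem_filter, mem_product, mem_univ, true_and] at hs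
    obtain ⟨⟨hpl, hsz⟩, -, -, hoff⟩ := hs
    have hx : s.1 = noPl n m := funext fun i => eq_none_of_not_placed (by rw [hpl]; simp)
    refine mem_image.2 ⟨s.2, mem_filter.2 ⟨hsz, fun w => hoff w ?_⟩, Prod.ext hx.symm rfl⟩
    rw [hx]; simp [mem_marks, noPl]
  intro p
  induction p with
  | zero =>
    intro S j h _ hS _ _
    rw [Nat.le_zero, card_eq_zero] at hS
    subst hS
    simpa [lsum] using base j h
  | succ p ih =>
    intro S j h hs hS hK hq
    rw [lsum]
    by_cases hne : S.Nonempty
    · rw [dif_pos hne]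
      refine (sum_termSt_le (S.max'_mem hne) hs hK hKn hq).trans ?_
      rw [pow_succ', mul_assoc, mul_sum _ _ (q ^ p)]
      refine mul_le_mul_of_nonneg_left (sum_le_sum fun o _ => ?_) (by linarith)
      refine ih _ _ _ (symm_opC hs _ _) ?_ (by omega) ?_
      · have h1 := card_le_card (rest_subset S (S.max' hne) o)
        rw [card_erase_of_mem (S.max'_mem hne)] at h1
        omega
      · obtain ⟨i, hi⟩ := Nat.exists_eq_add_of_le (Nat.sub_le j (len o))
        refine le_of_mul_le_mul_right ?_ (pow_pos hd i)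
        rw [mul_assoc, ← pow_add, show j - len o + 1 + i = j + 1 by omega]
        refine le_trans ?_ hq
        rw [show j + 1 = j - len o + 1 + i by omega]
        exact (mul_le_mul_of_nonneg_left (pow_le_pow_left₀ hd.le
        (sub_le_self (n : ℝ) (Nat.cast_nonneg Kb)) i)
        (pow_nonneg (Nat.cast_nonneg n) _)).trans_eq (pow_add _ _ _).symm
    · rw [dif_neg hne]
      rw [not_nonempty_iff_eq_empty] at hne
      subst hne
      exact (base j h).trans (le_mul_of_one_le_left (sum_nonneg fun _ _ => sq_nonneg _)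
        (one_le_pow₀ hq1))

/-- The terminal mass of an invariant function, all marks placed. -/
theorem sum_termSt_univ_le {mon : Spec m R} {j Kb : ℕ} {q : ℝ} {h : St n m → ℝ} (hs : Symm' h)
    (hK : 2 * j + m + 2 ≤ Kb) (hKn : Kb < n) (hq1 : 1 ≤ q)
    (hq : (n : ℝ) ^ (j + 1) ≤ q * ((n : ℝ) - Kb) ^ (j + 1)) :
    ∑ t ∈ termSt n mon univ j, h t ^ 2 ≤ q ^ m * lsum mon opC cycSq m univ j h :=
  sum_termSt_le_lsum hKn hq1 m univ j h hs (by simp) hK hq

end

end Vale.Agent.P146.Super
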