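import Vale.Agent.P146.Super.Items
import Mathlib.Algebra.Order.Chebyshev

/-!
# P146, superconcentration: the deviation of the structures from their fresh parts

For one item the deviation is small in the weighted norm, summed over all choices; for all items
together it stays small because the fresh parts are contractions.
-/

namespace Vale.Agent.P146.Super

open Finset

noncomputable section

variable {n m R : ℕ}

/-- The overcounting of a placement. -/
def excessP (x : Pl n m) : ℕ := (placed x).card - (marks x).card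

lemma psiP_eq (s : St n m) : psiP s = 2 * psiA s.2 + psiC (marks s.1) s.2 + 2 * excessP s.1 := rfl

lemma marks_card_le (x : Pl n m) : (marks x).card ≤ (placed x).card := by
  rw [← card_map ⟨Option.some, Option.some_injective _⟩]
  refine (card_le_card fun o ho => ?_).trans (card_image_le (f := x))
  obtain ⟨v, hv, rfl⟩ := mem_map.1 ho
  obtain ⟨i, hi⟩ := (mem_filter.1 hv).2
  exact mem_image.2 ⟨i, mem_filter.2 ⟨mem_univ _, by simp [hi]⟩, hi⟩

lemma marks_card_le_m (x : Pl n m) : (marks x).card ≤ m :=
  (marks_card_le x).trans ((card_le_univ _).trans (by simp))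

lemma marks_setP_dev {x : Pl n m} {b : Fin m} (hb : x b = none) (v : Fin n) :
    marks (setP x b v) = insert v (marks x) := by
  ext w
  rw [marks, marks, mem_insert, mem_filter, mem_filter]
  simp only [mem_univ, true_and, setP]
  constructor
  · rintro ⟨i, hi⟩
    by_cases h : i = b
    · subst h; rw [Function.update_self] at hi; exact Or.inl (Option.some_inj.1 hi).symm
    · rw [Function.update_of_ne h] at hi; exact Or.inr ⟨i, hi⟩
  · rintro (h | ⟨i, hi⟩)
    · subst h; exact ⟨b, Function.update_self _ _ _⟩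
    · refine ⟨i, ?_⟩
      rw [Function.update_of_ne]
      · exact hi
      · rintro rfl; rw [hb] at hi; exact absurd hi (by simp)

lemma placed_setP_dev (x : Pl n m) (b : Fin m) (v : Fin n) :
    placed (setP x b v) = insert b (placed x) := by
  ext i
  rw [placed, placed, mem_insert, mem_filter, mem_filter]
  simp only [mem_univ, true_and, setP]
  by_cases h : i = b
  · subst h; simp
  · simp [h]

lemma setP_self_dev {x : Pl n m} {b : Fin m} (hb : x b = none) (v : Fin n) :
    Function.update (setP x b v) b none = x := by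
  rw [setP, Function.update_idem, ← hb, Function.update_eq_self]

lemma excess_setP_le {x : Pl n m} {b : Fin m} (hb : x b = none) (v : Fin n) :
    excessP (setP x b v) ≤ excessP x + if v ∈ marks x then 1 else 0 := by
  have h1 := card_insert_le b (placed x)
  have h2 := marks_card_le x
  rw [excessP, excessP, placed_setP_dev, marks_setP_dev hb]
  by_cases hv : v ∈ marks x
  · rw [if_pos hv, insert_eq_of_mem hv]; omega
  · rw [if_neg hv, card_insert_of_notMem hv]; omega

lemma psiC_insert_le (M : Finset (Fin n)) (G : MG n) (v : Fin n) :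
    psiC (insert v M) G ≤ psiC M G + if v ∈ M then 0 else psiI G v := by
  unfold psiC psiI
  rw [filter_insert]
  by_cases hd : 2 ≤ deg G v
  · rw [if_pos hd, if_pos hd, card_insert_eq_ite]
    simp only [mem_filter, hd, and_true]
    split <;> omega
  · rw [if_neg hd, if_neg hd]
    split <;> omega

lemma psiI_le_one (G : MG n) (v : Fin n) : psiI G v ≤ 1 := by unfold psiI; split <;> omega

/-- Placing a mark at the current vertex. -/
lemma psiP_land_le {x : Pl n m} {b : Fin m} (hb : x b = none) (y : Fin n) (G : MG n) :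
    psiP (setP x b y, G) ≤ psi (marks x) (y, G) + 2 * excessP x + 2 := by
  have h1 := psiC_insert_le (marks x) G y
  have h2 := excess_setP_le hb y
  rw [psiP_eq, marks_setP_dev hb]
  unfold psi
  dsimp only
  split_ifs at h1 h2 <;> omega

/-- Starting a path at a mark put on `v`. -/
lemma psi_start_le {x : Pl n m} {a : Fin m} (ha : x a = none) (v : Fin n) (G : MG n) :
    psi (marks (setP x a v)) (v, G) + 2 * excessP (setP x a v) ≤ psiP (x, G) + 4 ∧
    (Fresh (marks x) G v →
      psi (marks (setP x a v)) (v, G) + 2 * excessP (setP x a v) ≤ psiP (x, G)) := by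
  have h1 := psiC_insert_le (marks x) G v
  have h2 := excess_setP_le ha v
  have h3 := psiI_le_one G v
  rw [psiP_eq, marks_setP_dev ha]
  unfold psi
  dsimp only
  refine ⟨by split_ifs at h1 h2 <;> omega, fun hf => ?_⟩
  have h4 : psiI G v = 0 := by simp [psiI, hf.1]
  rw [if_neg hf.2] at h1 h2
  omega

lemma mem_stS {S : Finset (Fin m)} {j : ℕ} {s : St n m} :
    s ∈ stS n S j ↔ placed s.1 = S ∧ size s.2 ≤ j := by
  simp [stS, mem_multi]

lemma none_of_not_mem {x : Pl n m} {i : Fin m} (h : i ∉ placed x) : x i = none := by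
  simpa [placed] using h

/-- The states reached by putting one more mark are counted once. -/
lemma sum_setP_le (S : Finset (Fin m)) (b : Fin m) (hb : b ∉ S) (F : Pl n m → ℝ)
    (hF : ∀ x, 0 ≤ F x) :
    ∑ x ∈ univ.filter (fun x : Pl n m => placed x = S), ∑ v, F (setP x b v)
      ≤ ∑ x ∈ univ.filter (fun x : Pl n m => placed x = insert b S), F x := by
  rw [← Finset.sum_product']
  refine le_of_eq_of_le (Finset.sum_image (g := fun p : Pl n m × Fin n => setP p.1 b p.2) ?_).symm
    (Finset.sum_le_sum_of_subset_of_nonneg ?_ fun x _ _ => hF x)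
  · intro p hp q hq he
    have h1 : p.1 b = none := none_of_not_mem (by rw [(mem_filter.1 (mem_product.1 hp).1).2]; exact hb)
    have h2 : q.1 b = none := none_of_not_mem (by rw [(mem_filter.1 (mem_product.1 hq).1).2]; exact hb)
    refine Prod.ext ?_ ?_
    · rw [← setP_self_dev h1 p.2, ← setP_self_dev h2 q.2]; exact congrArg (fun z => Function.update z b none) he
    · have := congrFun he b; simpa [setP] using this
  · intro y hy
    obtain ⟨p, hp, rfl⟩ := mem_image.1 hy
    exact mem_filter.2 ⟨mem_univ _, by rw [placed_setP_dev, (mem_filter.1 (mem_product.1 hp).1).2]⟩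

lemma abs_cleanVal_sub_le (M : Finset (Fin n)) (f f' : Fin n → MG n → ℝ) :
    ∀ (r : ℕ) (u : Fin n) (G : MG n), |cleanVal M r u G f - cleanVal M r u G f'|
      ≤ cleanVal M r u G fun y G' => |f y G' - f' y G'| := by
  intro r
  induction r with
  | zero => intro u G; simp [cleanVal]
  | succ r ih =>
    intro u G
    simp only [cleanVal, ← Finset.sum_sub_distrib]
    refine (abs_sum_le_sum_abs _ _).trans (sum_le_sum fun l _ => ?_)
    by_cases h : u = l
    · simp [h]
    rw [dif_neg h, dif_neg h, dif_neg h]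
    split
    · rw [← sub_div, abs_div, abs_of_nonneg (Real.sqrt_nonneg _)]
      exact div_le_div_of_nonneg_right (ih _ _) (Real.sqrt_nonneg _)
    · simp

lemma sum_ite_zero_left {ι : Type*} (s : Finset ι) (p : ι → Prop) [DecidablePred p] (f : ι → ℝ) :
    ∑ v ∈ s, (if p v then 0 else f v) = ∑ v ∈ s.filter (fun v => ¬ p v), f v := by
  rw [sum_filter]
  exact sum_congr rfl fun v _ => (ite_not ..).symm

/-- The exact item against the fresh item. -/
lemma abs_opE_sub_opC_le (b : Fin m) (o : Item m) (h1 h2 : St n m → ℝ) (s : St n m) :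
    |opE b o h1 s - opC b o h2 s| ≤ opD b o h1 s + opC b o (fun t => |h1 t - h2 t|) s := by
  have hs := Real.sqrt_nonneg (n : ℝ)
  rcases o with _ | ⟨a, r⟩
  all_goals
    simp only [opE, opC, opD]
    rw [← sub_div, ← add_div, abs_div, abs_of_nonneg hs, ← sum_sub_distrib, ← sum_add_distrib]
    refine div_le_div_of_nonneg_right ((abs_sum_le_sum_abs _ _).trans (sum_le_sum fun v _ => ?_)) hs
    by_cases hf : Fresh (marks s.1) s.2 v
    · simp only [if_pos hf]
      first
      | simp
      | refine (abs_sub_le _ (cleanVal (insert v (marks s.1)) r v s.2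
            fun y G => h1 (setP (setP s.1 a v) b y, G)) _).trans (add_le_add ?_ ?_)
        · exact abs_zval_sub_clean_le _ _ r v v s.2 (inv_start hf.1)
        · exact abs_cleanVal_sub_le _ _ _ r v s.2
    · simp only [if_neg hf, sub_zero, add_zero]
      first
      | exact le_rfl
      | exact (abs_zval_le _ _ r v v s.2).1

lemma sq_sqrt_wsum {θ : ℝ} (hθ : 0 < θ) (M : Finset (Fin n)) (S : Finset (Fin n × MG n))
    (h : Fin n × MG n → ℝ) : nrm θ M S h ^ 2 = wsum θ M S h :=
  Real.sq_sqrt (wsum_nonneg hθ M S h)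

namespace Par

variable (P : Par n)

/-- The cost of one item that is not clean. -/
def cost : ℝ :=
  2 * P.θ ^ 2 * ((P.R * (P.ε * (1 + P.R * P.lam) * P.q ^ P.R)) ^ 2
    + (P.Kb : ℝ) * P.θ ^ 4 / n * (P.q ^ P.R * (1 + P.R * P.lam)) ^ 2)

lemma cost_nonneg : 0 ≤ P.cost := by have := P.hθ0; unfold cost; positivity

lemma one_le_c2 : 1 ≤ P.q ^ P.R * (1 + P.R * P.lam) := by
  exact one_le_mul_of_one_le_of_one_le (one_le_pow₀ P.one_le_q)
    (le_add_of_nonneg_right (mul_nonneg (Nat.cast_nonneg _) P.lam_nonneg))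

theorem isq_opD_path (S : Finset (Fin m)) (j r : ℕ) (hr : r ≤ j) (hjR : j ≤ P.R)
    (hK : 2 * j + m + 3 ≤ P.Kb) (a b : Fin m) (haS : a ∈ S) (hbS : b ∈ S) (hab : a ≠ b)
    (h : St n m → ℝ) :
    isq P.θ ((S.erase b).erase a) (j - r) (opD b (some (a, r)) h) ≤ P.cost * isq P.θ S j h := by
  have hθ := P.hθ0
  have hn0 : (0 : ℝ) < n := Nat.cast_pos.2 P.hn
  set S' := (S.erase b).erase a
  set c1 := P.R * (P.ε * (1 + P.R * P.lam) * P.q ^ P.R)
  set c2 := P.q ^ P.R * (1 + P.R * P.lam)
  set X := univ.filter fun x : Pl n m => placed x = S'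
  let f : Pl n m → Fin n × MG n → ℝ := fun x' p => |h (setP x' b p.1, p.2)|
  let Q : Pl n m → ℝ := fun x' => ∑ p ∈ dom n j, h (setP x' b p.1, p.2) ^ 2
      / P.θ ^ (psi (marks x') p + 2 * excessP x')
  have hQ : ∀ x', 0 ≤ Q x' := fun x' => sum_nonneg fun _ _ => by positivity
  have hq1 := P.one_le_q
  have hl := P.lam_nonneg
  have hε := P.ε_nonneg
  have hrR : r ≤ P.R := hr.trans hjR
  have hrr : (r : ℝ) ≤ P.R := Nat.cast_le.2 hrR
  have hqr : P.q ^ r ≤ P.q ^ P.R := pow_le_pow_right₀ hq1 hrR
  -- the two Markov bounds for a fixed placement of the start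
  have hwalk : ∀ x ∈ X, ∀ v, ∀ (ph : Bool),
      ∑ G ∈ (multi n (j - r)).filter (fun G => ph = true → Fresh (marks x) G v),
        (if ph then devF (marks (setP x a v)) r (f (setP x a v)) (v, G)
          else relF (marks (setP x a v)) r false (f (setP x a v)) (v, G)) ^ 2
          / P.θ ^ psiP (x, G)
        ≤ (if ph then c1 ^ 2 else P.θ ^ 4 * c2 ^ 2) * Q (setP x a v) := by
    intro x hx v ph
    have hxa : x a = none := none_of_not_mem (by rw [(mem_filter.1 hx).2]; simp [S'])
    set x' := setP x a v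
    set M := marks x'
    have hM : 2 * j + M.card + 2 ≤ P.Kb := by
      have : M.card ≤ m := marks_card_le_m x'
      omega
    obtain ⟨-, hB, hD⟩ := P.iterate M j hM (f x') _ le_rfl r hrR (j - r) (by omega)
    set N := nrm P.θ M (dom n j) (f x')
    have hN : 0 ≤ N := Real.sqrt_nonneg _
    have hN2 : N ^ 2 / P.θ ^ (2 * excessP x') = Q x' := by
      rw [sq_sqrt_wsum hθ, wsum, sum_div]
      exact sum_congr rfl fun p _ => by rw [div_div, ← pow_add, sq_abs]
    cases ph with
    | true =>
      simp only [if_true, forall_const]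
      have h1 : nrm P.θ M (domT M (j - r)) (devF M r (f x')) ^ 2 ≤ (c1 * N) ^ 2 := by
        refine pow_le_pow_left₀ (Real.sqrt_nonneg _) (hD.trans ?_) 2
        rw [show c1 * N = P.R * (P.ε * (1 + P.R * P.lam) * P.q ^ P.R * N) by ring]
        gcongr
      rw [sq_sqrt_wsum hθ, wsum, mul_pow] at h1
      rw [← hN2, ← mul_div_assoc]
      refine le_trans ?_ (div_le_div_of_nonneg_right h1 (by positivity))
      rw [sum_div]
      refine le_trans (sum_le_sum (g := fun G => devF M r (f x') (v, G) ^ 2 / P.θ ^ psi M (v, G)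
        / P.θ ^ (2 * excessP x')) fun G hG => ?_) ?_
      · rw [div_div, ← pow_add]
        exact div_le_div_of_nonneg_left (sq_nonneg _) (by positivity)
          (pow_le_pow_right₀ P.hθ ((psi_start_le hxa v G).2 (mem_filter.1 hG).2))
      · refine le_of_eq_of_le (sum_image (g := fun G : MG n => ((v, G) : Fin n × MG n))
          (f := fun p => devF M r (f x') p ^ 2 / P.θ ^ psi M p / P.θ ^ (2 * excessP x'))
          (fun G _ G' _ he => congrArg Prod.snd he)).symm
          (sum_le_sum_of_subset_of_nonneg ?_ fun _ _ _ => by positivity)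
        intro p hp
        obtain ⟨G, hG, rfl⟩ := mem_image.1 hp
        obtain ⟨hG1, hG2⟩ := mem_filter.1 hG
        refine mem_filter.2 ⟨mem_dom.2 (mem_multi.1 hG1), Or.inl ⟨hG2.1, ?_⟩⟩
        rw [show M = insert v (marks x) from marks_setP_dev hxa v]
        exact mem_insert_self _ _
    | false =>
      simp only [Bool.false_eq_true, if_false, IsEmpty.forall_iff, filter_true]
      have h1 : nrm P.θ M (dom n (j - r)) (relF M r false (f x')) ^ 2 ≤ (c2 * N) ^ 2 := by
        refine pow_le_pow_left₀ (Real.sqrt_nonneg _) (hB.trans ?_) 2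
        rw [show c2 * N = P.q ^ P.R * (1 + P.R * P.lam) * N by ring]
        gcongr
      rw [sq_sqrt_wsum hθ, wsum, mul_pow] at h1
      rw [← hN2, ← mul_div_assoc, mul_assoc (P.θ ^ 4), mul_div_assoc]
      refine le_trans ?_ (mul_le_mul_of_nonneg_left (div_le_div_of_nonneg_right h1 (by positivity))
        (by positivity))
      rw [sum_div, mul_sum]
      refine le_trans (sum_le_sum (g := fun G => P.θ ^ 4 * (relF M r false (f x') (v, G) ^ 2
        / P.θ ^ psi M (v, G) / P.θ ^ (2 * excessP x'))) fun G _ => ?_) ?_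
      · rw [div_div, ← pow_add, ← mul_div_assoc, div_le_div_iff₀ (by positivity) (by positivity),
          mul_comm (P.θ ^ 4) (relF M r false (f x') (v, G) ^ 2), mul_assoc, ← pow_add]
        refine mul_le_mul_of_nonneg_left (pow_le_pow_right₀ P.hθ ?_) (sq_nonneg _)
        have hh : psi M (v, G) + 2 * excessP x' ≤ psiP (x, G) + 4 := (psi_start_le hxa v G).1
        omega
      · refine le_of_eq_of_le (sum_image (g := fun G : MG n => ((v, G) : Fin n × MG n))
          (f := fun p => P.θ ^ 4 * (relF M r false (f x') p ^ 2 / P.θ ^ psi M p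
            / P.θ ^ (2 * excessP x')))
          (fun G _ G' _ he => congrArg Prod.snd he)).symm
          (sum_le_sum_of_subset_of_nonneg ?_ fun _ _ _ => by positivity)
        intro p hp
        obtain ⟨G, hG, rfl⟩ := mem_image.1 hp
        exact mem_dom.2 (mem_multi.1 hG)
  -- pointwise split
  have hpt : ∀ x ∈ X, ∀ G ∈ multi n (j - r),
      opD b (some (a, r)) h (x, G) ^ 2
        ≤ 2 * (∑ v, if Fresh (marks x) G v then
            devF (marks (setP x a v)) r (f (setP x a v)) (v, G) ^ 2 else 0)
          + 2 * (P.Kb : ℝ) / n * ∑ v, if Fresh (marks x) G v then 0 else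
            relF (marks (setP x a v)) r false (f (setP x a v)) (v, G) ^ 2 := by
    intro x hx G hG
    have hxa : x a = none := none_of_not_mem (by rw [(mem_filter.1 hx).2]; simp [S'])
    set g := fun v => devF (marks (setP x a v)) r (f (setP x a v)) (v, G)
    set k := fun v => relF (marks (setP x a v)) r false (f (setP x a v)) (v, G)
    have e : opD b (some (a, r)) h (x, G)
        = ((∑ v ∈ univ.filter (Fresh (marks x) G), g v)
          + ∑ v ∈ univ.filter (fun v => ¬ Fresh (marks x) G v), k v) / Real.sqrt n := by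
      simp only [opD, g, k, f, devF, relF, marks_setP_dev hxa, ← sum_ite]
    rw [e, div_pow, Real.sq_sqrt hn0.le, ← sum_filter, sum_ite_zero_left]
    have h1 := sq_sum_le_card_mul_sum_sq (s := univ.filter (Fresh (marks x) G)) (f := g)
    have h2 := sq_sum_le_card_mul_sum_sq
      (s := univ.filter (fun v => ¬ Fresh (marks x) G v)) (f := k)
    have h3 : ((univ.filter (Fresh (marks x) G)).card : ℝ) ≤ n :=
      Nat.cast_le.2 ((card_le_univ _).trans (by simp))
    have h4 : ((univ.filter (fun v => ¬ Fresh (marks x) G v)).card : ℝ) ≤ P.Kb := by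
      refine Nat.cast_le.2 ((card_old_le _ _).trans ?_)
      have := mem_multi.1 hG
      have := marks_card_le_m x
      omega
    have h5 := h1.trans (mul_le_mul_of_nonneg_right h3 (sum_nonneg fun _ _ => sq_nonneg _))
    have h6 := h2.trans (mul_le_mul_of_nonneg_right h4 (sum_nonneg fun _ _ => sq_nonneg _))
    rw [div_le_iff₀ hn0, add_mul, mul_right_comm (2 * (P.Kb : ℝ) / n),
      div_mul_cancel₀ _ hn0.ne']
    nlinarith [h5, h6, sq_nonneg ((∑ v ∈ univ.filter (Fresh (marks x) G), g v)
      - ∑ v ∈ univ.filter (fun v => ¬ Fresh (marks x) G v), k v)]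
  -- summation
  have hsum : isq P.θ S' (j - r) (opD b (some (a, r)) h)
      ≤ (2 * c1 ^ 2 + 2 * (P.Kb : ℝ) / n * (P.θ ^ 4 * c2 ^ 2)) * ∑ x ∈ X, ∑ v, Q (setP x a v) := by
    rw [isq, stS, sum_product]
    refine (sum_le_sum fun x hx => sum_le_sum fun G hG =>
      div_le_div_of_nonneg_right (hpt x hx G hG) (by positivity)).trans ?_
    rw [mul_sum]
    refine sum_le_sum fun x hx => ?_
    have swap : ∀ (c : ℝ) (U : Fin n → MG n → ℝ),
        ∑ G ∈ multi n (j - r), (c * ∑ v, U v G) / P.θ ^ psiP (x, G)
          = c * ∑ v, ∑ G ∈ multi n (j - r), U v G / P.θ ^ psiP (x, G) := by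
      intro c U
      rw [sum_comm, mul_sum]
      exact sum_congr rfl fun G _ => by rw [mul_div_assoc, sum_div]
    simp only [add_div, sum_add_distrib]
    rw [swap 2 (fun v G => if Fresh (marks x) G v then
        devF (marks (setP x a v)) r (f (setP x a v)) (v, G) ^ 2 else 0),
      swap _ (fun v G => if Fresh (marks x) G v then 0 else
        relF (marks (setP x a v)) r false (f (setP x a v)) (v, G) ^ 2), add_mul]
    refine add_le_add ?_ ?_
    · rw [mul_assoc]
      refine mul_le_mul_of_nonneg_left ?_ zero_le_two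
      rw [mul_sum]
      refine sum_le_sum fun v _ => ?_
      simp only [ite_div, zero_div]
      rw [← sum_filter]
      simpa using hwalk x hx v true
    · rw [mul_assoc]
      refine mul_le_mul_of_nonneg_left ?_ (by positivity)
      rw [mul_sum]
      refine sum_le_sum fun v _ => ?_
      refine le_trans (sum_le_sum fun G _ => ?_) (by simpa using hwalk x hx v false)
      split
      · rw [zero_div]; positivity
      · exact le_rfl
  have hSins : insert a S' = S.erase b := insert_erase (mem_erase.2 ⟨hab, haS⟩)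
  have hland : ∑ x ∈ X, ∑ v, Q (setP x a v) ≤ P.θ ^ 2 * isq P.θ S j h := by
    refine (sum_setP_le S' a (by simp [S']) Q hQ).trans ?_
    rw [hSins]
    have hb' : b ∉ S.erase b := notMem_erase b S
    have hL := sum_setP_le (n := n) (S.erase b) b hb'
      (fun x => ∑ G ∈ multi n j, h (x, G) ^ 2 / P.θ ^ psiP (x, G))
      (fun x => sum_nonneg fun _ _ => by positivity)
    rw [insert_erase hbS, ← sum_product' (f := fun x G => h (x, G) ^ 2 / P.θ ^ psiP (x, G))] at hL
    refine le_trans ?_ (mul_le_mul_of_nonneg_left hL (sq_nonneg _))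
    rw [mul_sum]
    refine sum_le_sum fun x hx => ?_
    have hxb : x b = none := none_of_not_mem (by rw [(mem_filter.1 hx).2]; exact hb')
    simp only [Q, dom, sum_product, mul_sum]
    refine sum_le_sum fun y _ => sum_le_sum fun G _ => ?_
    rw [← mul_div_assoc, div_le_div_iff₀ (by positivity) (by positivity),
      mul_comm (P.θ ^ 2) (h (setP x b y, G) ^ 2), mul_assoc, ← pow_add]
    refine mul_le_mul_of_nonneg_left (pow_le_pow_right₀ P.hθ ?_) (sq_nonneg _)
    have := psiP_land_le hxb y G
    omega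
  refine hsum.trans ((mul_le_mul_of_nonneg_left hland (by positivity)).trans (le_of_eq ?_))
  unfold cost
  ring

theorem isq_opD_iso (S : Finset (Fin m)) (j : ℕ) (hK : 2 * j + m + 3 ≤ P.Kb) (b : Fin m)
    (hbS : b ∈ S) (h : St n m → ℝ) :
    isq P.θ (S.erase b) j (opD b none h) ≤ P.cost * isq P.θ S j h := by
  have hθ := P.hθ0
  have hn0 : (0 : ℝ) < n := Nat.cast_pos.2 P.hn
  have hkey : isq P.θ (S.erase b) j (opD b none h)
      ≤ (P.Kb : ℝ) * P.θ ^ 3 / n * isq P.θ S j h := by
    set F : Pl n m → ℝ := fun x => ∑ G ∈ multi n j, h (x, G) ^ 2 / P.θ ^ psiP (x, G)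
    have hL := sum_setP_le (n := n) (S.erase b) b (notMem_erase b S) F
      (fun x => sum_nonneg fun _ _ => by positivity)
    rw [insert_erase hbS] at hL
    rw [show isq P.θ S j h = ∑ x ∈ univ.filter (fun x : Pl n m => placed x = S), F x by
      rw [isq, stS, sum_product]]
    refine le_trans ?_ (mul_le_mul_of_nonneg_left hL (by positivity))
    rw [isq, stS, sum_product, mul_sum]
    refine sum_le_sum fun x hx => ?_
    have hxb : x b = none := none_of_not_mem (by rw [(mem_filter.1 hx).2]; exact notMem_erase b S)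
    simp only [F, mul_sum]
    rw [sum_comm]
    refine sum_le_sum fun G hG => ?_
    simp only [opD]
    rw [sum_ite_zero_left, div_pow, Real.sq_sqrt hn0.le, div_div, div_le_iff₀ (by positivity)]
    have h4 : ((univ.filter (fun v => ¬ Fresh (marks x) G v)).card : ℝ) ≤ P.Kb := by
      refine Nat.cast_le.2 ((card_old_le _ _).trans ?_)
      have := mem_multi.1 hG
      have := marks_card_le_m x
      omega
    refine (sq_sum_le_card_mul_sum_sq).trans ((mul_le_mul_of_nonneg_right h4
      (sum_nonneg fun _ _ => sq_nonneg _)).trans ?_)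
    rw [sum_mul, mul_sum]
    refine le_trans (sum_le_sum fun v _ => ?_) (sum_le_univ_sum_of_nonneg fun v => by positivity)
    rw [sq_abs]
    have hp : psiP (setP x b v, G) ≤ psiP (x, G) + 3 := by
      have h1 := psiP_land_le hxb v G
      have h2 := psiI_le_one G v
      simp only [psiP_eq, psi] at h1 ⊢
      omega
    have hpow : P.θ ^ psiP (setP x b v, G) ≤ P.θ ^ 3 * P.θ ^ psiP (x, G) := by
      rw [← pow_add, add_comm]; exact pow_le_pow_right₀ P.hθ hp
    calc (P.Kb : ℝ) * h (setP x b v, G) ^ 2
        = (P.Kb : ℝ) * (h (setP x b v, G) ^ 2 / P.θ ^ psiP (setP x b v, G))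
          * P.θ ^ psiP (setP x b v, G) := by field_simp
      _ ≤ (P.Kb : ℝ) * (h (setP x b v, G) ^ 2 / P.θ ^ psiP (setP x b v, G))
          * (P.θ ^ 3 * P.θ ^ psiP (x, G)) := mul_le_mul_of_nonneg_left hpow (by positivity)
      _ = _ := by field_simp
  refine hkey.trans (mul_le_mul_of_nonneg_right ?_ (sum_nonneg fun _ _ => by positivity))
  have h1 := one_le_pow₀ (n := 2) P.one_le_c2
  have h2 : P.θ ^ 3 ≤ P.θ ^ 2 * P.θ ^ 4 := by rw [← pow_add]; exact pow_le_pow_right₀ P.hθ (by omega)
  have hK0 : 0 ≤ (P.Kb : ℝ) / n := by positivity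
  have hq0 : 0 ≤ (P.R * (P.ε * (1 + P.R * P.lam) * P.q ^ P.R)) ^ 2 := sq_nonneg _
  unfold cost
  calc (P.Kb : ℝ) * P.θ ^ 3 / n = (P.Kb : ℝ) / n * P.θ ^ 3 := by ring
    _ ≤ (P.Kb : ℝ) / n * (P.θ ^ 2 * P.θ ^ 4 * (P.q ^ P.R * (1 + P.R * P.lam)) ^ 2) :=
        mul_le_mul_of_nonneg_left (h2.trans (le_mul_of_one_le_right (by positivity) h1)) hK0
    _ ≤ 2 * P.θ ^ 2 * (0 + (P.Kb : ℝ) * P.θ ^ 4 / n * (P.q ^ P.R * (1 + P.R * P.lam)) ^ 2) := by
        rw [zero_add]
        have : 0 ≤ (P.Kb : ℝ) / n * (P.θ ^ 2 * P.θ ^ 4 * (P.q ^ P.R * (1 + P.R * P.lam)) ^ 2) :=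
          by positivity
        linear_combination this
    _ ≤ _ := mul_le_mul_of_nonneg_left (add_le_add hq0 le_rfl) (by positivity)

theorem sum_isq_opD (mon : Spec m R) (S : Finset (Fin m)) (j : ℕ) (hjR : j ≤ P.R)
    (hK : 2 * j + m + 3 ≤ P.Kb) (b : Fin m) (hbS : b ∈ S) (h : St n m → ℝ) :
    ∑ o ∈ items mon S b j, isq P.θ (rest S b o) (j - len o) (opD b o h)
      ≤ ((m : ℝ) * j + 1) * P.cost * isq P.θ S j h := by
  have hI : 0 ≤ isq P.θ S j h := sum_nonneg fun _ _ => by have := P.hθ0; positivity
  refine (sum_le_card_nsmul _ _ (P.cost * isq P.θ S j h) fun o ho => ?_).trans ?_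
  · unfold items at ho
    split at ho
    · obtain ⟨⟨a, r⟩, har, rfl⟩ := mem_image.1 ho
      obtain ⟨ha, hr⟩ := mem_product.1 har
      obtain ⟨hab, haS⟩ := mem_erase.1 (mem_filter.1 ha).1
      exact P.isq_opD_path S j r (mem_Icc.1 hr).2 hjR hK a b haS hbS hab h
    · obtain rfl := mem_singleton.1 ho
      exact P.isq_opD_iso S j hK b hbS h
  · rw [nsmul_eq_mul, ← mul_assoc]
    refine mul_le_mul_of_nonneg_right (mul_le_mul_of_nonneg_right ?_ P.cost_nonneg) hI
    have hc : (items mon S b j).card ≤ m * j + 1 := by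
      unfold items
      split
      · refine card_image_le.trans ?_
        rw [card_product, Nat.card_Icc]
        have h1 : (filter (Odd' mon) (S.erase b)).card ≤ m := (card_le_univ _).trans (by simp)
        calc (filter (Odd' mon) (S.erase b)).card * (j + 1 - 1) ≤ m * j := by
              rw [Nat.add_sub_cancel]; exact Nat.mul_le_mul_right j h1
          _ ≤ m * j + 1 := Nat.le_succ _
      · simp
    exact_mod_cast hc

end Par

/-- Both operators at once. -/
def opEC (b : Fin m) (o : Item m) (h : (St n m → ℝ) × (St n m → ℝ)) :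
    (St n m → ℝ) × (St n m → ℝ) :=
  (opE b o h.1, opC b o h.2)

/-- The stacked deviation. -/
theorem lsum_diff_le (P : Par n) (mon : Spec m R) (q c : ℝ) (hq : 1 ≤ q)
    (hc : c = 2 * ((m : ℝ) + 2) * (((m : ℝ) * P.R + 1) * P.cost))
    (hqc : 1 + 1 / ((m : ℝ) + 1) + c ≤ q)
    (hC : ∀ (S : Finset (Fin m)) (j : ℕ) (b : Fin m), b ∈ S → ∀ h : St n m → ℝ,
      ∑ o ∈ items mon S b j, isq P.θ (rest S b o) (j - len o) (opC b o h) ≤ isq P.θ S j h) :
    ∀ (p : ℕ) (S : Finset (Fin m)) (j : ℕ), j ≤ P.R → 2 * j + m + 3 ≤ P.Kb →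
      ∀ h1 h2 : St n m → ℝ,
      lsum mon opEC (fun j h => cycSq j fun s => h.1 s - h.2 s) p S j (h1, h2)
        ≤ q ^ p * (isq P.θ S j (fun s => h1 s - h2 s) + (p : ℝ) * c * isq P.θ S j h2) := by
  have hθ := P.hθ0
  have hc0 : 0 ≤ c := by rw [hc]; have := P.cost_nonneg; positivity
  have hbase : ∀ (j : ℕ) (h : St n m → ℝ), cycSq j h ≤ isq P.θ ∅ j h := by
    intro j h
    refine le_trans (le_of_eq (sum_image (f := fun s => h s ^ 2 / P.θ ^ psiP s)
      (g := fun D : MG n => ((noPl n m, D) : St n m)) (fun D _ D' _ he => congrArg Prod.snd he)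
      |>.trans (sum_congr rfl fun D hD => ?_)).symm) (sum_le_sum_of_subset_of_nonneg ?_ ?_)
    · have hz : psiP ((noPl n m, D) : St n m) = 0 := by
        have hA : psiA D = 0 := Finset.sum_eq_zero fun v _ => by
          rcases (mem_filter.1 hD).2 v with hv | hv <;> omega
        simp [psiP, hA, psiC, marks, placed, noPl]
      rw [hz, pow_zero, div_one]
    · intro s hs
      obtain ⟨D, hD, rfl⟩ := mem_image.1 hs
      exact mem_stS.2 ⟨by simp [placed, noPl], mem_multi.1 (mem_filter.1 hD).1⟩
    · intro _ _ _; positivity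
  intro p
  induction p with
  | zero =>
    intro S j _ _ h1 h2
    simp only [lsum, pow_zero, one_mul, Nat.cast_zero, zero_mul, add_zero]
    split
    · rename_i hS; subst hS; exact hbase j _
    · exact sum_nonneg fun _ _ => by positivity
  | succ p ih =>
    intro S j hjR hK h1 h2
    have hI : ∀ (S : Finset (Fin m)) (j : ℕ) (h : St n m → ℝ), 0 ≤ isq P.θ S j h :=
      fun S j h => sum_nonneg fun _ _ => by positivity
    simp only [lsum]
    split
    · rename_i hS
      set b := S.max' hS
      have hbS : b ∈ S := max'_mem S hS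
      set d := fun s => h1 s - h2 s
      set D := isq P.θ S j d
      set H := isq P.θ S j h2
      have hstep : ∀ o, isq P.θ (rest S b o) (j - len o) (fun s => opE b o h1 s - opC b o h2 s)
          ≤ (1 + 1 / ((m : ℝ) + 1)) * isq P.θ (rest S b o) (j - len o) (opC b o fun t => |d t|)
            + ((m : ℝ) + 2) * isq P.θ (rest S b o) (j - len o) (opD b o h1) := by
        intro o
        simp only [isq, mul_sum, ← sum_add_distrib]
        refine sum_le_sum fun s _ => ?_
        rw [← mul_div_assoc, ← mul_div_assoc, ← add_div]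
        refine div_le_div_of_nonneg_right ?_ (by positivity)
        have h0 := abs_opE_sub_opC_le b o h1 h2 s
        refine le_trans (sq_le_sq' (neg_le_of_abs_le h0) (le_of_abs_le h0)) ?_
        set x := opD b o h1 s
        set y := opC b o (fun t => |h1 t - h2 t|) s
        have hm : (0 : ℝ) < (m : ℝ) + 1 := by positivity
        have key : 0 ≤ (y - ((m : ℝ) + 1) * x) ^ 2 / ((m : ℝ) + 1) := by positivity
        have e : (1 + 1 / ((m : ℝ) + 1)) * y ^ 2 + ((m : ℝ) + 2) * x ^ 2 - (x + y) ^ 2
            = (y - ((m : ℝ) + 1) * x) ^ 2 / ((m : ℝ) + 1) := by field_simp; ring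
        linarith
      have hD1 := P.sum_isq_opD mon S j hjR hK b hbS h1
      have hh1 : isq P.θ S j h1 ≤ 2 * D + 2 * H := by
        simp only [D, H, isq, mul_sum, ← sum_add_distrib]
        refine sum_le_sum fun s _ => ?_
        rw [← mul_div_assoc, ← mul_div_assoc, ← add_div]
        refine div_le_div_of_nonneg_right ?_ (by positivity)
        simp only [d]
        nlinarith [sq_nonneg (h1 s - 2 * h2 s)]
      have hCd : ∑ o ∈ items mon S b j, isq P.θ (rest S b o) (j - len o) (opC b o fun t => |d t|)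
          ≤ D := (hC S j b hbS _).trans_eq (sum_congr rfl fun s _ => by simp)
      have hjc : (((m : ℝ) * j + 1) * P.cost) ≤ ((m : ℝ) * P.R + 1) * P.cost :=
        mul_le_mul_of_nonneg_right (by gcongr) P.cost_nonneg
      have hsum : ∑ o ∈ items mon S b j,
          isq P.θ (rest S b o) (j - len o) (fun s => opE b o h1 s - opC b o h2 s)
          ≤ q * D + c * H := by
        refine (sum_le_sum fun o _ => hstep o).trans ?_
        rw [sum_add_distrib, ← mul_sum, ← mul_sum]
        calc (1 + 1 / ((m : ℝ) + 1))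
              * ∑ o ∈ items mon S b j, isq P.θ (rest S b o) (j - len o) (opC b o fun t => |d t|)
            + ((m : ℝ) + 2) * ∑ o ∈ items mon S b j, isq P.θ (rest S b o) (j - len o) (opD b o h1)
            ≤ (1 + 1 / ((m : ℝ) + 1)) * D
              + ((m : ℝ) + 2) * (((m : ℝ) * P.R + 1) * P.cost * (2 * D + 2 * H)) := by
              refine add_le_add (mul_le_mul_of_nonneg_left hCd (by positivity))
                (mul_le_mul_of_nonneg_left (hD1.trans ?_) (by positivity))
              exact mul_le_mul hjc hh1 (hI _ _ _) (by have := P.cost_nonneg; positivity)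
          _ = (1 + 1 / ((m : ℝ) + 1) + c) * D + c * H := by rw [hc]; ring
          _ ≤ q * D + c * H := add_le_add (mul_le_mul_of_nonneg_right hqc (hI _ _ _)) le_rfl
      refine (sum_le_sum fun o _ => ih (rest S b o) (j - len o) ((Nat.sub_le _ _).trans hjR)
        (by omega) (opE b o h1) (opC b o h2)).trans ?_
      rw [← mul_sum, sum_add_distrib, ← mul_sum, pow_succ, mul_assoc (q ^ p)]
      refine mul_le_mul_of_nonneg_left ?_ (pow_nonneg (zero_le_one.trans hq) p)
      refine (add_le_add hsum (mul_le_mul_of_nonneg_left (hC S j b hbS h2)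
        (mul_nonneg (Nat.cast_nonneg p) hc0))).trans ?_
      have hH := hI S j h2
      push_cast
      nlinarith [mul_nonneg (mul_nonneg (sub_nonneg.2 hq) hc0) hH,
        mul_nonneg (mul_nonneg (mul_nonneg (sub_nonneg.2 hq) (Nat.cast_nonneg p)) hc0) hH]
    · rename_i hS
      rw [not_nonempty_iff_eq_empty] at hS
      subst hS
      refine (hbase j _).trans (le_trans ?_ (le_mul_of_one_le_left ?_ (one_le_pow₀ hq)))
      · exact le_add_of_nonneg_right (by have := hI ∅ j h2; positivity)
      · have := hI ∅ j h2; have := hI ∅ j fun s => h1 s - h2 s; positivity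

end

end Vale.Agent.P146.Super
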