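import Vale.Agent.P146.Super.Norms

/-!
# P146, superconcentration: iterating the transfer operators
-/

namespace Vale.Agent.P146.Super

open Finset

noncomputable section

variable {n : ℕ}

/-- `rel` as a function of the state. -/
def relF (M : Finset (Fin n)) (r : ℕ) (ph : Bool) (f : Fin n × MG n → ℝ) (p : Fin n × MG n) : ℝ :=
  rel M r ph p.1 p.2 fun y G => f (y, G)

/-- `dev` as a function of the state. -/
def devF (M : Finset (Fin n)) (r : ℕ) (f : Fin n × MG n → ℝ) (p : Fin n × MG n) : ℝ :=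
  dev M r p.1 p.2 fun y G => f (y, G)

lemma relF_true_succ (M : Finset (Fin n)) (r : ℕ) (f : Fin n × MG n → ℝ) (p : Fin n × MG n) :
    relF M (r + 1) true f p = opNew M (relF M r true f) p + opOld M (relF M r false f) p := by
  simp only [relF, rel, opNew, opOld, freshSet, oldSet, Finset.sum_filter, ← Finset.sum_add_distrib]
  refine Finset.sum_congr rfl fun l _ => ?_
  by_cases h : p.1 = l
  · simp [h]
  by_cases hl : Fresh M p.2 l
  · simp [h, hl, tAdd_of_ne h]; ring
  · simp [h, hl, tAdd_of_ne h, mult_of_ne h]; ring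

lemma relF_false_succ (M : Finset (Fin n)) (r : ℕ) (f : Fin n × MG n → ℝ) (p : Fin n × MG n) :
    relF M (r + 1) false f p = opNew M (relF M r true f) p + opOld M (relF M r false f) p
      + opDel (relF M r false f) p := by
  simp only [relF, rel, opNew, opOld, opDel, freshSet, oldSet, nbrSet, Finset.sum_filter,
    ← Finset.sum_add_distrib]
  refine Finset.sum_congr rfl fun l _ => ?_
  by_cases h : p.1 = l
  · simp [h]
  by_cases hl : Fresh M p.2 l
  · simp [h, hl, tAdd_of_ne h, mult_of_ne h, fresh_edge hl h]; ring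
  · by_cases hm : 0 < p.2 (mkEdge p.1 l h)
    · simp [h, hl, tAdd_of_ne h, tDel_of_ne h, mult_of_ne h, hm]; ring
    · simp [h, hl, tAdd_of_ne h, mult_of_ne h, Nat.eq_zero_of_not_pos hm]; ring

lemma devF_succ (M : Finset (Fin n)) (r : ℕ) (f : Fin n × MG n → ℝ) (p : Fin n × MG n) :
    devF M (r + 1) f p = opNew M (devF M r f) p + opOld M (relF M r false f) p := by
  simp only [devF, relF, dev_succ, opNew, opOld, freshSet, oldSet, Finset.sum_filter,
    ← Finset.sum_add_distrib]
  refine Finset.sum_congr rfl fun l _ => ?_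
  by_cases h : p.1 = l
  · simp [h]
  by_cases hl : Fresh M p.2 l
  · simp [h, hl, tAdd_of_ne h]; ring
  · simp [h, hl, tAdd_of_ne h, mult_of_ne h]; ring

lemma nrm_congr {θ : ℝ} (M : Finset (Fin n)) (S : Finset (Fin n × MG n))
    {x y : Fin n × MG n → ℝ} (h : ∀ p, x p = y p) : nrm θ M S x = nrm θ M S y := by
  rw [show x = y from funext h]

lemma nrm_mono {θ : ℝ} (hθ : 0 < θ) (M : Finset (Fin n)) {S T : Finset (Fin n × MG n)} (h : S ⊆ T)
    (x : Fin n × MG n → ℝ) : nrm θ M S x ≤ nrm θ M T x :=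
  Real.sqrt_le_sqrt (Finset.sum_le_sum_of_subset_of_nonneg h fun _ _ _ => by positivity)

lemma dom_mono {b c : ℕ} (h : b ≤ c) : dom n b ⊆ dom n c :=
  fun _ hp => mem_dom.2 ((mem_dom.1 hp).trans h)

/-- The parameters of the iteration. -/
structure Par (n : ℕ) where
  /-- the weight -/
  θ : ℝ
  /-- the bound on the sizes -/
  Kb : ℕ
  /-- the number of steps -/
  R : ℕ
  /-- the growth factor -/
  q : ℝ
  hn : 0 < n
  hθ : 1 ≤ θ
  hq1 : 1 + Real.sqrt ((Kb : ℝ) ^ 3 * θ ^ 7 / n) * (1 + R * Real.sqrt (θ ^ 3)) ≤ q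
  hq2 : Real.sqrt (1 + (Kb : ℝ) ^ 2 / θ) + Real.sqrt ((Kb : ℝ) ^ 3 * θ ^ 7 / n) ≤ q

namespace Par

variable (P : Par n)

/-- The cost of a step to an old vertex. -/
def ε : ℝ := Real.sqrt ((P.Kb : ℝ) ^ 3 * P.θ ^ 7 / n)

/-- The cost of a change from the backward to the forward phase. -/
def lam : ℝ := Real.sqrt (P.θ ^ 3)

lemma hθ0 : 0 < P.θ := lt_of_lt_of_le one_pos P.hθ

lemma ε_nonneg : 0 ≤ P.ε := Real.sqrt_nonneg _

lemma lam_nonneg : 0 ≤ P.lam := Real.sqrt_nonneg _

lemma one_le_q : 1 ≤ P.q :=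
  le_trans (le_add_of_nonneg_right (mul_nonneg (Real.sqrt_nonneg _)
    (add_nonneg zero_le_one (mul_nonneg (Nat.cast_nonneg _) (Real.sqrt_nonneg _))))) P.hq1

theorem iterate (M : Finset (Fin n)) (B : ℕ) (hK : 2 * B + M.card + 2 ≤ P.Kb)
    (f : Fin n × MG n → ℝ) (N : ℝ) (hf : nrm P.θ M (dom n B) f ≤ N) :
    ∀ r, r ≤ P.R → ∀ b, b + r ≤ B →
      nrm P.θ M (domT M b) (relF M r true f) ≤ P.q ^ r * N ∧
      nrm P.θ M (dom n b) (relF M r false f) ≤ P.q ^ r * (1 + r * P.lam) * N ∧
      nrm P.θ M (domT M b) (devF M r f) ≤ r * (P.ε * (1 + P.R * P.lam) * P.q ^ r * N) := by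
  have hθ := P.hθ
  have hN : 0 ≤ N := le_trans (Real.sqrt_nonneg _) hf
  have hε := P.ε_nonneg
  have hl := P.lam_nonneg
  have hq := P.one_le_q
  intro r
  induction r with
  | zero =>
    intro _ b hb
    have h1 : nrm P.θ M (dom n b) f ≤ N := (nrm_mono P.hθ0 M (dom_mono (by omega)) f).trans hf
    refine ⟨?_, ?_, ?_⟩
    · rw [pow_zero, one_mul, nrm_congr M _ (x := relF M 0 true f) (y := f) fun _ => rfl]
      exact (nrm_mono P.hθ0 M (filter_subset _ _) f).trans h1
    · rw [nrm_congr M _ (x := relF M 0 false f) (y := f) fun _ => rfl]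
      simpa using h1
    · have e : ∀ p, devF M 0 f p = 0 := fun p => by simp [devF, dev, rel, cleanVal]
      rw [nrm_congr M _ e]
      simp [nrm, wsum]
  | succ r ih =>
    intro hr b hb
    obtain ⟨hA, hB, hD⟩ := ih (by omega) (b + 1) (by omega)
    have hq0 : 0 ≤ P.q ^ r * N := by positivity
    have hrR : 1 + (r : ℝ) * P.lam ≤ 1 + P.R * P.lam :=
      add_le_add le_rfl (mul_le_mul_of_nonneg_right (Nat.cast_le.2 (by omega : r ≤ P.R)) hl)
    have hT : domT M b ⊆ dom n b := filter_subset _ _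
    have newT := fun h => nrm_opNew P.hn hθ M b (domT M b) hT 0
      (fun p hp l h1 h2 => psi_new_eq M hp h1 h2) h
    have newF := fun h => nrm_opNew P.hn hθ M b (dom n b) (Finset.Subset.refl _) 3
      (fun p _ l h1 h2 => psi_new_le M p h1 h2) h
    have oldT := fun h => nrm_opOld P.hn hθ M b P.Kb (by omega) (domT M b) hT h
    have oldF := fun h => nrm_opOld P.hn hθ M b P.Kb (by omega) (dom n b) (Finset.Subset.refl _) h
    have delF := fun h => nrm_opDel P.hn hθ M b P.Kb (by omega) (dom n b) (Finset.Subset.refl _) h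
    refine ⟨?_, ?_, ?_⟩
    · rw [nrm_congr M _ (relF_true_succ M r f)]
      refine (nrm_add_le P.hθ0 M _ _ _).trans ((add_le_add (newT _) (oldT _)).trans ?_)
      rw [pow_zero, Real.sqrt_one, one_mul]
      calc nrm P.θ M (domT M (b + 1)) (relF M r true f)
            + P.ε * nrm P.θ M (dom n (b + 1)) (relF M r false f)
          ≤ P.q ^ r * N + P.ε * (P.q ^ r * (1 + r * P.lam) * N) :=
            add_le_add hA (mul_le_mul_of_nonneg_left hB hε)
        _ = P.q ^ r * N * (1 + P.ε * (1 + r * P.lam)) := by ring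
        _ ≤ P.q ^ r * N * P.q := mul_le_mul_of_nonneg_left
            (le_trans (add_le_add le_rfl (mul_le_mul_of_nonneg_left hrR hε)) P.hq1) hq0
        _ = P.q ^ (r + 1) * N := by ring
    · rw [nrm_congr M _ (relF_false_succ M r f)]
      refine (nrm_add_le P.hθ0 M _ _ _).trans ((add_le_add ((nrm_add_le P.hθ0 M _ _ _).trans
        (add_le_add (newF _) (oldF _))) (delF _)).trans ?_)
      set c := Real.sqrt (1 + (P.Kb : ℝ) ^ 2 / P.θ)
      calc P.lam * nrm P.θ M (domT M (b + 1)) (relF M r true f)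
              + P.ε * nrm P.θ M (dom n (b + 1)) (relF M r false f)
              + c * nrm P.θ M (dom n (b + 1)) (relF M r false f)
          ≤ P.lam * (P.q ^ r * N) + P.ε * (P.q ^ r * (1 + r * P.lam) * N)
              + c * (P.q ^ r * (1 + r * P.lam) * N) :=
            add_le_add (add_le_add (mul_le_mul_of_nonneg_left hA hl) (mul_le_mul_of_nonneg_left hB hε))
              (mul_le_mul_of_nonneg_left hB (Real.sqrt_nonneg _))
        _ = P.q ^ r * N * (1 * P.lam + (c + P.ε) * (1 + r * P.lam)) := by ring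
        _ ≤ P.q ^ r * N * (P.q * P.lam + P.q * (1 + r * P.lam)) := by
            refine mul_le_mul_of_nonneg_left (add_le_add (mul_le_mul_of_nonneg_right hq hl) ?_) hq0
            exact mul_le_mul_of_nonneg_right P.hq2 (by positivity)
        _ = P.q ^ (r + 1) * (1 + (r + 1 : ℕ) * P.lam) * N := by push_cast; ring
    · rw [nrm_congr M _ (devF_succ M r f)]
      refine (nrm_add_le P.hθ0 M _ _ _).trans ((add_le_add (newT _) (oldT _)).trans ?_)
      rw [pow_zero, Real.sqrt_one, one_mul]
      calc nrm P.θ M (domT M (b + 1)) (devF M r f)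
            + P.ε * nrm P.θ M (dom n (b + 1)) (relF M r false f)
          ≤ r * (P.ε * (1 + P.R * P.lam) * P.q ^ r * N) + P.ε * (P.q ^ r * (1 + P.R * P.lam) * N) :=
            add_le_add hD (mul_le_mul_of_nonneg_left (hB.trans (mul_le_mul_of_nonneg_right
              (mul_le_mul_of_nonneg_left hrR (by positivity)) hN)) hε)
        _ = ((r + 1 : ℕ) : ℝ) * (P.ε * (1 + P.R * P.lam) * P.q ^ r * N) := by push_cast; ring
        _ ≤ _ := by
            refine mul_le_mul_of_nonneg_left (mul_le_mul_of_nonneg_right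
              (mul_le_mul_of_nonneg_left (pow_le_pow_right₀ hq (Nat.le_succ r)) (by positivity)) hN)
              (Nat.cast_nonneg _)

end Par

/-- The expansion only sees multigraphs with at most `size G + r` edges. -/
lemma zval_congr : ∀ (r : ℕ) (p u : Fin n) (G : MG n) {f f' : Fin n → MG n → ℝ},
    (∀ y G', size G' ≤ size G + r → f y G' = f' y G') → zval r p u G f = zval r p u G f' := by
  intro r
  induction r with
  | zero => intro p u G f f' h; exact h u G (by simp)
  | succ r ih =>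
    intro p u G f f' h
    simp only [zval]
    refine Finset.sum_congr rfl fun l _ => ?_
    by_cases hu : u = l
    · simp [hu]
    by_cases hp : l = p
    · simp [hp]
    rw [dif_neg hu, dif_neg hu, if_neg hp, if_neg hp,
      ih u l (addE G (mkEdge u l hu)) fun y G' hG' => h y G' (by rw [size_addE] at hG'; omega),
      ih u l (delE G (mkEdge u l hu)) fun y G' hG' => h y G'
        (by have := size_delE_le G (mkEdge u l hu); omega)]

/-- The coefficient of one endpoint in the expansion of the walks from `x`. -/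
def amp (r : ℕ) (x : Fin n) (s : Fin n × MG n) : ℝ :=
  zval r x x 0 fun y G => if (y, G) = s then 1 else 0

lemma zval_eq_sum_amp (r : ℕ) (x : Fin n) (f : Fin n → MG n → ℝ) :
    zval r x x 0 f = ∑ s ∈ dom n r, f s.1 s.2 * amp r x s := by
  simp only [amp]
  rw [← zval_sum (dom n r) (fun s => f s.1 s.2) (fun s y G => if (y, G) = s then 1 else 0)]
  refine zval_congr r x x 0 fun y G hG => ?_
  have h0 : size (0 : MG n) = 0 := by simp [size]
  rw [Finset.sum_eq_single (y, G)]
  · simp
  · intro s _ hs; simp [Ne.symm hs]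
  · intro hns; exact absurd (mem_dom.2 (show size G ≤ r by omega)) hns

/-- The squared coefficients of the walks from one vertex sum to `O(1)`. -/
theorem sum_amp_sq_le (P : Par n) (x : Fin n) (r : ℕ) (hr : r ≤ P.R) (hK : 2 * r + 3 ≤ P.Kb) :
    ∑ s ∈ dom n r, amp r x s ^ 2 ≤ P.q ^ (2 * r) := by
  set Y := ∑ s ∈ dom n r, amp r x s ^ 2
  have h0 : ∀ v, deg (0 : MG n) v = 0 := fun v => by simp [deg]
  have hY : zval r x x 0 (fun y G => amp r x (y, G)) = Y := by
    rw [zval_eq_sum_amp]
    exact Finset.sum_congr rfl fun s _ => by rw [sq]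
  have hYn : 0 ≤ Y := Finset.sum_nonneg fun _ _ => sq_nonneg _
  have h1 := (abs_zval_le ({x} : Finset (Fin n)) (fun y G => amp r x (y, G)) r x x 0).2
    (inv_start (h0 x))
  rw [hY, abs_of_nonneg hYn] at h1
  have hN : nrm P.θ {x} (dom n r) (fun s => |amp r x s|) ≤ Real.sqrt Y :=
    Real.sqrt_le_sqrt (Finset.sum_le_sum fun s _ => by
      rw [sq_abs]; exact div_le_self (sq_nonneg _) (one_le_pow₀ P.hθ))
  have h2 := (P.iterate {x} r (by simp; omega) (fun s => |amp r x s|) (Real.sqrt Y) hN r hr 0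
    (by omega)).1
  have hx : (x, (0 : MG n)) ∈ domT ({x} : Finset (Fin n)) 0 := by
    simp [domT, mem_dom, size, h0]
  have hpsi : psi ({x} : Finset (Fin n)) (x, (0 : MG n)) = 0 := by
    simp [psi, psiA, psiC, psiI, h0]
  have h3 : relF {x} r true (fun s => |amp r x s|) (x, 0) ≤ P.q ^ r * Real.sqrt Y := by
    refine le_trans ?_ h2
    rw [nrm, wsum]
    refine le_trans (le_of_eq ?_) (Real.sqrt_le_sqrt
      (Finset.single_le_sum (fun p _ => by have := P.hθ0; positivity) hx))
    rw [hpsi, pow_zero, div_one, Real.sqrt_sq]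
    exact rel_nonneg _ (fun _ _ => abs_nonneg _) _ _ _ _
  have h4 : Y ≤ P.q ^ r * Real.sqrt Y := h1.trans h3
  have h5 : Real.sqrt Y ≤ P.q ^ r := by
    rcases hYn.eq_or_lt with h | h
    · rw [← h, Real.sqrt_zero]; exact pow_nonneg (zero_le_one.trans P.one_le_q) r
    · exact le_of_mul_le_mul_right (by rw [Real.mul_self_sqrt hYn]; exact h4) (Real.sqrt_pos.2 h)
  calc Y = Real.sqrt Y ^ 2 := (Real.sq_sqrt hYn).symm
    _ ≤ (P.q ^ r) ^ 2 := pow_le_pow_left₀ (Real.sqrt_nonneg _) h5 2
    _ = P.q ^ (2 * r) := by rw [← pow_mul, mul_comm]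

end

end Vale.Agent.P146.Super
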