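import Vale.Agent.P146.Super.Merge
import Vale.Agent.P146.Super.ItemsClean

/-!
# P146, superconcentration: the bootstrap of the masses

All masses with at most `K` edges are `O(A ^ m)`, by iterating the branch step and the bound on
the terminal part, starting from a trivial finite bound.
-/

namespace Vale.Agent.P146.Super

open Finset MeasureTheory

noncomputable section

variable {n m R : ℕ}

lemma lsum_map {H H' : Type*} (mon : Spec m R) (op : Fin m → Item m → H → H)
    (op' : Fin m → Item m → H' → H') (π : H → H') (F : ℕ → H → ℝ) (F' : ℕ → H' → ℝ)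
    (hop : ∀ b o h, π (op b o h) = op' b o (π h)) (hF : ∀ j h, F j h = F' j (π h)) :
    ∀ (p : ℕ) (S : Finset (Fin m)) (j : ℕ) (h : H),
      lsum mon op F p S j h = lsum mon op' F' p S j (π h) := by
  intro p
  induction p with
  | zero => intro S j h; simp only [lsum, hF]
  | succ p ih =>
    intro S j h
    simp only [lsum]
    split
    · exact sum_congr rfl fun o _ => by rw [ih, hop]
    · exact hF j h

lemma lsum_le_add {H : Type*} (mon : Spec m R) (op : Fin m → Item m → H → H)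
    (F F1 F2 : ℕ → H → ℝ) (hF : ∀ j h, F j h ≤ 2 * F1 j h + 2 * F2 j h) :
    ∀ (p : ℕ) (S : Finset (Fin m)) (j : ℕ) (h : H),
      lsum mon op F p S j h ≤ 2 * lsum mon op F1 p S j h + 2 * lsum mon op F2 p S j h := by
  intro p
  induction p with
  | zero =>
    intro S j h
    simp only [lsum]
    split
    · exact hF j h
    · simp
  | succ p ih =>
    intro S j h
    simp only [lsum]
    split
    · rw [mul_sum, mul_sum, ← sum_add_distrib]
      exact sum_le_sum fun o _ => ih _ _ _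
    · exact hF j h

/-- The fresh structures are controlled by the exact ones and the deviation. -/
lemma lsum_opC_split (mon : Spec m R) (p : ℕ) (S : Finset (Fin m)) (j : ℕ) (h : St n m → ℝ) :
    lsum mon opC cycSq p S j h ≤ 2 * lsum mon opE cycSq p S j h
      + 2 * lsum mon opEC (fun j h => cycSq j fun s => h.1 s - h.2 s) p S j (h, h) := by
  have e1 := lsum_map mon opEC opC Prod.snd (fun j h => cycSq j h.2) cycSq
    (fun _ _ _ => rfl) (fun _ _ => rfl) p S j ((h, h) : (St n m → ℝ) × (St n m → ℝ))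
  have e2 := lsum_map mon opEC opE Prod.fst (fun j h => cycSq j h.1) cycSq
    (fun _ _ _ => rfl) (fun _ _ => rfl) p S j ((h, h) : (St n m → ℝ) × (St n m → ℝ))
  dsimp only at e1 e2
  rw [← e1, ← e2]
  refine lsum_le_add mon opEC _ _ _ (fun j h => ?_) p S j _
  simp only [cycSq, mul_sum, ← sum_add_distrib]
  refine sum_le_sum fun D _ => ?_
  nlinarith [sq_nonneg (2 * h.1 (noPl n m, D) - h.2 (noPl n m, D))]

lemma pow_le_nine (m : ℕ) {c : ℝ} (hc0 : 0 ≤ c) (hc : (m : ℝ) * c ≤ 1) :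
    (1 + 1 / ((m : ℝ) + 1) + c) ^ m ≤ 9 := by
  have hm : (m : ℝ) * (1 / ((m : ℝ) + 1)) ≤ 1 := by
    rw [mul_one_div, div_le_one (by positivity)]; linarith
  have h1 : (1 + 1 / ((m : ℝ) + 1) + c) ^ m ≤ Real.exp ((m : ℝ) * (1 / ((m : ℝ) + 1) + c)) := by
    rw [Real.exp_nat_mul]
    refine pow_le_pow_left₀ (by positivity) ?_ m
    rw [add_assoc, add_comm]
    exact Real.add_one_le_exp _
  refine h1.trans ?_
  calc Real.exp ((m : ℝ) * (1 / ((m : ℝ) + 1) + c)) ≤ Real.exp (1 + 1) :=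
        Real.exp_le_exp.2 (by rw [mul_add]; linarith)
    _ = Real.exp 1 * Real.exp 1 := Real.exp_add 1 1
    _ ≤ 3 * 3 := by
        have h3 : Real.exp 1 ≤ 3 := Real.exp_one_lt_d9.le.trans (by norm_num)
        exact mul_le_mul h3 h3 (Real.exp_pos _).le (by norm_num)
    _ = 9 := by norm_num

/-- The numerical hypotheses of the bootstrap. -/
structure Setting (n : ℕ) where
  /-- the inverse temperature -/
  β : ℝ
  /-- the truncation -/
  K : ℕ
  /-- the transfer parameters -/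
  P : Par n
  /-- the good event -/
  Good : Set (Edge n → ℝ)
  /-- the probability of the bad event -/
  δ : ℝ
  /-- the loss of the placements -/
  q0 : ℝ
  /-- the sizes forbidden for a fresh vertex -/
  Kb0 : ℕ
  hPR : P.R = K
  hKb : 8 * K + 16 ≤ P.Kb
  hKb0 : 6 * K + 6 ≤ Kb0
  hKn : Kb0 < n
  hθn : P.θ ^ 2 ≤ n
  hθm : 2 * (2 * (K : ℝ) + 2) ^ 2 ≤ P.θ ^ 2
  hGm : MeasurableSet Good
  hδ : (law n Goodᶜ).toReal ≤ δ
  hGood : ∀ g ∈ Good, ∀ r ≤ K, ∀ z : Fin n → ℝ,
    ∑ u, nbw g z r u u ^ 2 ≤ (4 * ((r : ℝ) + 1)) ^ 2 * ∑ u, z u ^ 2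
  hbad : ((n : ℝ) + 3 * K + 4) ^ (12 * (3 * K + 3)) * Real.sqrt δ ≤ 1
  hq0 : 1 ≤ q0
  hq0m : q0 ^ (2 * K + 2) ≤ 2
  hq0n : ∀ j ≤ K, (n : ℝ) ^ (j + 1) ≤ q0 * ((n : ℝ) - Kb0) ^ (j + 1)
  hcost : ((2 : ℝ) * K + 4) ^ 4 * P.cost ≤ 1 / 1000
  hstep : β ^ 2 * (((2 : ℝ) * K + 4) * ((2 : ℝ) * K + 4)) ^ 4 * (P.θ ^ 2 / n + 1 / P.θ)
    * (1 + 16 * (2 * (K : ℝ) + 2) * ((K : ℝ) + 1) ^ 3) ^ 2 ≤ 1 / 8

namespace Setting

variable (s : Setting n)

/-- The base of the bound. -/
def A : ℝ := 1 + 16 * (2 * (s.K : ℝ) + 2) * ((s.K : ℝ) + 1) ^ 3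

lemma one_le_A : 1 ≤ s.A := le_add_of_nonneg_right (by positivity)

lemma n_pos (s : Setting n) : 1 ≤ n := lt_of_le_of_lt (Nat.zero_le _) s.hKn

theorem termMass_bound {m R k : ℕ} (hk : k ≤ s.K) (hm : m ≤ 2 * s.K + 2) (mon : Spec m R) {B : ℝ}
    (hB : ∀ m' ≤ m, ∀ mon' : Spec m' R, mass s.β s.P.θ n k mon' ≤ B) :
    termMass s.β s.P.θ n k mon ≤ 8 * s.A ^ m + B / 4 := by
  have hn := s.n_pos
  have hn0 : 0 < n := hn
  have hθ := s.P.hθ0
  set it := (n : ℝ) ^ nIt mon univ
  have hit : 0 < it := pow_pos (Nat.cast_pos.2 hn0) _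
  have hmK : (m : ℝ) ≤ 2 * (s.K : ℝ) + 2 := by exact_mod_cast hm
  have hkK : (k : ℝ) ≤ s.K := Nat.cast_le.2 hk
  -- the fresh structures
  have h1 := termMass_le hn s.β s.P.θ k mon
  have hsym : Symm' (cof (n := n) s.β mon) :=
    symm_cof fun π x G => coef_obs_relabel s.β π mon x G
  have h2 := sum_termSt_univ_le (mon := mon) (j := k) (Kb := s.Kb0) hsym
    (by have := s.hKb0; omega) s.hKn s.hq0 (s.hq0n k hk)
  have hq2 : s.q0 ^ m ≤ 2 := (pow_le_pow_right₀ s.hq0 hm).trans s.hq0m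
  -- the exact structures
  have h3 := lsum_exact_le hn s.β mon k s.hGm s.hδ fun g hg r hr => s.hGood g hg r (hr.trans hk)
  have h4 : lsum mon opE cycSq m univ k (cof (n := n) s.β mon) ≤ it * (2 * s.A ^ m) := by
    refine h3.trans (mul_le_mul_of_nonneg_left ?_ hit.le)
    rw [two_mul]
    refine add_le_add (pow_le_pow_left₀ (by positivity) ?_ m) ?_
    · unfold A; gcongr
    · refine le_trans ?_ ((s.hbad).trans (one_le_pow₀ s.one_le_A))
      refine mul_le_mul_of_nonneg_right ?_ (Real.sqrt_nonneg _)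
      refine (pow_le_pow_left₀ (by positivity) ?_ _).trans (pow_le_pow_right₀ ?_ ?_)
      · show (n : ℝ) + m + k + 2 ≤ (n : ℝ) + 3 * s.K + 4
        linarith
      · have : (0 : ℝ) ≤ n := Nat.cast_nonneg n
        have : (0 : ℝ) ≤ (s.K : ℝ) := Nat.cast_nonneg _
        linarith
      · omega
  -- the deviation
  set c : ℝ := 2 * ((m : ℝ) + 2) * (((m : ℝ) * s.P.R + 1) * s.P.cost)
  have hc0 : 0 ≤ c := by have := s.P.cost_nonneg; positivity
  have hmc : (m : ℝ) * c ≤ 1 / 500 := by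
    have hcn := s.P.cost_nonneg
    have hR : (s.P.R : ℝ) = s.K := by rw [s.hPR]
    set L : ℝ := 2 * (s.K : ℝ) + 4
    have hmL : (m : ℝ) + 2 ≤ L := by linarith
    have hL1 : 1 ≤ L := by have : (0 : ℝ) ≤ s.K := Nat.cast_nonneg _; linarith
    have hprod : (m : ℝ) * s.P.R + 1 ≤ L * L := by
      rw [hR]
      have : (0 : ℝ) ≤ s.K := Nat.cast_nonneg _
      have := mul_le_mul_of_nonneg_right hmK this
      nlinarith
    calc (m : ℝ) * c ≤ L * (2 * L * (L * L * s.P.cost)) := by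
          show (m : ℝ) * (2 * ((m : ℝ) + 2) * (((m : ℝ) * s.P.R + 1) * s.P.cost)) ≤ _
          gcongr
          linarith
      _ = 2 * (L ^ 4 * s.P.cost) := by ring
      _ ≤ 1 / 500 := by linarith [s.hcost]
  have h5 := lsum_diff_le s.P mon (1 + 1 / ((m : ℝ) + 1) + c) c
    (by have : 0 ≤ 1 / ((m : ℝ) + 1) := by positivity
        linarith) rfl le_rfl
    (fun S j b hb h => sum_isq_opC_le hn0 hθ mon hb j h)
    m univ k (by rw [s.hPR]; exact hk) (by have := s.hKb; omega)
    (cof s.β mon) (cof s.β mon)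
  have hB0 : 0 ≤ B := (mass_nonneg' hθ.le s.β k mon).trans (hB m le_rfl mon)
  have h6 : isq s.P.θ univ k (cof (n := n) s.β mon) ≤ it * (2 * B) := by
    refine (isq_cof_le hn s.β s.P.hθ k mon).trans (mul_le_mul_of_nonneg_left ?_ hit.le)
    exact allMass_le s.P.hθ mon (le_trans (by gcongr) s.hθm) hB
  have h7 : lsum mon opEC (fun j h => cycSq j fun t => h.1 t - h.2 t) m univ k
      (cof (n := n) s.β mon, cof (n := n) s.β mon) ≤ it * (B / 20) := by
    refine h5.trans ?_
    have hz : isq s.P.θ univ k (fun t => cof (n := n) s.β mon t - cof (n := n) s.β mon t) = 0 := by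
      simp [isq]
    rw [hz, zero_add]
    calc (1 + 1 / ((m : ℝ) + 1) + c) ^ m * ((m : ℝ) * c * isq s.P.θ univ k (cof (n := n) s.β mon))
        ≤ 9 * (1 / 500 * (it * (2 * B))) := by
          refine mul_le_mul (pow_le_nine m hc0 (by linarith)) ?_ ?_ (by norm_num)
          · exact mul_le_mul hmc h6 (sum_nonneg fun _ _ => by positivity) (by norm_num)
          · exact mul_nonneg (mul_nonneg (Nat.cast_nonneg _) hc0)
              (sum_nonneg fun _ _ => by positivity)
      _ = it * B * (36 / 1000) := by ring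
      _ ≤ it * B * (1 / 20) := mul_le_mul_of_nonneg_left (by norm_num) (mul_nonneg hit.le hB0)
      _ = it * (B / 20) := by ring
  have h8 : ∑ t ∈ termSt n mon univ k, cof (n := n) s.β mon t ^ 2
      ≤ it * (8 * s.A ^ m + B / 4) := by
    refine h2.trans ?_
    have h9 := (lsum_opC_split mon m univ k (cof (n := n) s.β mon)).trans
      (add_le_add (mul_le_mul_of_nonneg_left h4 zero_le_two)
        (mul_le_mul_of_nonneg_left h7 zero_le_two))
    refine (mul_le_mul_of_nonneg_left h9 (pow_nonneg (zero_le_one.trans s.hq0) m)).trans ?_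
    refine (mul_le_mul_of_nonneg_right hq2 ?_).trans (le_trans (le_of_eq (by ring))
      (mul_le_mul_of_nonneg_left
        (show 8 * s.A ^ m + B / 5 ≤ 8 * s.A ^ m + B / 4 by linarith) hit.le))
    have : 0 ≤ s.A ^ m := pow_nonneg (zero_le_one.trans s.one_le_A) m
    positivity
  refine h1.trans ?_
  rw [inv_mul_le_iff₀ hit]
  exact h8

/-- A trivial bound for all masses. -/
def U : ℝ :=
  ∑ m ∈ range (2 * s.K + 3), ∑ x : Fin m → Fin n, ∑ G ∈ multi n s.K, weight s.P.θ x G

lemma mass_le_U {m R k : ℕ} (hk : k ≤ s.K) (hm : m ≤ 2 * s.K + 2) (mon : Spec m R) :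
    mass s.β s.P.θ n k mon ≤ s.U := by
  have hθ := s.P.hθ0
  have hw : ∀ {m : ℕ} (x : Fin m → Fin n) (G : MG n), 0 ≤ weight s.P.θ x G :=
    fun x G => weight_nonneg' hθ.le x G
  refine le_trans ?_ (single_le_sum (f := fun m => ∑ x : Fin m → Fin n,
    ∑ G ∈ multi n s.K, weight s.P.θ x G) (fun m _ => sum_nonneg fun x _ => sum_nonneg fun G _ =>
      hw x G) (mem_range.2 (Nat.lt_succ_of_le hm)))
  refine le_trans (sum_le_sum (g := fun x => ∑ G ∈ multi n s.K, weight s.P.θ x G) fun x _ => ?_)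
    (sum_le_sum_of_subset_of_nonneg (subset_univ _) fun x _ _ => sum_nonneg fun G _ => hw x G)
  refine le_trans (sum_le_sum (g := fun G => weight s.P.θ x G) fun G _ => ?_)
    (sum_le_sum_of_subset_of_nonneg (fun G hG => mem_multi.2 ((mem_multi.1 hG).trans hk))
      fun G _ _ => hw x G)
  refine mul_le_of_le_one_left (hw x G) ?_
  have h1 := sum_coef_sq_le (f := obs s.β mon x) ?_ {G}
  · rw [sum_singleton] at h1
    refine h1.trans ?_
    have h2 : ∀ g, obs s.β mon x g ^ 2 ≤ 1 := fun g => by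
      rw [← sq_abs]; exact pow_le_one₀ (abs_nonneg _) (abs_obs_le_one _ _ _ g)
    calc ∫ g, obs s.β mon x g ^ 2 ∂law n ≤ ∫ _g, (1 : ℝ) ∂law n :=
          integral_mono_of_nonneg (ae_of_all _ fun g => sq_nonneg _) (integrable_const _)
            (ae_of_all _ h2)
      _ = 1 := by simp
  · exact MemLp.of_bound (measurable_obs _ _ _).aestronglyMeasurable 1
      (ae_of_all _ fun g => by rw [Real.norm_eq_abs]; exact abs_obs_le_one _ _ _ g)

lemma U_nonneg : 0 ≤ s.U :=
  sum_nonneg fun _ _ => sum_nonneg fun _ _ => sum_nonneg fun _ _ =>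
    weight_nonneg' s.P.hθ0.le _ _

theorem bootstrap : ∀ (i : ℕ) {m R k : ℕ} (mon : Spec m R),
    k ≤ s.K → m + 2 * k ≤ 2 * s.K + 2 → R + k ≤ 2 * s.K + 2 →
      mass s.β s.P.θ n k mon ≤ 16 * s.A ^ m + (1 / 2 : ℝ) ^ i * s.U := by
  have hA := s.one_le_A
  have hU := s.U_nonneg
  intro i
  induction i with
  | zero =>
    intro m R k mon hk h1 _
    rw [pow_zero, one_mul]
    exact (s.mass_le_U hk (by omega) mon).trans
      (le_add_of_nonneg_left (by positivity))
  | succ i ih =>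
    intro m R k mon hk h1 h2
    set e := (1 / 2 : ℝ) ^ i * s.U
    have he : 0 ≤ e := by positivity
    have hAm : 0 ≤ s.A ^ m := pow_nonneg (zero_le_one.trans hA) m
    have hT := s.termMass_bound (k := k) hk (by omega) mon
      (B := 16 * s.A ^ m + e) fun m' hm' mon' => (ih mon' hk (by omega) h2).trans
        (add_le_add (mul_le_mul_of_nonneg_left (pow_le_pow_right₀ hA hm') (by norm_num)) le_rfl)
    have hgoal : 8 * s.A ^ m + (16 * s.A ^ m + e) / 4 + (16 * s.A ^ m + e) / 8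
        ≤ 16 * s.A ^ m + (1 / 2 : ℝ) ^ (i + 1) * s.U := by
      rw [show (1 / 2 : ℝ) ^ (i + 1) * s.U = e / 2 by simp only [e]; ring]
      linarith
    refine le_trans ?_ hgoal
    cases k with
    | zero =>
      rw [mass_zero_eq_termMass]
      exact hT.trans (le_add_of_nonneg_right (by positivity))
    | succ k =>
      have hS := mass_le_terminal_add (B := 16 * s.A ^ (m + 2) + e) (β := s.β) s.P.hθ s.hθn mon
        fun m' hm' mon' => (ih mon' (k := k) (by omega) (by omega) (by omega)).trans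
          (add_le_add (mul_le_mul_of_nonneg_left (pow_le_pow_right₀ hA hm') (by norm_num)) le_rfl)
      refine hS.trans (add_le_add hT ?_)
      have hκ : 0 ≤ s.P.θ ^ 2 / n + 1 / s.P.θ := by have := s.P.hθ0; positivity
      have hmR : ((m : ℝ) + 2) * ((R : ℝ) + 2)
          ≤ ((2 : ℝ) * s.K + 4) * ((2 : ℝ) * s.K + 4) := by
        have : (m : ℝ) + 2 ≤ 2 * s.K + 4 := by exact_mod_cast (by omega : m + 2 ≤ 2 * s.K + 4)
        have : (R : ℝ) + 2 ≤ 2 * s.K + 4 := by exact_mod_cast (by omega : R + 2 ≤ 2 * s.K + 4)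
        gcongr
      set T := s.β ^ 2 * (((2 : ℝ) * s.K + 4) * ((2 : ℝ) * s.K + 4)) ^ 4
        * (s.P.θ ^ 2 / n + 1 / s.P.θ)
      have hT0 : 0 ≤ T := by positivity
      have hT1 : T * s.A ^ 2 ≤ 1 / 8 := s.hstep
      have hT2 : T ≤ 1 / 8 :=
        (le_mul_of_one_le_right hT0 (one_le_pow₀ hA)).trans hT1
      calc s.β ^ 2 * (((m : ℝ) + 2) * ((R : ℝ) + 2)) ^ 4 * (s.P.θ ^ 2 / n + 1 / s.P.θ)
            * (16 * s.A ^ (m + 2) + e)
          ≤ T * (16 * s.A ^ (m + 2) + e) := by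
            refine mul_le_mul_of_nonneg_right (mul_le_mul_of_nonneg_right
              (mul_le_mul_of_nonneg_left (pow_le_pow_left₀ (by positivity) hmR 4) (sq_nonneg _)) hκ)
              (by positivity)
        _ = 16 * s.A ^ m * (T * s.A ^ 2) + T * e := by rw [pow_add]; ring
        _ ≤ 16 * s.A ^ m * (1 / 8) + 1 / 8 * e :=
            add_le_add (mul_le_mul_of_nonneg_left hT1 (by positivity))
              (mul_le_mul_of_nonneg_right hT2 he)
        _ = (16 * s.A ^ m + e) / 8 := by ring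

theorem mass_le {R : ℕ} (mon : Spec 2 R) (hR : R ≤ s.K + 2) :
    mass s.β s.P.θ n s.K mon ≤ 16 * s.A ^ 2 := by
  refine le_of_forall_pos_le_add fun e he => ?_
  obtain ⟨i, hi⟩ := exists_pow_lt_of_lt_one (div_pos he (by linarith [s.U_nonneg] : 0 < s.U + 1))
    (by norm_num : (1 / 2 : ℝ) < 1)
  refine (s.bootstrap i mon le_rfl (by omega) (by omega)).trans (add_le_add le_rfl ?_)
  calc (1 / 2 : ℝ) ^ i * s.U ≤ (1 / 2 : ℝ) ^ i * (s.U + 1) :=
        mul_le_mul_of_nonneg_left (by linarith) (by positivity)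
    _ ≤ e / (s.U + 1) * (s.U + 1) :=
        mul_le_mul_of_nonneg_right hi.le (by linarith [s.U_nonneg])
    _ = e := div_mul_cancel₀ e (by linarith [s.U_nonneg])

end Setting

end

end Vale.Agent.P146.Super
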