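import Vale.Agent.P146.Super.Reduce
import Vale.Agent.P146.Super.Mass
import Mathlib.Analysis.SpecialFunctions.Pow.Asymptotics
import Mathlib.Algebra.Order.Floor.Semiring

/-!
# P146, superconcentration with a power: assembly
-/

namespace Vale.Agent.P146.Super

open MeasureTheory ProbabilityTheory Filter Topology Asymptotics

noncomputable section

/-- Existence of the parameters, as used by the assembly. -/
abbrev HasSettings (β : ℝ) : Prop :=
  ∃ K0 : ℕ, ∀ K, K0 ≤ K → ∀ n : ℕ, (K : ℝ) ^ 300 ≤ n → Real.log n ≤ (K : ℝ) / 2000 →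
    ∃ s : Setting n, s.β = β ∧ s.K = K

lemma variance_le_of_setting {n : ℕ} (hn : 2 ≤ n) (s : Setting n) (hβ : 0 ≤ s.β) :
    variance (freeEnergy n s.β) (law n)
      ≤ s.β ^ 2 * (16 * s.A ^ 2) + s.β ^ 2 * n / (2 * ((s.K : ℝ) + 1)) :=
  (variance_le_mass hn hβ s.P.hθ s.K).trans
    (add_le_add (mul_le_mul_of_nonneg_left (s.mass_le mon2 (by omega)) (sq_nonneg _)) le_rfl)

theorem variance_power_bound {β : ℝ} (hβ : 0 ≤ β) (hs : HasSettings β) :
    ∃ C : ℝ, 0 < C ∧ ∀ n : ℕ, 2 ≤ n →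
      variance (freeEnergy n β) (law n) ≤ C * (n : ℝ) ^ (1 - 1 / 300 : ℝ) := by
  obtain ⟨K0, hK0⟩ := hs
  have h1 : ∀ᶠ n : ℕ in atTop, ((K0 : ℝ) + 2) ≤ (n : ℝ) ^ (1 / 300 : ℝ) :=
    (((tendsto_rpow_atTop (by norm_num : (0 : ℝ) < 1 / 300)).comp
      tendsto_natCast_atTop_atTop).eventually_ge_atTop _)
  have h2 : ∀ᶠ n : ℕ in atTop, Real.log n ≤ (n : ℝ) ^ (1 / 300 : ℝ) / 4000 := by
    have h := tendsto_natCast_atTop_atTop.eventually
      ((isLittleO_log_rpow_atTop (by norm_num : (0 : ℝ) < 1 / 300)).def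
        (by norm_num : (0 : ℝ) < 1 / 4000))
    filter_upwards [h] with n hn
    have h3 := (le_abs_self _).trans (by simpa [Real.norm_eq_abs] using hn)
    rw [abs_of_nonneg (Real.rpow_nonneg (Nat.cast_nonneg n) _)] at h3
    linarith
  obtain ⟨N, hN⟩ := eventually_atTop.1 (h1.and h2)
  set S := ∑ n ∈ Finset.range N, |variance (freeEnergy n β) (law n)|
  have hS : 0 ≤ S := Finset.sum_nonneg fun _ _ => abs_nonneg _
  refine ⟨S + 6000000 * β ^ 2 + 1, by positivity, fun n hn => ?_⟩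
  have hn1 : (1 : ℝ) ≤ n := by exact_mod_cast (by omega : 1 ≤ n)
  have hpow : (1 : ℝ) ≤ (n : ℝ) ^ (1 - 1 / 300 : ℝ) :=
    Real.one_le_rpow hn1 (by norm_num)
  by_cases hnN : n < N
  · have h3 : variance (freeEnergy n β) (law n) ≤ S :=
      (le_abs_self _).trans (Finset.single_le_sum
        (f := fun n => |variance (freeEnergy n β) (law n)|) (fun _ _ => abs_nonneg _)
        (Finset.mem_range.2 hnN))
    exact h3.trans ((le_mul_of_one_le_right hS hpow).trans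
      (mul_le_mul_of_nonneg_right (by nlinarith [sq_nonneg β]) (by linarith)))
  obtain ⟨hA, hB⟩ := hN n (not_lt.1 hnN)
  set x := (n : ℝ) ^ (1 / 300 : ℝ)
  have hx0 : 0 ≤ x := Real.rpow_nonneg (Nat.cast_nonneg n) _
  set K := ⌊x⌋₊
  have hKle : (K : ℝ) ≤ x := Nat.floor_le hx0
  have hKlt : x < (K : ℝ) + 1 := Nat.lt_floor_add_one x
  have hK1 : 1 ≤ K := Nat.le_floor (by push_cast; linarith [(Nat.cast_nonneg K0 : (0 : ℝ) ≤ K0)])
  have hKK0 : K0 ≤ K := Nat.le_floor (by linarith)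
  have hx300 : x ^ 300 = (n : ℝ) := by
    rw [← Real.rpow_natCast, ← Real.rpow_mul (Nat.cast_nonneg n)]
    norm_num
  have hKn : (K : ℝ) ^ 300 ≤ n := hx300 ▸ pow_le_pow_left₀ (Nat.cast_nonneg K) hKle 300
  have hK1' : (1 : ℝ) ≤ K := by exact_mod_cast hK1
  obtain ⟨s, hsβ, hsK⟩ := hK0 K hKK0 n hKn (by linarith)
  have h := variance_le_of_setting hn s (hsβ ▸ hβ)
  rw [hsβ, Setting.A, hsK] at h
  refine h.trans ?_
  have hxn : x ^ 8 ≤ (n : ℝ) ^ (1 - 1 / 300 : ℝ) := by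
    rw [← Real.rpow_natCast, ← Real.rpow_mul (Nat.cast_nonneg n)]
    exact Real.rpow_le_rpow_of_exponent_le hn1 (by norm_num)
  have hx1 : 1 ≤ x := hK1'.trans hKle
  have hA2 : (1 + 16 * (2 * (K : ℝ) + 2) * ((K : ℝ) + 1) ^ 3) ^ 2 ≤ 270000 * x ^ 8 := by
    have e1 : 1 + 16 * (2 * (K : ℝ) + 2) * ((K : ℝ) + 1) ^ 3 ≤ 513 * x ^ 4 := by
      have : (K : ℝ) + 1 ≤ 2 * x := by linarith
      have h4 : ((K : ℝ) + 1) ^ 4 ≤ (2 * x) ^ 4 := pow_le_pow_left₀ (by positivity) this 4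
      have h5 : (1 : ℝ) ≤ x ^ 4 := one_le_pow₀ hx1
      calc 1 + 16 * (2 * (K : ℝ) + 2) * ((K : ℝ) + 1) ^ 3 = 1 + 32 * ((K : ℝ) + 1) ^ 4 := by ring
        _ ≤ 513 * x ^ 4 := by nlinarith
    calc _ ≤ (513 * x ^ 4) ^ 2 := pow_le_pow_left₀ (by positivity) e1 2
      _ = 263169 * x ^ 8 := by ring
      _ ≤ 270000 * x ^ 8 := by nlinarith [pow_nonneg hx0 8]
  have htail : (n : ℝ) / (2 * ((K : ℝ) + 1)) ≤ (n : ℝ) ^ (1 - 1 / 300 : ℝ) := by
    rw [Real.rpow_sub (by linarith), Real.rpow_one]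
    refine div_le_div_of_nonneg_left (Nat.cast_nonneg n) (by linarith) ?_
    linarith
  calc β ^ 2 * (16 * (1 + 16 * (2 * (K : ℝ) + 2) * ((K : ℝ) + 1) ^ 3) ^ 2)
        + β ^ 2 * n / (2 * ((K : ℝ) + 1))
      ≤ β ^ 2 * (16 * (270000 * (n : ℝ) ^ (1 - 1 / 300 : ℝ)))
        + β ^ 2 * (n : ℝ) ^ (1 - 1 / 300 : ℝ) := by
        rw [mul_div_assoc]
        refine add_le_add (mul_le_mul_of_nonneg_left (mul_le_mul_of_nonneg_left
          (hA2.trans (mul_le_mul_of_nonneg_left hxn (by norm_num))) (by norm_num)) (sq_nonneg β))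
          (mul_le_mul_of_nonneg_left htail (sq_nonneg β))
    _ = 4320001 * β ^ 2 * (n : ℝ) ^ (1 - 1 / 300 : ℝ) := by ring
    _ ≤ _ := mul_le_mul_of_nonneg_right (by nlinarith [sq_nonneg β]) (by linarith)

end

end Vale.Agent.P146.Super
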