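import Vale.Agent.P146.Super.ItemsDev
import Vale.Agent.P146.Super.ExactMain
import Vale.Agent.P146.Super.Step

/-!
# P146, superconcentration: from states back to placed specifications

The terminal mass is a sum over terminal states, and the weighted square sum of all coefficients
is bounded by the masses of the specifications obtained by merging marks.
-/

namespace Vale.Agent.P146.Super

open Finset

noncomputable section

variable {n m R : ℕ}

lemma weight_nonneg' {η : ℝ} (hη : 0 ≤ η) {m : ℕ} (x : Fin m → Fin n) (G : MG n) :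
    0 ≤ weight η x G :=
  prod_nonneg fun _ _ => mul_nonneg (inv_nonneg.2 (pow_nonneg (Real.sqrt_nonneg _) _))
    (zpow_nonneg hη _)

lemma mass_nonneg' {η : ℝ} (hη : 0 ≤ η) (β : ℝ) (k : ℕ) (mon : Spec m R) :
    0 ≤ mass β η n k mon :=
  sum_nonneg fun _ _ => sum_nonneg fun _ _ => mul_nonneg (sq_nonneg _) (weight_nonneg' hη _ _)

/-- The loss of one mark. -/
def markLoss (mon : Spec m R) (i : Fin m) : ℕ := if Odd' mon i then 1 else 2

lemma sum_markLoss (mon : Spec m R) :
    ∑ i, markLoss mon i
      = (univ.filter (Odd' mon)).card + 2 * (univ.filter fun i => ¬ Odd' mon i).card := by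
  rw [← sum_filter_add_sum_filter_not univ (Odd' mon)]
  congr 1
  · rw [card_eq_sum_ones]
    exact sum_congr rfl fun i hi => by simp [markLoss, (mem_filter.1 hi).2]
  · rw [card_eq_sum_ones, mul_sum]
    exact sum_congr rfl fun i hi => by simp [markLoss, (mem_filter.1 hi).2]

lemma even_card_odd {mon : Spec m R} {x : Fin m → Fin n} {G : MG n} (hp : ParityOK mon x G) :
    (univ.filter (Odd' mon)).card % 2 = 0 := by
  have h1 : (∑ v, ∑ i ∈ univ.filter (fun i => x i = v), (mon i).card) % 2 = 0 := by
    rw [sum_nat_mod, sum_congr rfl fun v _ => (hp v).symm, ← sum_nat_mod, sum_deg]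
    omega
  rw [sum_fiberwise_of_maps_to (fun i _ => mem_univ (x i))] at h1
  rw [sum_nat_mod] at h1
  have h2 : (univ.filter (Odd' mon)).card = ∑ i, (mon i).card % 2 := by
    rw [card_filter]
    refine sum_congr rfl fun i _ => ?_
    rcases Nat.mod_two_eq_zero_or_one (mon i).card with h | h <;> simp [Odd', h]
  rw [h2]
  exact h1

lemma two_nIt {mon : Spec m R} {x : Fin m → Fin n} {G : MG n} (hp : ParityOK mon x G) :
    2 * nIt mon univ = ∑ i, markLoss mon i := by
  have := even_card_odd hp
  rw [sum_markLoss, nIt]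
  omega

lemma sum_phi2_le {mon : Spec m R} {x : Fin m → Fin n} {G : MG n} (hp : ParityOK mon x G) :
    ∑ v, phi2 (deg G v) (decide (∃ i, x i = v)) ≤ 2 * nIt mon univ := by
  rw [two_nIt hp, ← sum_fiberwise_of_maps_to (fun i _ => mem_univ (x i)) (markLoss mon)]
  refine sum_le_sum fun v _ => ?_
  have hpv := hp v
  set C := univ.filter fun i => x i = v
  have hL : ∀ i ∈ C, 1 ≤ markLoss mon i := fun i _ => by unfold markLoss; split <;> omega
  unfold phi2
  by_cases hd : deg G v % 2 = 1
  · rw [if_pos hd]
    rcases C.eq_empty_or_nonempty with hC | ⟨i, hi⟩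
    · rw [hC, sum_empty] at hpv; omega
    · exact (hL i hi).trans (single_le_sum (f := markLoss mon) (fun _ _ => Nat.zero_le _) hi)
  · rw [if_neg hd]
    split
    · rename_i h
      obtain ⟨-, hm⟩ := h
      obtain ⟨i, hi⟩ := of_decide_eq_true hm
      have hiC : i ∈ C := mem_filter.2 ⟨mem_univ _, hi⟩
      by_cases hodd : Odd' mon i
      · -- another mark must be there
        have : ∃ k ∈ C, k ≠ i := by
          by_contra hno
          push Not at hno
          have hC : C = {i} := eq_singleton_iff_unique_mem.2 ⟨hiC, hno⟩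
          rw [hC, sum_singleton] at hpv
          unfold Odd' at hodd
          omega
        obtain ⟨k, hk, hki⟩ := this
        have h2 := sum_le_sum_of_subset (f := markLoss mon)
          (insert_subset hk (singleton_subset_iff.2 hiC))
        rw [sum_pair hki] at h2
        have := hL k hk
        have := hL i hiC
        omega
      · have h2 : markLoss mon i = 2 := by simp [markLoss, hodd]
        have h3 := single_le_sum (f := markLoss mon) (fun _ _ => Nat.zero_le _) hiC
        omega
    · exact Nat.zero_le _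

lemma sqrt_pow_le (hn : 1 ≤ n) {mon : Spec m R} {x : Fin m → Fin n} {G : MG n}
    (hp : ParityOK mon x G) :
    ((n : ℝ) ^ nIt mon univ)⁻¹
      ≤ ∏ v, (Real.sqrt n ^ phi2 (deg G v) (decide (∃ i, x i = v)))⁻¹ := by
  have hs : 1 ≤ Real.sqrt n := Real.one_le_sqrt.2 (by exact_mod_cast hn)
  rw [prod_inv_distrib, prod_pow_eq_pow_sum]
  refine inv_anti₀ (by positivity) ?_
  calc Real.sqrt n ^ ∑ v, phi2 (deg G v) (decide (∃ i, x i = v))
      ≤ Real.sqrt n ^ (2 * nIt mon univ) := pow_le_pow_right₀ hs (sum_phi2_le hp)
    _ = (n : ℝ) ^ nIt mon univ := by rw [pow_mul, Real.sq_sqrt (Nat.cast_nonneg _)]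

/-- The placement of a total map. -/
def toPl (x : Fin m → Fin n) : Pl n m := fun i => some (x i)

lemma placed_toPl (x : Fin m → Fin n) : placed (toPl x) = univ := by
  ext i; simp [placed, toPl]

lemma marks_toPl (x : Fin m → Fin n) : marks (toPl x) = univ.image x := by
  ext v; simp [marks, toPl, eq_comm]

lemma toPl_injective : Function.Injective (toPl : (Fin m → Fin n) → Pl n m) :=
  fun _ _ h => funext fun i => Option.some_inj.1 (congrFun h i)

lemma cof_toPl (β : ℝ) (mon : Spec m R) (x : Fin m → Fin n) (G : MG n) :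
    cof β mon (toPl x, G) = coef (obs β mon x) G := by
  rw [cof, dif_pos fun i => by simp [toPl]]
  simp [toPl]

lemma exists_toPl {xo : Pl n m} (h : placed xo = univ) : ∃ x, toPl x = xo := by
  have hs : ∀ i, (xo i).isSome := fun i => (mem_filter.1 (h ▸ mem_univ i : i ∈ placed xo)).2
  exact ⟨fun i => (xo i).get (hs i), funext fun i => by simp [toPl]⟩

lemma isq_cof_eq (β θ : ℝ) (k : ℕ) (mon : Spec m R) :
    isq θ univ k (cof (n := n) β mon)
      = ∑ x : Fin m → Fin n, ∑ G ∈ multi n k,
          coef (obs β mon x) G ^ 2 / θ ^ psiP (toPl x, G) := by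
  rw [isq, stS, sum_product]
  have himg : (univ.filter fun xo : Pl n m => placed xo = univ) = univ.image toPl := by
    ext xo
    simp only [mem_filter, mem_univ, true_and, mem_image]
    exact ⟨exists_toPl, fun ⟨x, hx⟩ => hx ▸ placed_toPl x⟩
  rw [himg, sum_image fun a _ b _ h => toPl_injective h]
  simp only [cof_toPl]

/-- The weighted mass of all placements, merged marks being penalised. -/
def allMass (β θ : ℝ) (n k : ℕ) {m R : ℕ} (mon : Spec m R) : ℝ :=
  ∑ x : Fin m → Fin n, ∑ G ∈ multi n k,
    coef (obs β mon x) G ^ 2 * weight θ x G / θ ^ (2 * (m - (univ.image x).card))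

/-- The weight of the potential is dominated by the weight of the mass. -/
lemma inv_psi_le {θ : ℝ} (hθ : 1 ≤ θ) (x : Fin m → Fin n) (G : MG n) :
    (θ ^ psiP (toPl x, G))⁻¹
      ≤ (∏ v, θ ^ omega (deg G v) (decide (∃ i, x i = v)))
        / θ ^ (2 * (m - (univ.image x).card)) := by
  have hθ0 : 0 < θ := by linarith
  rw [psiP, placed_toPl, card_univ, Fintype.card_fin, marks_toPl, pow_add _ _ (2 * _), mul_inv,
    ← div_eq_mul_inv]
  refine div_le_div_of_nonneg_right ?_ (by positivity)
  have hC : psiC (univ.image x) G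
      = ∑ v, if (∃ i, x i = v) ∧ 2 ≤ deg G v then 1 else 0 := by
    rw [psiC, ← card_filter]
    congr 1
    ext v; simp
  calc (θ ^ (2 * psiA G + psiC (univ.image x) G))⁻¹
      ≤ (θ ^ psiC (univ.image x) G)⁻¹ :=
        inv_anti₀ (by positivity) (pow_le_pow_right₀ hθ (by omega))
    _ = ∏ v, (θ ^ (if (∃ i, x i = v) ∧ 2 ≤ deg G v then 1 else 0))⁻¹ := by
        rw [prod_inv_distrib, prod_pow_eq_pow_sum, hC]
    _ ≤ _ := by
        refine Finset.prod_le_prod (fun v _ => by positivity) fun v _ => ?_
        rw [← zpow_natCast, ← zpow_neg]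
        refine zpow_le_zpow_right₀ hθ ?_
        by_cases hm : ∃ i, x i = v
        · simp only [decide_eq_true hm, omega, hm, true_and]
          split_ifs <;> simp at * <;> omega
        · simp only [decide_eq_false hm, omega, hm, false_and, if_false, Bool.false_eq_true, and_false]
          split_ifs <;> simp at * <;> omega

theorem isq_cof_le (hn : 1 ≤ n) (β : ℝ) {θ : ℝ} (hθ : 1 ≤ θ) (k : ℕ) (mon : Spec m R) :
    isq θ univ k (cof (n := n) β mon) ≤ (n : ℝ) ^ nIt mon univ * allMass β θ n k mon := by
  have hθ0 : 0 < θ := by linarith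
  have hn0 : (0 : ℝ) < (n : ℝ) ^ nIt mon univ := pow_pos (Nat.cast_pos.2 hn) _
  rw [isq_cof_eq, allMass, mul_sum]
  refine sum_le_sum fun x _ => ?_
  rw [mul_sum]
  refine sum_le_sum fun G _ => ?_
  by_cases hc : coef (obs β mon x) G = 0
  · rw [hc]; simp
  have hp := parityOK_of_coef_ne_zero hc
  have hw : ((n : ℝ) ^ nIt mon univ)⁻¹ * (θ ^ psiP (toPl x, G))⁻¹
      ≤ weight θ x G / θ ^ (2 * (m - (univ.image x).card)) := by
    refine (mul_le_mul (sqrt_pow_le hn hp) (inv_psi_le hθ x G) (by positivity)
      (prod_nonneg fun v _ => by positivity)).trans (le_of_eq ?_)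
    rw [← mul_div_assoc, ← prod_mul_distrib]
    rfl
  rw [mul_div_assoc, mul_left_comm, div_eq_mul_inv]
  refine mul_le_mul_of_nonneg_left ?_ (sq_nonneg _)
  rw [inv_mul_le_iff₀ hn0] at hw
  exact hw

theorem termMass_le (hn : 1 ≤ n) (β η : ℝ) (k : ℕ) (mon : Spec m R) :
    termMass β η n k mon
      ≤ ((n : ℝ) ^ nIt mon univ)⁻¹ * ∑ s ∈ termSt n mon univ k, cof β mon s ^ 2 := by
  classical
  set c := ((n : ℝ) ^ nIt mon univ)⁻¹
  unfold termMass
  simp only [sum_filter]
  rw [← sum_product', mul_sum]
  set T := (places n m ×ˢ multi n k).filter fun p => Terminal p.1 p.2 ∧ coef (obs β mon p.1) p.2 ≠ 0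
  have h1 : ∀ p ∈ T, ((toPl p.1, p.2) : St n m) ∈ termSt n mon univ k := by
    intro p hp
    obtain ⟨hp1, ht, hc⟩ := mem_filter.1 hp
    obtain ⟨hpl, hG⟩ := mem_product.1 hp1
    have hinj : Function.Injective p.1 := (mem_filter.1 hpl).2
    have hpar := parityOK_of_coef_ne_zero hc
    refine mem_filter.2 ⟨mem_stS.2 ⟨placed_toPl _, mem_multi.1 hG⟩, ?_, ?_, ?_⟩
    · intro i _ i' _ h; exact hinj (Option.some_inj.1 h)
    · intro i _ v hv
      obtain rfl : p.1 i = v := Option.some_inj.1 hv
      have h2 := hpar (p.1 i)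
      have hf : (univ.filter fun k => p.1 k = p.1 i) = {i} := by
        ext k; simp [hinj.eq_iff]
      rw [hf, sum_singleton] at h2
      have := (ht (p.1 i)).2 ⟨i, rfl⟩
      show deg p.2 (p.1 i) = _
      omega
    · intro v hv
      have h2 := hpar v
      have hf : (univ.filter fun k => p.1 k = v) = ∅ := by
        rw [filter_eq_empty_iff]
        intro k _ hk
        refine hv ?_
        rw [marks_toPl]
        exact mem_image.2 ⟨k, mem_univ _, hk⟩
      rw [hf, sum_empty] at h2
      have := (ht v).1
      show deg p.2 v = 0 ∨ deg p.2 v = 2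
      omega
  calc _ ≤ ∑ p ∈ T, c * cof β mon (toPl p.1, p.2) ^ 2 := ?_
    _ = ∑ s ∈ T.image (fun p => ((toPl p.1, p.2) : St n m)), c * cof β mon s ^ 2 :=
        (sum_image (f := fun s : St n m => c * cof β mon s ^ 2)
          (g := fun p : (Fin m → Fin n) × MG n => ((toPl p.1, p.2) : St n m)) fun a _ b _ h =>
          Prod.ext (toPl_injective (congrArg Prod.fst h))
            (show a.2 = b.2 from congrArg (Prod.snd : St n m → MG n) h)).symm
    _ ≤ _ := sum_le_sum_of_subset_of_nonneg
        (fun s hs => by obtain ⟨p, hp, rfl⟩ := mem_image.1 hs; exact h1 p hp)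
        fun _ _ _ => by positivity
  rw [sum_filter]
  refine sum_le_sum fun p hp => ?_
  by_cases ht : Terminal p.1 p.2
  · by_cases hc : coef (obs β mon p.1) p.2 = 0
    · simp [ht, hc]
    · rw [if_pos ht, if_pos ⟨ht, hc⟩, cof_toPl, mul_comm c]
      refine mul_le_mul_of_nonneg_left ?_ (sq_nonneg _)
      have hpar := parityOK_of_coef_ne_zero hc
      have hinj : Function.Injective p.1 := (mem_filter.1 (mem_product.1 hp).1).2
      have e : ∑ v, phi2 (deg p.2 v) (decide (∃ i, p.1 i = v)) = 2 * nIt mon univ := by
        refine le_antisymm (sum_phi2_le hpar) ?_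
        rw [two_nIt hpar, ← sum_fiberwise_of_maps_to (fun i _ => mem_univ (p.1 i)) (markLoss mon)]
        refine sum_le_sum fun v _ => ?_
        have h2 := hpar v
        have h3 := ht v
        by_cases hm : ∃ i, p.1 i = v
        · obtain ⟨i, rfl⟩ := hm
          have hf : (univ.filter fun k => p.1 k = p.1 i) = {i} := by
            ext k; simp [hinj.eq_iff]
          rw [hf, sum_singleton] at h2 ⊢
          have h4 := h3.2 ⟨i, rfl⟩
          have hdc : decide (∃ k, p.1 k = p.1 i) = true := decide_eq_true ⟨i, rfl⟩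
          rw [hdc]
          rcases (show deg p.2 (p.1 i) = 0 ∨ deg p.2 (p.1 i) = 1 by omega) with hd | hd
          · rw [hd] at h2 ⊢
            have ho : ¬ Odd' mon i := fun ho => by unfold Odd' at ho; omega
            simp [phi2, markLoss, ho]
          · rw [hd] at h2 ⊢
            have ho : Odd' mon i := by unfold Odd'; omega
            simp [phi2, markLoss, ho]
        · have hf : (univ.filter fun k => p.1 k = v) = ∅ := by
            rw [filter_eq_empty_iff]; exact fun k _ hk => hm ⟨k, hk⟩
          rw [hf, sum_empty]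
          exact Nat.zero_le _
      have hω : ∀ v, omega (deg p.2 v) (decide (∃ i, p.1 i = v)) = 0 := by
        intro v
        have h3 := ht v
        by_cases hm : ∃ i, p.1 i = v
        · have := h3.2 hm
          simp only [omega, decide_eq_true hm]
          split_ifs <;> simp at * <;> omega
        · have := h3.1
          simp only [omega, decide_eq_false hm]
          split_ifs <;> simp at * <;> omega
      refine le_of_eq ?_
      unfold weight wv
      simp only [hω, zpow_zero, mul_one]
      rw [prod_inv_distrib, prod_pow_eq_pow_sum, e, pow_mul, Real.sq_sqrt (Nat.cast_nonneg _)]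
  · simp [ht]

lemma weight_congr {m' : ℕ} (η : ℝ) {x : Fin m → Fin n} {y : Fin m' → Fin n}
    (h : univ.image x = univ.image y) (G : MG n) : weight η x G = weight η y G := by
  refine prod_congr rfl fun v _ => ?_
  have : (∃ i, x i = v) ↔ ∃ i, y i = v := by
    have h1 := Finset.ext_iff.1 h v
    simpa using h1
  simp only [this]

lemma sum_biUnion_le {ι κ : Type*} [DecidableEq ι] [DecidableEq κ] (P : Finset κ)
    (T : κ → Finset ι) {f : ι → ℝ} (hf : ∀ x, 0 ≤ f x) :
    ∑ x ∈ P.biUnion T, f x ≤ ∑ p ∈ P, ∑ x ∈ T p, f x := by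
  induction P using Finset.induction_on with
  | empty => simp
  | insert a P ha ih =>
    rw [biUnion_insert, sum_insert ha]
    refine le_trans ?_ (add_le_add le_rfl ih)
    rw [← sum_union_inter]
    exact le_add_of_nonneg_right (sum_nonneg fun x _ => hf x)

theorem allMass_le {β θ B : ℝ} {k : ℕ} (hθ : 1 ≤ θ) :
    ∀ {m : ℕ} (mon : Spec m R), 2 * (m : ℝ) ^ 2 ≤ θ ^ 2 →
      (∀ m' ≤ m, ∀ mon' : Spec m' R, mass β θ n k mon' ≤ B) → allMass β θ n k mon ≤ 2 * B := by
  have hθ0 : 0 < θ := by linarith
  intro m
  induction m with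
  | zero =>
    intro mon _ hB
    have h := hB 0 le_rfl mon
    have hm : mass β θ n k mon = allMass β θ n k mon := by
      have hu : (univ.filter Function.Injective : Finset (Fin 0 → Fin n)) = univ :=
        filter_true_of_mem fun x _ i => i.elim0
      unfold mass allMass places
      rw [hu]
      simp
    linarith [mass_nonneg' hθ0.le β k mon (n := n)]
  | succ m ih =>
    intro mon hm hB
    classical
    have hB0 : 0 ≤ B := (mass_nonneg' hθ0.le β k mon).trans (hB _ le_rfl mon)
    have hm' : 2 * (m : ℝ) ^ 2 ≤ θ ^ 2 := le_trans (by gcongr; exact_mod_cast Nat.le_succ m) hm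
    set t : (Fin (m + 1) → Fin n) → ℝ := fun x => ∑ G ∈ multi n k,
      coef (obs β mon x) G ^ 2 * weight θ x G / θ ^ (2 * (m + 1 - (univ.image x).card))
    have ht : ∀ x, 0 ≤ t x := fun x => sum_nonneg fun G _ =>
      div_nonneg (mul_nonneg (sq_nonneg _) (weight_nonneg' hθ0.le x G)) (by positivity)
    have hinj : ∑ x ∈ univ.filter Function.Injective, t x = mass β θ n k mon := by
      refine sum_congr rfl fun x hx => sum_congr rfl fun G _ => ?_
      rw [card_image_of_injective _ (mem_filter.1 hx).2, card_univ, Fintype.card_fin, Nat.sub_self]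
      simp
    have hpair : ∀ i j : Fin (m + 1), i ≠ j →
        ∑ x ∈ univ.filter (fun x : Fin (m + 1) → Fin n => x i = x j), t x
          ≤ 2 * B / θ ^ 2 := by
      intro i j hij
      set mon' : Spec m R :=
        fun l => Function.update mon i (symmDiff (mon i) (mon j)) (j.succAbove l)
      have hi := ih mon' hm' fun m' h' => hB m' (h'.trans (Nat.le_succ m))
      refine le_trans ?_ (div_le_div_of_nonneg_right hi (by positivity))
      rw [allMass, sum_div]
      refine le_trans (le_of_eq (sum_congr rfl fun x hx => ?_)) ((le_of_eq (sum_image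
        (g := fun (x : Fin (m + 1) → Fin n) (l : Fin m) => x (j.succAbove l))
        (f := fun y => (∑ G ∈ multi n k, coef (obs β mon' y) G ^ 2 * weight θ y G
          / θ ^ (2 * (m - (univ.image y).card))) / θ ^ 2) ?_).symm).trans
        (sum_le_sum_of_subset_of_nonneg (subset_univ _) fun y _ _ => ?_))
      · have hx' := (mem_filter.1 hx).2
        have himg : univ.image x = univ.image fun l => x (j.succAbove l) := by
          ext v
          simp only [mem_image, mem_univ, true_and]
          constructor
          · rintro ⟨l, rfl⟩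
            by_cases hl : l = j
            · obtain ⟨l', hl'⟩ := Fin.exists_succAbove_eq hij
              exact ⟨l', by rw [hl', hx', hl]⟩
            · obtain ⟨l', hl'⟩ := Fin.exists_succAbove_eq hl
              exact ⟨l', by rw [hl']⟩
          · rintro ⟨l, rfl⟩; exact ⟨_, rfl⟩
        have hcard : (univ.image fun l : Fin m => x (j.succAbove l)).card ≤ m :=
          card_image_le.trans (by simp)
        rw [sum_div]
        refine sum_congr rfl fun G _ => ?_
        rw [div_div, ← pow_add, ← weight_congr θ himg, himg,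
          show coef (obs β mon x) G = coef (obs β mon' fun l => x (j.succAbove l)) G from
            congrArg (fun f => coef f G) (funext fun g => obs_merge β mon x hij hx' g)]
        congr 2
        omega
      · intro a ha b hb hab
        funext l
        by_cases hl : l = j
        · obtain ⟨l', hl'⟩ := Fin.exists_succAbove_eq hij
          have h2 := congrFun hab l'
          simp only [hl'] at h2
          rw [hl, ← (mem_filter.1 ha).2, ← (mem_filter.1 hb).2, h2]
        · obtain ⟨l', hl'⟩ := Fin.exists_succAbove_eq hl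
          have h2 := congrFun hab l'
          simpa only [hl'] using h2
      · exact div_nonneg (sum_nonneg fun G _ => div_nonneg (mul_nonneg (sq_nonneg _)
          (weight_nonneg' hθ0.le _ G)) (by positivity)) (by positivity)
    set P := (univ : Finset (Fin (m + 1) × Fin (m + 1))).filter fun p => p.1 < p.2
    have hnon : ∑ x ∈ univ.filter (fun x => ¬ Function.Injective x), t x
        ≤ ((m + 1 : ℕ) : ℝ) ^ 2 * (2 * B / θ ^ 2) := by
      refine le_trans (sum_le_sum_of_subset_of_nonneg
        (t := P.biUnion fun p => univ.filter fun x : Fin (m + 1) → Fin n => x p.1 = x p.2) ?_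
        fun x _ _ => ht x) ?_
      · intro x hx
        have hx' := (mem_filter.1 hx).2
        simp only [Function.Injective, not_forall, exists_prop] at hx'
        obtain ⟨a, b, hab, hne⟩ := hx'
        rw [mem_biUnion]
        rcases lt_or_gt_of_ne hne with h | h
        · exact ⟨(a, b), mem_filter.2 ⟨mem_univ _, h⟩, mem_filter.2 ⟨mem_univ _, hab⟩⟩
        · exact ⟨(b, a), mem_filter.2 ⟨mem_univ _, h⟩, mem_filter.2 ⟨mem_univ _, hab.symm⟩⟩
      refine (sum_biUnion_le _ _ ht).trans ((sum_le_card_nsmul _ _ (2 * B / θ ^ 2) fun p hp =>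
        hpair p.1 p.2 (ne_of_lt (mem_filter.1 hp).2)).trans ?_)
      rw [nsmul_eq_mul]
      refine mul_le_mul_of_nonneg_right ?_ (by positivity)
      have : P.card ≤ (m + 1) ^ 2 := (card_le_univ _).trans (by simp [sq])
      exact_mod_cast this
    have hsplit : allMass β θ n k mon = ∑ x ∈ univ.filter Function.Injective, t x
        + ∑ x ∈ univ.filter (fun x => ¬ Function.Injective x), t x :=
      (sum_filter_add_sum_filter_not univ Function.Injective t).symm
    have h3 : ((m + 1 : ℕ) : ℝ) ^ 2 * (2 * B / θ ^ 2) ≤ B := by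
      rw [← mul_div_assoc, div_le_iff₀ (by positivity)]
      nlinarith [mul_le_mul_of_nonneg_left hm hB0]
    have h4 := hB _ le_rfl mon
    rw [hsplit, hinj]
    linarith

end

end Vale.Agent.P146.Super
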