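import Vale.Agent.P146.Super.Iter
import Vale.Agent.P146.Super.Hermite

/-!
# P146, superconcentration: the second moment of the walk sums
-/

namespace Vale.Agent.P146.Super

open MeasureTheory ProbabilityTheory Finset

noncomputable section

variable {n : ℕ}

/-- A walk sum with a point mass at the far end, expanded in Hermite products. -/
lemma nbw_eq_sum_amp (g : Edge n → ℝ) (r : ℕ) (x y : Fin n) :
    nbw g (Pi.single y 1) r x x
      = ∑ G ∈ multi n r, amp r x (y, G) * hG G g := by
  have h := hG_mul_nbw g (Pi.single y 1) r x x 0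
  rw [hG_zero, one_mul] at h
  rw [h, zval_eq_sum_amp, dom, sum_product, sum_eq_single y]
  · exact sum_congr rfl fun G _ => by simp [mul_comm]
  · intro z _ hz; simp [hz]
  · intro hy; exact absurd (mem_univ y) hy

/-- The second moment of one entry of a walk sum. -/
lemma integral_nbw_sq_eq (r : ℕ) (x y : Fin n) :
    ∫ g, nbw g (Pi.single y 1) r x x ^ 2 ∂law n = ∑ G ∈ multi n r, amp r x (y, G) ^ 2 := by
  have e : (fun g : Edge n → ℝ => nbw g (Pi.single y 1) r x x ^ 2) = fun g =>
      ∑ G ∈ multi n r, ∑ G' ∈ multi n r,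
        amp r x (y, G) * amp r x (y, G') * (hG G g * hG G' g) := by
    funext g
    rw [nbw_eq_sum_amp, sq, sum_mul_sum]
    exact sum_congr rfl fun G _ => sum_congr rfl fun G' _ => by ring
  have hi : ∀ G G' : MG n, Integrable
      (fun g => amp r x (y, G) * amp r x (y, G') * (hG G g * hG G' g)) (law n) := fun G G' =>
    (((em_hG G).mul (em_hG G')).integrable
      ((measurable_hG G).mul (measurable_hG G'))).const_mul _
  rw [e, integral_finsetSum _ fun G _ => integrable_finsetSum _ fun G' _ => hi G G']
  refine sum_congr rfl fun G hG => ?_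
  rw [integral_finsetSum _ fun G' _ => hi G G', sum_eq_single G]
  · rw [integral_const_mul, integral_hG, if_pos rfl, mul_one, sq]
  · intro G' _ hne
    rw [integral_const_mul, integral_hG, if_neg (Ne.symm hne), mul_zero]
  · exact fun h => absurd hG h

/-- The total second moment of the walks of length `r`. -/
theorem sum_integral_nbw_sq_le (P : Par n) {r : ℕ} (hr : r ≤ P.R) (hK : 2 * r + 3 ≤ P.Kb) :
    ∑ x : Fin n, ∑ y : Fin n, ∫ g, nbw g (Pi.single y 1) r x x ^ 2 ∂law n
      ≤ n * P.q ^ (2 * r) := by
  refine (sum_le_card_nsmul _ _ (P.q ^ (2 * r)) fun x _ => ?_).trans (by simp)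
  simp only [integral_nbw_sq_eq]
  rw [← sum_product']
  exact sum_amp_sq_le P x r hr hK

end

end Vale.Agent.P146.Super
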