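import Mathlib.Analysis.SpecialFunctions.Trigonometric.Inverse
import Mathlib.Analysis.InnerProductSpace.Spectrum
import Mathlib.Analysis.InnerProductSpace.PiL2

/-!
Chebyshev polynomials of the second kind at `x / 2`, and perturbed Chebyshev recursions of
vectors under a symmetric map (module NB of the notes).
-/

open Finset

namespace Vale.Agent.P146.Super

/-- `cheb x r` is `U_r (x / 2)`. -/
def cheb (x : ℝ) : ℕ → ℝ
  | 0 => 1
  | 1 => x
  | r + 2 => x * cheb x (r + 1) - cheb x r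

lemma cheb_cos_succ (θ : ℝ) : ∀ r : ℕ,
    cheb (2 * Real.cos θ) (r + 1) =
      Real.cos θ * cheb (2 * Real.cos θ) r + Real.cos (((r : ℝ) + 1) * θ)
  | 0 => by simp [cheb]; ring
  | 1 => by
      simp only [cheb, Nat.cast_one]
      rw [show ((1 : ℝ) + 1) * θ = 2 * θ by ring, Real.cos_two_mul]
      ring
  | r + 2 => by
      have h1 := cheb_cos_succ θ r
      have h2 := cheb_cos_succ θ (r + 1)
      have hc : Real.cos ((((r + 2 : ℕ) : ℝ) + 1) * θ) =
          2 * Real.cos θ * Real.cos ((((r + 1 : ℕ) : ℝ) + 1) * θ) -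
            Real.cos (((r : ℝ) + 1) * θ) := by
        push_cast
        rw [show ((r : ℝ) + 2 + 1) * θ = ((r : ℝ) + 1 + 1) * θ + θ by ring,
          show ((r : ℝ) + 1) * θ = ((r : ℝ) + 1 + 1) * θ - θ by ring, Real.cos_add, Real.cos_sub]
        ring
      rw [hc]
      simp only [cheb] at h1 h2 ⊢
      linear_combination 2 * Real.cos θ * h2 - h1

lemma abs_cheb_le_succ {x : ℝ} (hx : |x| ≤ 2) : ∀ r : ℕ, |cheb x r| ≤ (r : ℝ) + 1
  | 0 => by simp [cheb]
  | r + 1 => by
      have h1 := abs_le.1 hx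
      set θ := Real.arccos (x / 2)
      have hθ : 2 * Real.cos θ = x := by
        rw [Real.cos_arccos (by linarith) (by linarith)]; ring
      have h := cheb_cos_succ θ r
      rw [hθ] at h
      rw [h]
      refine (abs_add_le _ _).trans ?_
      push_cast
      refine add_le_add ?_ (Real.abs_cos_le_one _)
      rw [abs_mul]
      exact (mul_le_of_le_one_left (abs_nonneg _) (Real.abs_cos_le_one _)).trans
        (abs_cheb_le_succ hx r)

lemma cheb_neg (x : ℝ) : ∀ r : ℕ, cheb (-x) r = (-1) ^ r * cheb x r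
  | 0 => by simp [cheb]
  | 1 => by simp [cheb]
  | r + 2 => by
      simp only [cheb, cheb_neg x r, cheb_neg x (r + 1), pow_succ]
      ring

/-- Positivity, growth and monotonicity beyond `2`. -/
lemma cheb_mono_aux {x y : ℝ} (hx : 2 ≤ x) (hxy : x ≤ y) : ∀ r : ℕ,
    ((r : ℝ) + 1 ≤ cheb x r ∧ cheb x r ≤ cheb y r) ∧
      (1 ≤ cheb x (r + 1) - cheb x r ∧
        cheb x (r + 1) - cheb x r ≤ cheb y (r + 1) - cheb y r)
  | 0 => by simp [cheb]; constructor <;> linarith
  | r + 1 => by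
      obtain ⟨⟨h1, h2⟩, h3, h4⟩ := cheb_mono_aux hx hxy r
      have e : ∀ z : ℝ, cheb z (r + 1 + 1) - cheb z (r + 1) =
          (z - 2) * cheb z (r + 1) + (cheb z (r + 1) - cheb z r) := fun z => by
        simp only [cheb]; ring
      have h5 : cheb x (r + 1) ≤ cheb y (r + 1) := by linarith
      have hr : (0 : ℝ) ≤ r := Nat.cast_nonneg r
      have h6 : 0 ≤ cheb x (r + 1) := by linarith
      refine ⟨⟨by push_cast; linarith, h5⟩, ?_, ?_⟩
      · rw [e]; nlinarith
      · rw [e, e]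
        have := mul_le_mul (sub_le_sub_right hxy (2 : ℝ)) h5 h6 (by linarith)
        linarith

lemma cheb_pos {x : ℝ} (hx : 2 ≤ x) (r : ℕ) : 0 < cheb x r := by
  have := (cheb_mono_aux hx le_rfl r).1.1
  have : (0 : ℝ) ≤ r := Nat.cast_nonneg r
  linarith

lemma one_le_cheb {x : ℝ} (hx : 2 ≤ x) (r : ℕ) : 1 ≤ cheb x r := by
  have := (cheb_mono_aux hx le_rfl r).1.1
  have : (0 : ℝ) ≤ r := Nat.cast_nonneg r
  linarith

lemma cheb_le_cheb {x y : ℝ} (hx : 2 ≤ x) (hxy : x ≤ y) (r : ℕ) : cheb x r ≤ cheb y r :=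
  (cheb_mono_aux hx hxy r).1.2

lemma cheb_index_mono {x : ℝ} (hx : 2 ≤ x) : Monotone (cheb x) :=
  monotone_nat_of_le_succ fun r => by linarith [(cheb_mono_aux hx le_rfl r).2.1]

lemma abs_cheb_le {x L : ℝ} (hL : 2 ≤ L) (hx : |x| ≤ L) (r : ℕ) : |cheb x r| ≤ cheb L r := by
  rcases le_or_gt |x| 2 with h | h
  · exact (abs_cheb_le_succ h r).trans ((cheb_mono_aux hL le_rfl r).1.1)
  · have e : |cheb x r| = cheb |x| r := by
      rcases abs_choice x with hx' | hx'
      · rw [hx'] at h ⊢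
        exact abs_of_pos (cheb_pos h.le r)
      · rw [hx'] at h ⊢
        have hp := cheb_pos h.le r
        have e : cheb x r = (-1) ^ r * cheb (-x) r := by rw [← cheb_neg (-x), neg_neg]
        rw [e, abs_mul, abs_pow, abs_neg, abs_one, one_pow, one_mul, abs_of_pos hp]
    rw [e]
    exact cheb_le_cheb h.le hx r

/-- Near `2` the growth is linear. -/
lemma cheb_near_two {τ : ℝ} {K : ℕ} (hτ : 0 ≤ τ) (hK : τ * ((2 * (K : ℝ) + 2) * K + 1) ≤ 1) :
    ∀ r ≤ K, cheb (2 + τ) r ≤ 2 * ((r : ℝ) + 1) := by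
  have key : ∀ r ≤ K, cheb (2 + τ) r ≤ 2 * ((r : ℝ) + 1) ∧
      cheb (2 + τ) (r + 1) - cheb (2 + τ) r ≤ 1 + τ + τ * ((2 * (K : ℝ) + 2) * r) := by
    intro r
    induction r with
    | zero => intro _; simp [cheb]; linarith
    | succ r ih =>
      intro hr
      obtain ⟨h1, h2⟩ := ih (by omega)
      have hr' : (r : ℝ) + 1 ≤ K := by exact_mod_cast hr
      have h3 : τ * ((2 * (K : ℝ) + 2) * r) ≤ τ * ((2 * (K : ℝ) + 2) * K) := by
        refine mul_le_mul_of_nonneg_left (mul_le_mul_of_nonneg_left (by linarith) ?_) hτ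
        positivity
      have h4 : cheb (2 + τ) (r + 1) ≤ 2 * (((r + 1 : ℕ) : ℝ) + 1) := by push_cast; linarith
      refine ⟨h4, ?_⟩
      have e : cheb (2 + τ) (r + 1 + 1) - cheb (2 + τ) (r + 1) =
          τ * cheb (2 + τ) (r + 1) + (cheb (2 + τ) (r + 1) - cheb (2 + τ) r) := by
        simp only [cheb]; ring
      rw [e]
      push_cast at h4 ⊢
      have := mul_le_mul_of_nonneg_left
        (h4.trans (show 2 * ((r : ℝ) + 1 + 1) ≤ 2 * (K : ℝ) + 2 by linarith)) hτ
      nlinarith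
  exact fun r hr => (key r hr).1

/-- Geometric growth. -/
lemma cheb_geom {x q : ℝ} (hq : 1 ≤ q) (hqx : q + 1 / q ≤ x) :
    ∀ r : ℕ, q ^ r ≤ cheb x r ∧ q * cheb x r ≤ cheb x (r + 1) := by
  have hq0 : 0 < q := by linarith
  have hx : 2 ≤ x := by
    refine le_trans ?_ hqx
    rw [← sub_nonneg, show q + 1 / q - 2 = (q - 1) ^ 2 / q by field_simp; ring]
    positivity
  have h2 : ∀ r : ℕ, q * cheb x r ≤ cheb x (r + 1) := by
    intro r
    induction r with
    | zero =>
      have : (0 : ℝ) < 1 / q := by positivity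
      simp [cheb]; linarith
    | succ r ih =>
      have hp := cheb_pos hx (r + 1)
      have h : cheb x r ≤ 1 / q * cheb x (r + 1) := by
        rw [div_mul_eq_mul_div, le_div_iff₀ hq0]; linarith
      have := mul_le_mul_of_nonneg_right hqx hp.le
      show _ ≤ x * cheb x (r + 1) - cheb x r
      linarith
  intro r
  refine ⟨?_, h2 r⟩
  induction r with
  | zero => simp [cheb]
  | succ r ih =>
    rw [pow_succ']
    exact (mul_le_mul_of_nonneg_left ih hq0.le).trans (h2 r)

lemma cheb_geom_upper {x q : ℝ} (hq : 1 ≤ q) (hqx : x = q + 1 / q) :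
    ∀ r : ℕ, cheb x r ≤ ((r : ℝ) + 1) * q ^ r := by
  have hq0 : q ≠ 0 := by intro h; linarith
  have key : ∀ r : ℕ, cheb x (r + 1) = q * cheb x r + (1 / q) ^ (r + 1) := by
    intro r
    induction r with
    | zero => simp [cheb, hqx]
    | succ r ih =>
      show x * cheb x (r + 1) - cheb x r = _
      rw [pow_succ' _ (r + 1), ih, hqx]
      field_simp
      ring
  intro r
  induction r with
  | zero => simp [cheb]
  | succ r ih =>
    rw [key]
    have h1 : (1 / q) ^ (r + 1) ≤ q ^ (r + 1) :=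
      pow_le_pow_left₀ (by positivity) (((div_le_one (by linarith)).2 hq).trans hq) _
    have h2 := mul_le_mul_of_nonneg_left ih (by linarith : (0 : ℝ) ≤ q)
    push_cast
    linarith [show q * (((r : ℝ) + 1) * q ^ r) = ((r : ℝ) + 1) * q ^ (r + 1) by ring]

lemma cheb_mul_le {x : ℝ} (hx : 2 ≤ x) (a b : ℕ) :
    cheb x a * cheb x b ≤ ((b : ℝ) + 1) * cheb x (a + b) := by
  set q := (x + Real.sqrt (x ^ 2 - 4)) / 2 with hq
  have hs : Real.sqrt (x ^ 2 - 4) ^ 2 = x ^ 2 - 4 := Real.sq_sqrt (by nlinarith)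
  have hq1 : 1 ≤ q := by
    rw [hq]; linarith [Real.sqrt_nonneg (x ^ 2 - 4)]
  have he : x = q + 1 / q := by
    have hq0 : q ≠ 0 := by intro h; linarith
    have hqq : q * q - x * q + 1 = 0 := by rw [hq]; linear_combination hs / 4
    field_simp
    linarith
  have h2 : q ^ b * cheb x a ≤ cheb x (a + b) := by
    induction b with
    | zero => simp
    | succ b ih =>
      rw [pow_succ', mul_assoc, ← add_assoc]
      exact (mul_le_mul_of_nonneg_left ih (by linarith)).trans (cheb_geom hq1 he.symm.le _).2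
  calc cheb x a * cheb x b ≤ cheb x a * (((b : ℝ) + 1) * q ^ b) :=
        mul_le_mul_of_nonneg_left (cheb_geom_upper hq1 he b) (cheb_pos hx a).le
    _ = ((b : ℝ) + 1) * (q ^ b * cheb x a) := by ring
    _ ≤ _ := mul_le_mul_of_nonneg_left h2 (by positivity)

/-! ### Recursions of vectors -/

variable {ι : Type*} [Fintype ι]

/-- The Chebyshev iterates of a linear map at a vector. -/
def chv (T : EuclideanSpace ℝ ι →ₗ[ℝ] EuclideanSpace ℝ ι) (v : EuclideanSpace ℝ ι) :
    ℕ → EuclideanSpace ℝ ι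
  | 0 => v
  | 1 => T v
  | r + 2 => T (chv T v (r + 1)) - chv T v r

variable {T : EuclideanSpace ℝ ι →ₗ[ℝ] EuclideanSpace ℝ ι} {m : ℕ}
  {hm : Module.finrank ℝ (EuclideanSpace ℝ ι) = m}

lemma repr_chv (hT : T.IsSymmetric) (v : EuclideanSpace ℝ ι) (i : Fin m) : ∀ r : ℕ,
    (hT.eigenvectorBasis hm).repr (chv T v r) i =
      cheb (hT.eigenvalues hm i) r * (hT.eigenvectorBasis hm).repr v i
  | 0 => by simp [chv, cheb]
  | 1 => by simp [chv, cheb, hT.eigenvectorBasis_apply_self_apply hm v i]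
  | r + 2 => by
      simp only [chv, cheb, map_sub, PiLp.sub_apply]
      rw [hT.eigenvectorBasis_apply_self_apply hm, repr_chv hT v i (r + 1), repr_chv hT v i r]
      simp only [RCLike.ofReal_real_eq_id, id_eq]
      ring

lemma norm_chv_le (hT : T.IsSymmetric) {L : ℝ} (hL : 2 ≤ L)
    (hev : ∀ i, |hT.eigenvalues hm i| ≤ L) (v : EuclideanSpace ℝ ι) (r : ℕ) :
    ‖chv T v r‖ ≤ cheb L r * ‖v‖ := by
  set b := hT.eigenvectorBasis hm
  rw [← b.repr.norm_map (chv T v r), ← b.repr.norm_map v]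
  have h0 := cheb_pos hL r
  refine (abs_le_of_sq_le_sq' ?_ (by positivity)).2
  rw [mul_pow, EuclideanSpace.norm_sq_eq, EuclideanSpace.norm_sq_eq, mul_sum]
  refine sum_le_sum fun i _ => ?_
  rw [repr_chv, norm_mul, mul_pow, Real.norm_eq_abs]
  exact mul_le_mul_of_nonneg_right (pow_le_pow_left₀ (abs_nonneg _) (abs_cheb_le hL (hev i) r) 2)
    (sq_nonneg _)

/-- A perturbed recursion: `x (r + 2) = T x (r + 1) - x r + e (r + 1)`. -/
lemma chv_duhamel (x e : ℕ → EuclideanSpace ℝ ι) (h1 : x 1 = T (x 0) + e 0)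
    (hs : ∀ r, x (r + 2) = T (x (r + 1)) - x r + e (r + 1)) : ∀ r : ℕ,
    x r = chv T (x 0) r + ∑ j ∈ range r, chv T (e j) (r - 1 - j)
  | 0 => by simp [chv]
  | 1 => by simp [chv, h1]
  | r + 2 => by
      rw [hs, chv_duhamel x e h1 hs (r + 1), chv_duhamel x e h1 hs r, map_add, map_sum]
      have e1 : ∑ j ∈ range (r + 2), chv T (e j) (r + 2 - 1 - j) =
          ∑ j ∈ range r, (T (chv T (e j) (r + 1 - 1 - j)) - chv T (e j) (r - 1 - j)) +
            T (e r) + e (r + 1) := by
        rw [sum_range_succ, sum_range_succ]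
        congr 1
        · congr 1
          · refine sum_congr rfl fun j hj => ?_
            obtain ⟨k, hk⟩ : ∃ k, r = j + 1 + k :=
              ⟨r - (j + 1), by have := mem_range.1 hj; omega⟩
            rw [show r + 2 - 1 - j = k + 2 by omega, show r + 1 - 1 - j = k + 1 by omega,
              show r - 1 - j = k by omega]
            rfl
          · rw [show r + 2 - 1 - r = 1 by omega]; rfl
        · rw [show r + 2 - 1 - (r + 1) = 0 by omega]; rfl
      have e2 : ∑ j ∈ range (r + 1), T (chv T (e j) (r + 1 - 1 - j)) =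
          ∑ j ∈ range r, T (chv T (e j) (r + 1 - 1 - j)) + T (e r) := by
        rw [sum_range_succ, show r + 1 - 1 - r = 0 by omega]; rfl
      rw [e1, e2, sum_sub_distrib]
      simp only [chv]
      abel

/-- With relative errors at most `δ` the iterates follow the Chebyshev ones. -/
theorem chv_stable (hT : T.IsSymmetric) {L : ℝ} (hL : 2 ≤ L)
    (hev : ∀ i, |hT.eigenvalues hm i| ≤ L) (x e : ℕ → EuclideanSpace ℝ ι)
    (h1 : x 1 = T (x 0) + e 0) (hs : ∀ r, x (r + 2) = T (x (r + 1)) - x r + e (r + 1))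
    {R : ℕ} {δ : ℝ} (hδ : 0 ≤ δ) (hδR : 4 * δ * ((R : ℝ) + 1) ^ 2 ≤ 1)
    (he : ∀ j < R, ∀ M, (∀ i ≤ j, ‖x i‖ ≤ M) → ‖e j‖ ≤ δ * M) : ∀ r ≤ R,
    ‖x r‖ ≤ 2 * cheb L r * ‖x 0‖ ∧ ‖x r - chv T (x 0) r‖ ≤ cheb L r * ‖x 0‖ / 2 := by
  intro r
  induction r using Nat.strong_induction_on with
  | _ r ih =>
    intro hr
    have hz := norm_nonneg (x 0)
    have hdiff : ‖x r - chv T (x 0) r‖ ≤ cheb L r * ‖x 0‖ / 2 := by
      rw [chv_duhamel x e h1 hs r, add_sub_cancel_left]
      refine (norm_sum_le _ _).trans ?_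
      have hterm : ∀ j ∈ range r, ‖chv T (e j) (r - 1 - j)‖ ≤
          2 * δ * ((R : ℝ) + 1) * cheb L r * ‖x 0‖ := by
        intro j hj
        have hjr := mem_range.1 hj
        have hb : ‖e j‖ ≤ δ * (2 * cheb L j * ‖x 0‖) := he j (by omega) _ fun i hi =>
          (ih i (by omega) (by omega)).1.trans
            (mul_le_mul_of_nonneg_right (by linarith [cheb_index_mono hL hi]) hz)
        have h2 := mul_le_mul_of_nonneg_left hb (cheb_pos hL (r - 1 - j)).le
        have h3 : cheb L (r - 1 - j) * cheb L j ≤ ((R : ℝ) + 1) * cheb L r := by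
          refine (cheb_mul_le hL _ _).trans (mul_le_mul ?_ (cheb_index_mono hL (by omega))
            (cheb_pos hL _).le (by positivity))
          have : (j : ℝ) ≤ R := by exact_mod_cast (by omega : j ≤ R)
          linarith
        have h4 := mul_le_mul_of_nonneg_left h3 (show 0 ≤ 2 * δ * ‖x 0‖ by positivity)
        exact (norm_chv_le hT hL hev _ _).trans (by linarith)
      refine (sum_le_card_nsmul _ _ _ hterm).trans ?_
      rw [card_range, nsmul_eq_mul]
      have h5 : (r : ℝ) ≤ R + 1 := by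
        have : (r : ℝ) ≤ R := by exact_mod_cast hr
        linarith
      have h6 := cheb_pos hL r
      have h7 := mul_le_mul_of_nonneg_right h5
        (show 0 ≤ 2 * δ * ((R : ℝ) + 1) * cheb L r * ‖x 0‖ by positivity)
      have h8 := mul_le_mul_of_nonneg_right hδR (show 0 ≤ cheb L r * ‖x 0‖ / 2 by positivity)
      nlinarith
    refine ⟨?_, hdiff⟩
    have := norm_chv_le hT hL hev (x 0) r
    have := norm_le_norm_add_norm_sub' (x r) (chv T (x 0) r)
    have := mul_nonneg (cheb_pos hL r).le hz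
    linarith

end Vale.Agent.P146.Super
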