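import Vale.Agent.P146.Super.NBTail
import Vale.Agent.P146.Super.NBCheb
import Mathlib.Analysis.Matrix.Spectrum

/-!
The good event and the norm of non-backtracking walk sums (module NB of the notes).
-/

namespace Vale.Agent.P146.Super

open MeasureTheory ProbabilityTheory Finset

noncomputable section

variable {n : ℕ} {g : Edge n → ℝ} {z : Fin n → ℝ}

lemma jmat_symm (g : Edge n → ℝ) (u l : Fin n) : jmat g u l = jmat g l u := by
  unfold jmat
  by_cases h : u = l
  · subst h; rfl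
  · rw [dif_neg h, dif_neg (Ne.symm h), mkEdge_symm]

lemma jmat_self (g : Edge n → ℝ) (u : Fin n) : jmat g u u = 0 := by simp [jmat]

/-- The couplings as a linear map. -/
def jop (g : Edge n → ℝ) : EuclideanSpace ℝ (Fin n) →ₗ[ℝ] EuclideanSpace ℝ (Fin n) :=
  Matrix.toEuclideanLin (Matrix.of (jmat g))

lemma jop_symmetric (g : Edge n → ℝ) : (jop g).IsSymmetric := by
  unfold jop
  refine Matrix.isSymmetric_toEuclideanLin_iff.2 ?_
  ext i j
  simp [jmat_symm g i j]

lemma jop_apply (g : Edge n → ℝ) (v : EuclideanSpace ℝ (Fin n)) (u : Fin n) :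
    jop g v u = ∑ l, jmat g u l * v l := by
  simp [jop, Matrix.toEuclideanLin, Matrix.toLin'_apply, Matrix.mulVec, dotProduct]

/-- Dropping one first step. -/
lemma nbw_succ_eq (g : Edge n → ℝ) (z : Fin n → ℝ) (r : ℕ) (p u : Fin n) :
    nbw g z (r + 1) p u = nbw g z (r + 1) u u - jmat g u p * nbw g z r u p := by
  have h : ∀ q : Fin n, nbw g z (r + 1) q u =
      (∑ l, jmat g u l * nbw g z r u l) - jmat g u q * nbw g z r u q := by
    intro q
    show (∑ l, if l = q then 0 else jmat g u l * nbw g z r u l) = _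
    rw [← add_sum_erase univ (fun l => if l = q then 0 else jmat g u l * nbw g z r u l) (mem_univ q),
      ← add_sum_erase univ (fun l => jmat g u l * nbw g z r u l) (mem_univ q)]
    rw [sum_congr rfl fun l hl => if_neg (ne_of_mem_erase hl)]
    simp
  rw [h p, h u, jmat_self]
  ring

lemma nbw_succ_self (g : Edge n → ℝ) (z : Fin n → ℝ) (r : ℕ) (u : Fin n) :
    nbw g z (r + 1) u u = ∑ l, jmat g u l * nbw g z r u l := by
  show (∑ l, if l = u then 0 else jmat g u l * nbw g z r u l) = _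
  refine sum_congr rfl fun l _ => ?_
  by_cases hl : l = u
  · subst hl; simp [jmat_self]
  · rw [if_neg hl]

/-- The walk sums as a vector. -/
def nbv (g : Edge n → ℝ) (z : Fin n → ℝ) (r : ℕ) : EuclideanSpace ℝ (Fin n) :=
  WithLp.toLp 2 fun u => nbw g z r u u

/-- The deviation from the Chebyshev recursion. -/
def nbe (g : Edge n → ℝ) (z : Fin n → ℝ) : ℕ → EuclideanSpace ℝ (Fin n)
  | 0 => 0
  | 1 => WithLp.toLp 2 fun u => (1 - ∑ l, jmat g u l ^ 2) * nbw g z 0 u u
  | s + 2 => WithLp.toLp 2 fun u => (1 - ∑ l, jmat g u l ^ 2) * nbw g z (s + 1) u u +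
      ∑ l, jmat g u l ^ 3 * nbw g z s u l

lemma nbv_one (g : Edge n → ℝ) (z : Fin n → ℝ) :
    nbv g z 1 = jop g (nbv g z 0) + nbe g z 0 := by
  ext u
  simp only [nbv, nbe, add_zero, jop_apply]
  rw [nbw_succ_self]
  rfl

lemma nbv_step (g : Edge n → ℝ) (z : Fin n → ℝ) : ∀ r,
    nbv g z (r + 2) = jop g (nbv g z (r + 1)) - nbv g z r + nbe g z (r + 1) := by
  intro r
  ext u
  simp only [nbv, PiLp.add_apply, PiLp.sub_apply, jop_apply]
  rw [nbw_succ_self]
  have h : ∑ l, jmat g u l * nbw g z (r + 1) u l =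
      ∑ l, jmat g u l * nbw g z (r + 1) l l - ∑ l, jmat g u l ^ 2 * nbw g z r l u := by
    rw [← sum_sub_distrib]
    refine sum_congr rfl fun l _ => ?_
    rw [nbw_succ_eq g z r u l, jmat_symm g l u]
    ring
  rw [h]
  rcases r with _ | s
  · have h0 : ∀ l, nbw g z 0 l u = nbw g z 0 u u := fun l => rfl
    simp only [nbe, h0, ← sum_mul]
    ring
  · have h1 : ∑ l, jmat g u l ^ 2 * nbw g z (s + 1) l u =
        (∑ l, jmat g u l ^ 2) * nbw g z (s + 1) u u - ∑ l, jmat g u l ^ 3 * nbw g z s u l := by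
      rw [sum_mul, ← sum_sub_distrib]
      refine sum_congr rfl fun l _ => ?_
      rw [nbw_succ_eq g z s l u]
      ring
    rw [h1]
    simp only [nbe]
    ring

lemma sq_nbv (g : Edge n → ℝ) (z : Fin n → ℝ) (r : ℕ) :
    ‖nbv g z r‖ ^ 2 = ∑ u, nbw g z r u u ^ 2 := by
  rw [EuclideanSpace.norm_sq_eq]
  simp [nbv]

/-- The weighted second moment of the restricted sums. -/
lemma sum_jz_le {a : ℝ} (ha0 : 0 ≤ a) (ha : a ≤ 1 / 4) (hj : ∀ u l, |jmat g u l| ≤ a)
    (hd : ∀ u, |∑ l, jmat g u l ^ 2 - 1| ≤ a) :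
    ∀ r M, (∀ i ≤ r, ‖nbv g z i‖ ≤ M) →
      ∑ u, ∑ l, (jmat g u l * nbw g z r u l) ^ 2 ≤ 8 * M ^ 2 := by
  have hrow : ∀ u, ∑ l, jmat g u l ^ 2 ≤ 2 := fun u => by linarith [(abs_le.1 (hd u)).2]
  have hfirst : ∀ i M, ‖nbv g z i‖ ≤ M →
      ∑ u, ∑ l, jmat g u l ^ 2 * nbw g z i l l ^ 2 ≤ 2 * M ^ 2 := by
    intro i M hM
    rw [sum_comm]
    have h1 : ∑ l, ∑ u, jmat g u l ^ 2 * nbw g z i l l ^ 2 ≤ ∑ l, 2 * nbw g z i l l ^ 2 := by
      refine sum_le_sum fun l _ => ?_
      rw [← sum_mul]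
      refine mul_le_mul_of_nonneg_right ?_ (sq_nonneg _)
      exact (sum_congr rfl fun u _ => by rw [jmat_symm g u l]).trans_le (hrow l)
    rw [← mul_sum, ← sq_nbv] at h1
    linarith [pow_le_pow_left₀ (norm_nonneg _) hM 2]
  intro r
  induction r with
  | zero =>
    intro M hM
    have h : ∀ u l, (jmat g u l * nbw g z 0 u l) ^ 2 = jmat g u l ^ 2 * nbw g z 0 l l ^ 2 :=
      fun u l => by rw [mul_pow]; rfl
    simp only [h]
    exact (hfirst 0 M (hM 0 le_rfl)).trans (by linarith [sq_nonneg M])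
  | succ r ih =>
    intro M hM
    have ih' := ih M fun i hi => hM i (by omega)
    calc ∑ u, ∑ l, (jmat g u l * nbw g z (r + 1) u l) ^ 2
        ≤ ∑ u, ∑ l, (2 * (jmat g u l ^ 2 * nbw g z (r + 1) l l ^ 2) +
            2 * a ^ 2 * (jmat g l u * nbw g z r l u) ^ 2) := by
          refine sum_le_sum fun u _ => sum_le_sum fun l _ => ?_
          rw [nbw_succ_eq g z r u l]
          have h1 := pow_le_pow_left₀ (abs_nonneg _) (hj u l) 2
          rw [sq_abs] at h1
          have h2 := mul_le_mul_of_nonneg_right h1 (sq_nonneg (jmat g l u * nbw g z r l u))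
          nlinarith [sq_nonneg (jmat g u l * nbw g z (r + 1) l l +
            jmat g u l * (jmat g l u * nbw g z r l u))]
      _ ≤ 2 * (2 * M ^ 2) + 2 * a ^ 2 * (8 * M ^ 2) := by
          simp only [sum_add_distrib, ← mul_sum]
          refine add_le_add (mul_le_mul_of_nonneg_left (hfirst _ M (hM _ le_rfl)) zero_le_two)
            (mul_le_mul_of_nonneg_left ?_ (by positivity))
          rw [sum_comm]
          exact ih'
      _ ≤ 8 * M ^ 2 := by
          have : a ^ 2 ≤ (1 / 4) ^ 2 := pow_le_pow_left₀ ha0 ha 2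
          nlinarith [sq_nonneg M]

lemma nbe_bound {a : ℝ} (ha0 : 0 ≤ a) (ha : a ≤ 1 / 4) (hj : ∀ u l, |jmat g u l| ≤ a)
    (hd : ∀ u, |∑ l, jmat g u l ^ 2 - 1| ≤ a) :
    ∀ j M, (∀ i ≤ j, ‖nbv g z i‖ ≤ M) → ‖nbe g z j‖ ≤ 5 * a * M := by
  intro j M hM
  have hM0 : 0 ≤ M := (norm_nonneg _).trans (hM 0 (Nat.zero_le _))
  have hfirst : ∀ i ≤ j, ‖(WithLp.toLp 2 fun u =>
      (1 - ∑ l, jmat g u l ^ 2) * nbw g z i u u : EuclideanSpace ℝ (Fin n))‖ ≤ a * M := by
    intro i hi
    refine (abs_le_of_sq_le_sq' ?_ (by positivity)).2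
    rw [EuclideanSpace.norm_sq_eq]
    calc ∑ u, ‖(1 - ∑ l, jmat g u l ^ 2) * nbw g z i u u‖ ^ 2
        ≤ ∑ u, a ^ 2 * nbw g z i u u ^ 2 := by
          refine sum_le_sum fun u _ => ?_
          rw [Real.norm_eq_abs, sq_abs, mul_pow]
          refine mul_le_mul_of_nonneg_right ?_ (sq_nonneg _)
          rw [← sq_abs, abs_sub_comm]
          exact pow_le_pow_left₀ (abs_nonneg _) (hd u) 2
      _ ≤ (a * M) ^ 2 := by
          rw [← mul_sum, ← sq_nbv, mul_pow]
          exact mul_le_mul_of_nonneg_left (pow_le_pow_left₀ (norm_nonneg _) (hM i hi) 2) (sq_nonneg _)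
  rcases j with _ | _ | s
  · simp only [nbe, norm_zero]; positivity
  · exact (hfirst 0 (Nat.zero_le _)).trans (by linarith [mul_nonneg ha0 hM0])
  · have h2 : ‖(WithLp.toLp 2 fun u => ∑ l, jmat g u l ^ 3 * nbw g z s u l :
        EuclideanSpace ℝ (Fin n))‖ ≤ 4 * a * M := by
      refine (abs_le_of_sq_le_sq' ?_ (by positivity)).2
      rw [EuclideanSpace.norm_sq_eq]
      calc ∑ u, ‖∑ l, jmat g u l ^ 3 * nbw g z s u l‖ ^ 2
          ≤ ∑ u, 2 * a ^ 2 * ∑ l, (jmat g u l * nbw g z s u l) ^ 2 := by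
            refine sum_le_sum fun u _ => ?_
            rw [Real.norm_eq_abs, sq_abs]
            have hcs := sum_mul_sq_le_sq_mul_sq univ (fun l => jmat g u l ^ 2)
              (fun l => jmat g u l * nbw g z s u l)
            refine le_trans (le_of_eq ?_) (hcs.trans (mul_le_mul_of_nonneg_right ?_
              (sum_nonneg fun l _ => sq_nonneg _)))
            · congr 1; exact sum_congr rfl fun l _ => by ring
            · calc ∑ l, (jmat g u l ^ 2) ^ 2 ≤ ∑ l, a ^ 2 * jmat g u l ^ 2 := by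
                    refine sum_le_sum fun l _ => ?_
                    rw [pow_two (jmat g u l ^ 2)]
                    refine mul_le_mul_of_nonneg_right ?_ (sq_nonneg _)
                    rw [← sq_abs]
                    exact pow_le_pow_left₀ (abs_nonneg _) (hj u l) 2
                _ ≤ 2 * a ^ 2 := by
                    rw [← mul_sum]
                    nlinarith [(abs_le.1 (hd u)).2, sq_nonneg a]
        _ ≤ (4 * a * M) ^ 2 := by
            rw [← mul_sum]
            have := mul_le_mul_of_nonneg_left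
              (sum_jz_le (z := z) ha0 ha hj hd s M fun i hi => hM i (by omega))
              (show 0 ≤ 2 * a ^ 2 by positivity)
            linarith
    have e : nbe g z (s + 1 + 1) =
        (WithLp.toLp 2 fun u => (1 - ∑ l, jmat g u l ^ 2) * nbw g z (s + 1) u u :
          EuclideanSpace ℝ (Fin n)) +
        WithLp.toLp 2 fun u => ∑ l, jmat g u l ^ 3 * nbw g z s u l := by
      ext u
      simp [nbe]
    rw [e]
    exact (norm_add_le _ _).trans (by linarith [hfirst (s + 1) (by omega)])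

lemma nbw_linear (g : Edge n → ℝ) (z : Fin n → ℝ) : ∀ r p u,
    nbw g z r p u = ∑ y, z y * nbw g (Pi.single y 1) r p u := by
  intro r
  induction r with
  | zero => intro p u; simp [nbw, Pi.single_apply]
  | succ r ih =>
    intro p u
    simp only [nbw, mul_sum]
    rw [sum_comm]
    refine sum_congr rfl fun l _ => ?_
    by_cases h : l = p
    · simp [h]
    · simp only [if_neg h]
      rw [ih u l, mul_sum]
      exact sum_congr rfl fun y _ => by ring

/-- The squared Frobenius norm of the walk sums. -/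
def nbFrob (n r : ℕ) (g : Edge n → ℝ) : ℝ :=
  ∑ x, ∑ y, nbw g (Pi.single y 1) r x x ^ 2

lemma sq_nbv_le_frob (g : Edge n → ℝ) (z : Fin n → ℝ) (r : ℕ) :
    ‖nbv g z r‖ ^ 2 ≤ nbFrob n r g * ∑ u, z u ^ 2 := by
  rw [sq_nbv, nbFrob, sum_mul]
  refine sum_le_sum fun x _ => ?_
  rw [nbw_linear, mul_comm (∑ y, _)]
  exact sum_mul_sq_le_sq_mul_sq univ z _

lemma abs_cheb_eq {x : ℝ} (hx : 2 ≤ |x|) (r : ℕ) : |cheb x r| = cheb |x| r := by
  have hp := cheb_pos hx r
  rcases abs_choice x with h | h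
  · rw [h] at hp ⊢
    exact abs_of_pos hp
  · rw [h] at hp ⊢
    rw [cheb_neg, ← abs_of_pos (show 0 < (-1) ^ r * cheb x r by rwa [← cheb_neg]), abs_mul, abs_pow,
      abs_neg, abs_one, one_pow, one_mul]

lemma chv_eigen {ι : Type*} [Fintype ι] {T : EuclideanSpace ℝ ι →ₗ[ℝ] EuclideanSpace ℝ ι}
    {v : EuclideanSpace ℝ ι} {lam : ℝ} (h : T v = lam • v) : ∀ r : ℕ, chv T v r = cheb lam r • v
  | 0 => by simp [chv, cheb]
  | 1 => by simp [chv, cheb, h]
  | r + 2 => by
      simp only [chv, cheb, chv_eigen h r, chv_eigen h (r + 1), map_smul, h, smul_smul]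
      rw [← sub_smul, mul_comm lam]

/-- The norm of the walk sums on a good configuration. -/
theorem nbw_bound_of_good {K : ℕ} (hK : 5 ≤ K) (hlog : Real.log n ≤ (K : ℝ) ^ 2)
    (hj : ∀ u l, |jmat g u l| ≤ 1 / (K : ℝ) ^ 20)
    (hd : ∀ u, |∑ l, jmat g u l ^ 2 - 1| ≤ 1 / (K : ℝ) ^ 20)
    (hF : nbFrob n (16 * K ^ 3) g ≤ n * Real.exp ((K : ℝ) ^ 2 / 4)) :
    ∀ r ≤ K, ∀ z : Fin n → ℝ,
      ∑ u, nbw g z r u u ^ 2 ≤ (4 * ((r : ℝ) + 1)) ^ 2 * ∑ u, z u ^ 2 := by
  have hKr : (5 : ℝ) ≤ K := by exact_mod_cast hK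
  set a : ℝ := 1 / (K : ℝ) ^ 20 with hadef
  have hK20 : (5 : ℝ) ^ 20 ≤ (K : ℝ) ^ 20 := pow_le_pow_left₀ (by norm_num) hKr 20
  have ha0 : 0 ≤ a := by positivity
  have ha : a ≤ 1 / 4 := by
    rw [hadef]
    gcongr
    linarith
  set R := 16 * K ^ 3 with hR
  set τ : ℝ := 1 / (8 * (K : ℝ) ^ 2) with hτ
  have hτ0 : 0 ≤ τ := by positivity
  have hδR : 4 * (5 * a) * ((R : ℝ) + 1) ^ 2 ≤ 1 := by
    have h1 : ((R : ℝ) + 1) ^ 2 ≤ (17 * (K : ℝ) ^ 3) ^ 2 := by
      refine pow_le_pow_left₀ (by positivity) ?_ 2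
      rw [hR]; push_cast
      linarith [one_le_pow₀ (show (1 : ℝ) ≤ K by linarith) (n := 3)]
    have h2 : (5780 : ℝ) * (K : ℝ) ^ 6 ≤ (K : ℝ) ^ 20 := by
      rw [show (K : ℝ) ^ 20 = (K : ℝ) ^ 14 * (K : ℝ) ^ 6 by ring]
      refine mul_le_mul_of_nonneg_right ?_ (by positivity)
      exact le_trans (by norm_num) (pow_le_pow_left₀ (by norm_num) hKr 14)
    calc 4 * (5 * a) * ((R : ℝ) + 1) ^ 2 ≤ 4 * (5 * a) * (17 * (K : ℝ) ^ 3) ^ 2 := by gcongr
      _ = 5780 * (K : ℝ) ^ 6 / (K : ℝ) ^ 20 := by rw [hadef]; ring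
      _ ≤ 1 := (div_le_one (by positivity)).2 h2
  set hT := jop_symmetric g
  set hm := finrank_euclideanSpace_fin (𝕜 := ℝ) (n := n)
  -- no eigenvalue beyond `2 + τ`
  have hev : ∀ i, |hT.eigenvalues hm i| ≤ 2 + τ := by
    by_contra hno
    push Not at hno
    obtain ⟨i₀, hi₀⟩ := hno
    obtain ⟨i, -, hi⟩ := exists_max_image univ (fun i => |hT.eigenvalues hm i|) ⟨i₀, mem_univ _⟩
    set L := |hT.eigenvalues hm i| with hL
    have hL2 : 2 + τ ≤ L := hi₀.le.trans (hi i₀ (mem_univ _))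
    set v := hT.eigenvectorBasis hm i
    have hv : ‖v‖ = 1 := (hT.eigenvectorBasis hm).orthonormal.1 i
    have hTv : jop g v = hT.eigenvalues hm i • v := by
      exact hT.apply_eigenvectorBasis hm i
    have hx0 : nbv g (fun u => v u) 0 = v := by
      ext u; simp [nbv, nbw]
    have h := (chv_stable hT (L := L) (by linarith) (fun j => hi j (mem_univ _))
      (fun r => nbv g (fun u => v u) r) (fun r => nbe g (fun u => v u) r) (nbv_one _ _)
      (nbv_step _ _) (R := R) (δ := 5 * a) (by positivity) hδR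
      (fun j _ M hM => nbe_bound ha0 ha hj hd j M hM) R le_rfl).2
    rw [hx0, hv, mul_one, chv_eigen hTv] at h
    have h1 : ‖cheb (hT.eigenvalues hm i) R • v‖ = cheb L R := by
      rw [norm_smul, hv, mul_one, Real.norm_eq_abs, abs_cheb_eq (by linarith) R]
    have h2 : cheb L R / 2 ≤ ‖nbv g (fun u => v u) R‖ := by
      have h3 := norm_le_norm_add_norm_sub' (cheb (hT.eigenvalues hm i) R • v)
        (nbv g (fun u => v u) R)
      rw [h1, norm_sub_rev] at h3
      linarith
    have h4 : Real.exp (4 * (K : ℝ) ^ 2) ≤ cheb L R := by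
      refine le_trans ?_ ((cheb_geom (x := 2 + τ) (q := 1 + 1 / (3 * (K : ℝ))) ?_ ?_ R).1.trans
        (cheb_le_cheb (by linarith) hL2 R))
      · rw [← Real.exp_log (show 0 < 1 + 1 / (3 * (K : ℝ)) by positivity), ← Real.exp_nat_mul]
        refine Real.exp_le_exp.2 ?_
        have h5 := Real.one_sub_inv_le_log_of_pos (show 0 < 1 + 1 / (3 * (K : ℝ)) by positivity)
        have h6 : 1 / (4 * (K : ℝ)) ≤ 1 - (1 + 1 / (3 * (K : ℝ)))⁻¹ := by
          rw [show 1 - (1 + 1 / (3 * (K : ℝ)))⁻¹ = 1 / (3 * K + 1) by field_simp; ring]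
          gcongr
          linarith
        refine le_trans (le_of_eq ?_) (mul_le_mul_of_nonneg_left (h6.trans h5) (Nat.cast_nonneg _))
        rw [hR]; push_cast; field_simp; ring
      · exact le_add_of_nonneg_right (by positivity)
      · rw [hτ]
        have hK0 : (0 : ℝ) < K := by linarith
        rw [← sub_nonneg, show 2 + 1 / (8 * (K : ℝ) ^ 2) -
            (1 + 1 / (3 * (K : ℝ)) + 1 / (1 + 1 / (3 * (K : ℝ)))) =
            (1 / (8 * (K : ℝ) ^ 2) - 1 / (3 * (K : ℝ) * (3 * K + 1))) by field_simp; ring,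
          sub_nonneg]
        exact one_div_le_one_div_of_le (by positivity) (by nlinarith)
    have h7 := pow_le_pow_left₀ (by linarith [cheb_pos (show 2 ≤ L by linarith) R]) h2 2
    have hnorm : ∑ u, v u ^ 2 = 1 := by
      have e := EuclideanSpace.norm_sq_eq (x := v)
      rw [hv] at e
      simp only [Real.norm_eq_abs, sq_abs] at e
      linarith
    have h8 := h7.trans (sq_nbv_le_frob g (fun u => v u) R)
    rw [hnorm, mul_one] at h8
    have h9 := pow_le_pow_left₀ (Real.exp_pos _).le h4 2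
    have h10 : (n : ℝ) ≤ Real.exp ((K : ℝ) ^ 2) := by
      rcases Nat.eq_zero_or_pos n with h0 | h0
      · subst h0; exact Fin.elim0 i
      · rw [← Real.exp_log (show (0 : ℝ) < n by exact_mod_cast h0)]
        exact Real.exp_le_exp.2 hlog
    have h11 : 4 * (Real.exp ((K : ℝ) ^ 2) * Real.exp ((K : ℝ) ^ 2 / 4)) <
        Real.exp (4 * (K : ℝ) ^ 2) ^ 2 := by
      have h12 : (4 : ℝ) < Real.exp ((K : ℝ) ^ 2) := by
        have := Real.add_one_le_exp ((K : ℝ) ^ 2)
        nlinarith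
      rw [← Real.exp_nat_mul, ← Real.exp_add]
      calc 4 * Real.exp ((K : ℝ) ^ 2 + (K : ℝ) ^ 2 / 4)
          < Real.exp ((K : ℝ) ^ 2) * Real.exp ((K : ℝ) ^ 2 + (K : ℝ) ^ 2 / 4) :=
            mul_lt_mul_of_pos_right h12 (Real.exp_pos _)
        _ ≤ _ := by
            rw [← Real.exp_add]
            refine Real.exp_le_exp.2 ?_
            push_cast
            nlinarith
    have h13 := mul_le_mul_of_nonneg_right h10 (Real.exp_pos ((K : ℝ) ^ 2 / 4)).le
    rw [div_pow] at h8
    linarith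
  intro r hr z
  have hrR : r ≤ R := hr.trans ((Nat.le_self_pow (show (3 : ℕ) ≠ 0 by norm_num) K).trans (by omega))
  have h := (chv_stable hT (L := 2 + τ) (by linarith) hev (nbv g z) (nbe g z) (nbv_one g z)
    (nbv_step g z) (R := R) (δ := 5 * a) (by positivity) hδR
    (fun j _ M hM => nbe_bound ha0 ha hj hd j M hM) r hrR).1
  have hτK : τ * ((2 * (K : ℝ) + 2) * K + 1) ≤ 1 := by
    rw [hτ, div_mul_eq_mul_div, div_le_one (by positivity)]
    nlinarith
  have hc := cheb_near_two hτ0 hτK r hr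
  have h' : ‖nbv g z r‖ ≤ 4 * ((r : ℝ) + 1) * ‖nbv g z 0‖ :=
    h.trans (mul_le_mul_of_nonneg_right (by linarith) (norm_nonneg _))
  calc ∑ u, nbw g z r u u ^ 2 = ‖nbv g z r‖ ^ 2 := (sq_nbv g z r).symm
    _ ≤ (4 * ((r : ℝ) + 1) * ‖nbv g z 0‖) ^ 2 := pow_le_pow_left₀ (norm_nonneg _) h' 2
    _ = _ := by rw [mul_pow, sq_nbv]; rfl

/-! ### Probability of the good event -/

lemma measurable_nbw (z : Fin n → ℝ) : ∀ r p u,
    Measurable fun g : Edge n → ℝ => nbw g z r p u := by
  intro r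
  induction r with
  | zero => intro p u; exact measurable_const
  | succ r ih =>
    intro p u
    refine Finset.measurable_sum _ fun l _ => ?_
    by_cases h : l = p
    · simp [h]
    · simp only [if_neg h]
      refine Measurable.mul ?_ (ih u l)
      unfold jmat
      by_cases h' : u = l
      · simp [h']
      · simp only [dif_neg h']
        exact (measurable_pi_apply _).div_const _

lemma memLp_jmat (u l : Fin n) (p : NNReal) :
    MemLp (fun g : Edge n → ℝ => jmat g u l) (p : ENNReal) (law n) := by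
  unfold jmat
  by_cases h : u = l
  · simp only [dif_pos h]
    exact memLp_const 0
  · simp only [dif_neg h, div_eq_inv_mul]
    exact ((memLp_id_gaussianReal p).comp_measurePreserving
      (measurePreserving_eval (fun _ : Edge n => gaussianReal 0 1) (mkEdge u l h))).const_mul _

lemma memLp_nbw (z : Fin n → ℝ) : ∀ r p u (q : NNReal),
    MemLp (fun g : Edge n → ℝ => nbw g z r p u) (q : ENNReal) (law n) := by
  intro r
  induction r with
  | zero => intro p u q; exact memLp_const _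
  | succ r ih =>
    intro p u q
    refine memLp_finsetSum _ fun l _ => ?_
    by_cases h : l = p
    · simp [h]
    · simp only [if_neg h]
      have : ((2 * q : NNReal) : ENNReal).HolderTriple ((2 * q : NNReal) : ENNReal) (q : ENNReal) := by
        constructor
        push_cast
        rw [← two_mul, ENNReal.mul_inv (by simp) (by simp), ← mul_assoc,
          ENNReal.mul_inv_cancel (by simp) (by simp), one_mul]
      exact (ih u l (2 * q)).mul (memLp_jmat u l (2 * q))

lemma integrable_nbw_sq (z : Fin n → ℝ) (r : ℕ) (p u : Fin n) :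
    Integrable (fun g : Edge n → ℝ => nbw g z r p u ^ 2) (law n) :=
  (memLp_nbw z r p u 2).integrable_sq

/-- The good event: on it the walk sums are bounded as for the free recursion. -/
theorem exists_good_set {K : ℕ} (hK : 5 ≤ K) (hn : (K : ℝ) ^ 300 ≤ n)
    (hlog : Real.log n ≤ (K : ℝ) ^ 2)
    (hin : ∀ r ≤ 16 * K ^ 3,
      ∑ x : Fin n, ∑ y : Fin n, ∫ g, nbw g (Pi.single y 1) r x x ^ 2 ∂law n ≤ 4 * n) :
    ∃ S : Set (Edge n → ℝ), MeasurableSet S ∧
      (law n).real Sᶜ ≤ Real.exp (-(K : ℝ) ^ 2 / 8) ∧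
      ∀ g ∈ S, ∀ r ≤ K, ∀ z : Fin n → ℝ,
        ∑ u, nbw g z r u u ^ 2 ≤ (4 * ((r : ℝ) + 1)) ^ 2 * ∑ u, z u ^ 2 := by
  classical
  have hKr : (5 : ℝ) ≤ K := by exact_mod_cast hK
  have hK1 : (1 : ℝ) ≤ K := by linarith
  have hn0 : (0 : ℝ) < n := lt_of_lt_of_le (by positivity) hn
  set a : ℝ := 1 / (K : ℝ) ^ 20 with hadef
  have ha0 : 0 < a := by positivity
  set A := ⋂ e : Edge n, {g : Edge n → ℝ | |g e| ≤ (K : ℝ) ^ 3} with hA
  set D := ⋂ u : Fin n, {g : Edge n → ℝ | |∑ l, jmat g u l ^ 2 - 1| ≤ a} with hD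
  set thr : ℝ := n * Real.exp ((K : ℝ) ^ 2 / 4) with hthr
  set F := {g : Edge n → ℝ | nbFrob n (16 * K ^ 3) g ≤ thr} with hF
  have hjm : ∀ u l, Measurable fun g : Edge n → ℝ => jmat g u l := fun u l => by
    unfold jmat
    by_cases h : u = l
    · simp [h]
    · simp only [dif_neg h]; exact (measurable_pi_apply _).div_const _
  have hFm : Measurable fun g : Edge n → ℝ => nbFrob n (16 * K ^ 3) g := by
    unfold nbFrob
    exact Finset.measurable_sum _ fun x _ => Finset.measurable_sum _ fun y _ =>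
      (measurable_nbw _ _ _ _).pow_const 2
  refine ⟨A ∩ D ∩ F, ?_, ?_, ?_⟩
  · refine ((MeasurableSet.iInter fun e => measurableSet_le
      (measurable_pi_apply e).abs measurable_const).inter
      (MeasurableSet.iInter fun u => measurableSet_le
        ((Finset.measurable_sum _ fun l _ => (hjm u l).pow_const 2).sub_const 1).abs measurable_const)).inter
      (measurableSet_le hFm measurable_const)
  · have h1 : (law n).real Aᶜ ≤ (n : ℝ) ^ 2 * (2 * Real.exp (1 - ((K : ℝ) ^ 3) ^ 2 / 8)) := by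
      have hsub : Aᶜ ⊆ ⋃ e ∈ (univ : Finset (Edge n)), {g : Edge n → ℝ | (K : ℝ) ^ 3 ≤ |g e|} := by
        intro g hg
        simp only [hA, Set.mem_compl_iff, Set.mem_iInter, Set.mem_ofPred_eq, not_forall, not_le] at hg
        obtain ⟨e, he⟩ := hg
        exact Set.mem_iUnion₂.2 ⟨e, mem_univ e, he.le⟩
      refine (measureReal_mono hsub (measure_ne_top _ _)).trans ((measureReal_biUnion_finset_le _ _).trans
        ((sum_le_card_nsmul _ _ _ fun e _ => law_abs_large (one_le_pow₀ hK1) e).trans ?_))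
      rw [card_univ, nsmul_eq_mul]
      exact mul_le_mul_of_nonneg_right card_edges_le (by positivity)
    have han : 2 ≤ a * n := by
      rw [hadef, div_mul_eq_mul_div, le_div_iff₀ (by positivity), one_mul]
      have h280 : (5 : ℝ) ≤ (K : ℝ) ^ 280 := hKr.trans (le_self_pow₀ hK1 (by norm_num))
      have := mul_le_mul_of_nonneg_right h280 (pow_nonneg (by linarith : (0 : ℝ) ≤ K) 20)
      linarith [show (K : ℝ) ^ 280 * (K : ℝ) ^ 20 = (K : ℝ) ^ 300 by ring,
        show (0 : ℝ) ≤ (K : ℝ) ^ 20 by positivity]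
    have h2 : (law n).real Dᶜ ≤ n * (2 * Real.exp (-(a ^ 2 * n) / 64)) := by
      have hsub : Dᶜ ⊆ ⋃ u ∈ (univ : Finset (Fin n)),
          {g : Edge n → ℝ | a * n / 2 ≤ |∑ e ∈ univ.filter (inc u), (g e ^ 2 - 1)|} := by
        intro g hg
        simp only [hD, Set.mem_compl_iff, Set.mem_iInter, Set.mem_ofPred_eq, not_forall, not_le] at hg
        obtain ⟨u, hu⟩ := hg
        refine Set.mem_iUnion₂.2 ⟨u, mem_univ u, ?_⟩
        simp only [Set.mem_ofPred_eq, sum_sub_distrib, sum_const, card_inc, nsmul_eq_mul, mul_one]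
        rw [row_sum] at hu
        set S := ∑ e ∈ univ.filter (inc u), g e ^ 2
        have h3 : a * n < |S - n| := by
          rw [div_sub_one hn0.ne', abs_div, abs_of_pos hn0, lt_div_iff₀ hn0] at hu
          exact hu
        have hn1 : ((n - 1 : ℕ) : ℝ) = n - 1 := by
          rw [Nat.cast_sub (by exact_mod_cast (show (1 : ℝ) ≤ n by
            linarith [one_le_pow₀ hK1 (n := 300)]))]
          simp
        rw [hn1]
        have h4 := abs_sub_abs_le_abs_sub (S - n) (S - (n - 1))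
        have h5 : |S - n - (S - (n - 1))| = 1 := by
          rw [show S - n - (S - (n - 1)) = -1 by ring]; norm_num
        linarith
      have hb : ∀ u ∈ (univ : Finset (Fin n)),
          (law n).real {g : Edge n → ℝ | a * n / 2 ≤ |∑ e ∈ univ.filter (inc u), (g e ^ 2 - 1)|} ≤
            2 * Real.exp (-(a ^ 2 * n) / 64) := by
        intro u _
        have h20 : (1 : ℝ) ≤ (K : ℝ) ^ 20 := one_le_pow₀ hK1
        have ha1 : a ≤ 1 := by rw [hadef]; exact (div_le_one (by positivity)).2 h20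
        refine (law_sum_sq_tail _ (a := a / 16) (by positivity) (by linarith) _).trans
          (mul_le_mul_of_nonneg_left (Real.exp_le_exp.2 ?_) zero_le_two)
        rw [card_inc]
        have hn1 : ((n - 1 : ℕ) : ℝ) ≤ n := by exact_mod_cast Nat.sub_le n 1
        have := mul_le_mul_of_nonneg_left hn1 (sq_nonneg (a / 16))
        linarith
      refine (measureReal_mono hsub (measure_ne_top _ _)).trans ((measureReal_biUnion_finset_le _ _).trans
        ((sum_le_card_nsmul _ _ _ hb).trans ?_))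
      rw [card_univ, Fintype.card_fin, nsmul_eq_mul]
    have h3 : (law n).real Fᶜ ≤ 4 * Real.exp (-(K : ℝ) ^ 2 / 4) := by
      have hi : Integrable (fun g : Edge n → ℝ => nbFrob n (16 * K ^ 3) g) (law n) :=
        integrable_finsetSum _ fun x _ => integrable_finsetSum _ fun y _ =>
          integrable_nbw_sq _ _ _ _
      have hint : ∫ g, nbFrob n (16 * K ^ 3) g ∂law n ≤ 4 * n := by
        unfold nbFrob
        rw [integral_finsetSum _ fun x _ => integrable_finsetSum _ fun y _ =>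
          integrable_nbw_sq _ _ _ _]
        refine le_trans (le_of_eq (sum_congr rfl fun x _ => ?_)) (hin _ le_rfl)
        exact integral_finsetSum _ fun y _ => integrable_nbw_sq _ _ _ _
      have h := (mul_meas_ge_le_integral_of_nonneg (μ := law n)
        (ae_of_all _ fun g => show 0 ≤ nbFrob n (16 * K ^ 3) g from
          sum_nonneg fun x _ => sum_nonneg fun y _ => sq_nonneg _) hi thr).trans hint
      have hsub : (law n).real Fᶜ ≤ (law n).real {g | thr ≤ nbFrob n (16 * K ^ 3) g} := by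
        refine measureReal_mono fun g hg => ?_
        simp only [hF, Set.mem_compl_iff, Set.mem_ofPred_eq, not_le] at hg
        exact hg.le
      rw [hthr, mul_assoc, mul_comm 4 (n : ℝ)] at h
      have h' := le_of_mul_le_mul_left h hn0
      refine hsub.trans ?_
      rw [neg_div, Real.exp_neg, ← div_eq_mul_inv, le_div_iff₀ (Real.exp_pos _), mul_comm]
      exact h'
    have hsum : (law n).real (A ∩ D ∩ F)ᶜ ≤
        (law n).real Aᶜ + (law n).real Dᶜ + (law n).real Fᶜ := by
      rw [Set.compl_inter, Set.compl_inter]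
      exact (measureReal_union_le _ _).trans (add_le_add (measureReal_union_le _ _) le_rfl)
    refine hsum.trans ?_
    have hsq : (K : ℝ) ^ 2 * 16 ≤ (K : ℝ) ^ 6 / 8 := by
      have h4 : (5 : ℝ) ^ 4 ≤ (K : ℝ) ^ 4 := pow_le_pow_left₀ (by norm_num) hKr 4
      have := mul_le_mul_of_nonneg_right h4 (sq_nonneg (K : ℝ))
      linarith [show (K : ℝ) ^ 4 * (K : ℝ) ^ 2 = (K : ℝ) ^ 6 by ring, sq_nonneg (K : ℝ)]
    have hk25 : (25 : ℝ) ≤ (K : ℝ) ^ 2 := by nlinarith
    have hnexp : (n : ℝ) ≤ Real.exp ((K : ℝ) ^ 2) := by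
      rw [← Real.exp_log hn0]; exact Real.exp_le_exp.2 hlog
    have h2e : (2 : ℝ) ≤ Real.exp 1 := by linarith [Real.add_one_le_exp (1 : ℝ)]
    have e1 : (n : ℝ) ^ 2 * (2 * Real.exp (1 - ((K : ℝ) ^ 3) ^ 2 / 8)) ≤
        Real.exp (-(K : ℝ) ^ 2 / 4) := by
      calc (n : ℝ) ^ 2 * (2 * Real.exp (1 - ((K : ℝ) ^ 3) ^ 2 / 8))
          ≤ Real.exp ((K : ℝ) ^ 2) ^ 2 * (Real.exp 1 * Real.exp (1 - ((K : ℝ) ^ 3) ^ 2 / 8)) := by
            gcongr
        _ ≤ _ := by
            rw [← Real.exp_nat_mul, ← Real.exp_add, ← Real.exp_add]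
            refine Real.exp_le_exp.2 ?_
            rw [show ((K : ℝ) ^ 3) ^ 2 = (K : ℝ) ^ 6 by ring]
            push_cast
            linarith
    have hbig : (K : ℝ) ^ 2 * 3 ≤ a ^ 2 * n / 64 := by
      have h1 : (K : ℝ) ^ 260 ≤ a ^ 2 * n := by
        rw [hadef, div_pow, one_pow, div_mul_eq_mul_div, le_div_iff₀ (by positivity), one_mul,
          ← pow_mul, ← pow_add]
        exact hn
      have h258 : (5 : ℝ) ^ 258 ≤ (K : ℝ) ^ 258 := pow_le_pow_left₀ (by norm_num) hKr 258
      have h3 : (192 : ℝ) ≤ (5 : ℝ) ^ 258 :=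
        le_trans (by norm_num) (pow_le_pow_right₀ (by norm_num : (1 : ℝ) ≤ 5) (show 4 ≤ 258 by norm_num))
      have := mul_le_mul_of_nonneg_right (h3.trans h258) (sq_nonneg (K : ℝ))
      linarith [show (K : ℝ) ^ 258 * (K : ℝ) ^ 2 = (K : ℝ) ^ 260 by ring]
    have e2 : (n : ℝ) * (2 * Real.exp (-(a ^ 2 * n) / 64)) ≤ Real.exp (-(K : ℝ) ^ 2 / 4) := by
      calc (n : ℝ) * (2 * Real.exp (-(a ^ 2 * n) / 64))
          ≤ Real.exp ((K : ℝ) ^ 2) * (Real.exp 1 * Real.exp (-(a ^ 2 * n) / 64)) := by gcongr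
        _ ≤ _ := by
            rw [← Real.exp_add, ← Real.exp_add]
            refine Real.exp_le_exp.2 ?_
            linarith
    have hsix : 6 ≤ Real.exp ((K : ℝ) ^ 2 / 8) := by
      have := Real.quadratic_le_exp_of_nonneg (show (0 : ℝ) ≤ (K : ℝ) ^ 2 / 8 by positivity)
      nlinarith
    have e3 : 6 * Real.exp (-(K : ℝ) ^ 2 / 4) ≤ Real.exp (-(K : ℝ) ^ 2 / 8) := by
      refine (mul_le_mul_of_nonneg_right hsix (Real.exp_pos _).le).trans ?_
      rw [← Real.exp_add]
      refine le_of_eq ?_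
      ring_nf
    linarith
  · rintro g ⟨⟨hgA, hgD⟩, hgF⟩
    simp only [hA, hD, Set.mem_iInter, Set.mem_ofPred_eq] at hgA hgD
    refine nbw_bound_of_good hK hlog (fun u l => ?_) hgD hgF
    unfold jmat
    by_cases h : u = l
    · rw [dif_pos h, abs_zero]; positivity
    · rw [dif_neg h, abs_div, abs_of_nonneg (Real.sqrt_nonneg _), div_le_div_iff₀
        (Real.sqrt_pos.2 hn0) (by positivity), one_mul]
      refine le_trans (mul_le_mul_of_nonneg_right (hgA _) (by positivity)) ?_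
      refine Real.le_sqrt_of_sq_le ?_
      rw [← pow_add, ← pow_mul]
      exact (pow_le_pow_right₀ hK1 (by norm_num)).trans hn

end

end Vale.Agent.P146.Super
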