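import Vale.Agent.P146.Super.Walk
import Mathlib.Algebra.Order.BigOperators.Group.Finset
import Mathlib.Analysis.MeanInequalities

/-!
# P146, superconcentration: weighted norms of the transfer operators

Fresh steps are contractions, steps to old vertices are small, deletions cost `1 + O(K² / θ)`.
-/

namespace Vale.Agent.P146.Super

open Finset

noncomputable section

variable {n : ℕ}

/-- Excess degree. -/
def psiA (G : MG n) : ℕ := ∑ v, (deg G v - 2)

/-- Marks of degree at least two. -/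
def psiC (M : Finset (Fin n)) (G : MG n) : ℕ := (M.filter fun v => 2 ≤ deg G v).card

/-- Whether the current vertex has degree at least two. -/
def psiI (G : MG n) (u : Fin n) : ℕ := if 2 ≤ deg G u then 1 else 0

/-- The potential of a walk state. -/
def psi (M : Finset (Fin n)) (p : Fin n × MG n) : ℕ :=
  2 * psiA p.2 + psiC M p.2 + psiI p.2 p.1

/-- States of a walk with at most `b` edges. -/
def dom (n b : ℕ) : Finset (Fin n × MG n) := univ ×ˢ multi n b

/-- States of the forward phase. -/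
def domT (M : Finset (Fin n)) (b : ℕ) : Finset (Fin n × MG n) :=
  (dom n b).filter fun p => (deg p.2 p.1 = 0 ∧ p.1 ∈ M) ∨ (deg p.2 p.1 = 1 ∧ p.1 ∉ M)

lemma mem_dom {b : ℕ} {p : Fin n × MG n} : p ∈ dom n b ↔ size p.2 ≤ b := by
  simp [dom, mem_multi]

/-- The weighted square sum. -/
def wsum (θ : ℝ) (M : Finset (Fin n)) (S : Finset (Fin n × MG n)) (h : Fin n × MG n → ℝ) : ℝ :=
  ∑ p ∈ S, h p ^ 2 / θ ^ psi M p

/-- The weighted norm. -/
def nrm (θ : ℝ) (M : Finset (Fin n)) (S : Finset (Fin n × MG n)) (h : Fin n × MG n → ℝ) : ℝ :=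
  Real.sqrt (wsum θ M S h)

lemma wsum_nonneg {θ : ℝ} (hθ : 0 < θ) (M : Finset (Fin n)) (S : Finset (Fin n × MG n))
    (h : Fin n × MG n → ℝ) : 0 ≤ wsum θ M S h :=
  sum_nonneg fun _ _ => by positivity

lemma sqrt_sum_add_sq_le {ι : Type*} (s : Finset ι) (w x y : ι → ℝ) (hw : ∀ i ∈ s, 0 ≤ w i) :
    Real.sqrt (∑ i ∈ s, (x i + y i) ^ 2 * w i)
      ≤ Real.sqrt (∑ i ∈ s, x i ^ 2 * w i) + Real.sqrt (∑ i ∈ s, y i ^ 2 * w i) := by
  have hA : 0 ≤ ∑ i ∈ s, x i ^ 2 * w i := sum_nonneg fun i hi => mul_nonneg (sq_nonneg _) (hw i hi)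
  have hB : 0 ≤ ∑ i ∈ s, y i ^ 2 * w i := sum_nonneg fun i hi => mul_nonneg (sq_nonneg _) (hw i hi)
  have hC := Real.sum_mul_le_sqrt_mul_sqrt s (fun i => x i * Real.sqrt (w i))
    (fun i => y i * Real.sqrt (w i))
  have e1 : ∀ z : ι → ℝ, ∑ i ∈ s, (z i * Real.sqrt (w i)) ^ 2 = ∑ i ∈ s, z i ^ 2 * w i :=
    fun z => sum_congr rfl fun i hi => by rw [mul_pow, Real.sq_sqrt (hw i hi)]
  have e2 : ∑ i ∈ s, x i * Real.sqrt (w i) * (y i * Real.sqrt (w i)) = ∑ i ∈ s, x i * y i * w i :=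
    sum_congr rfl fun i hi => by
      rw [mul_mul_mul_comm, Real.mul_self_sqrt (hw i hi)]
  rw [e1, e1, e2] at hC
  rw [Real.sqrt_le_left (by positivity), add_sq, Real.sq_sqrt hA, Real.sq_sqrt hB]
  have e3 : ∑ i ∈ s, (x i + y i) ^ 2 * w i = ∑ i ∈ s, x i ^ 2 * w i
      + 2 * ∑ i ∈ s, x i * y i * w i + ∑ i ∈ s, y i ^ 2 * w i := by
    rw [Finset.mul_sum, ← sum_add_distrib, ← sum_add_distrib]
    exact sum_congr rfl fun i _ => by ring
  rw [e3]
  nlinarith [hC]

lemma nrm_add_le {θ : ℝ} (hθ : 0 < θ) (M : Finset (Fin n)) (S : Finset (Fin n × MG n))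
    (x y : Fin n × MG n → ℝ) :
    nrm θ M S (fun p => x p + y p) ≤ nrm θ M S x + nrm θ M S y := by
  have h := sqrt_sum_add_sq_le S (fun p => (θ ^ psi M p)⁻¹) x y fun p _ => by positivity
  simpa [nrm, wsum, div_eq_mul_inv] using h

/-- A weighted Schur test for a sum over choices. -/
lemma schur_le {ι κ γ : Type*} [DecidableEq γ] [DecidableEq ι] [DecidableEq κ]
    (S : Finset ι) (T : Finset γ) (C : ι → Finset κ) (tgt : ι → κ → γ) (a : ι → κ → ℝ)
    (w : ι → ℝ) (z : γ → ℝ) (h : γ → ℝ) (R P : ℝ) (hR : 0 ≤ R) (hw : ∀ i ∈ S, 0 < w i)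
    (hz : ∀ c ∈ T, 0 < z c) (hT : ∀ i ∈ S, ∀ k ∈ C i, tgt i k ∈ T)
    (hrow : ∀ i ∈ S, ∑ k ∈ C i, a i k ^ 2 * z (tgt i k) ≤ R * w i)
    (hcol : ∀ c ∈ T, (((S.sigma C).filter fun p => tgt p.1 p.2 = c).card : ℝ) ≤ P) :
    ∑ i ∈ S, (∑ k ∈ C i, a i k * h (tgt i k)) ^ 2 / w i ≤ R * P * ∑ c ∈ T, h c ^ 2 / z c := by
  have h1 : ∀ i ∈ S, (∑ k ∈ C i, a i k * h (tgt i k)) ^ 2 / w i
      ≤ R * ∑ k ∈ C i, h (tgt i k) ^ 2 / z (tgt i k) := by
    intro i hi
    have hc := Finset.sum_mul_sq_le_sq_mul_sq (C i)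
      (fun k => a i k * Real.sqrt (z (tgt i k))) (fun k => h (tgt i k) / Real.sqrt (z (tgt i k)))
    rw [sum_congr rfl fun k hk => show a i k * Real.sqrt (z (tgt i k))
        * (h (tgt i k) / Real.sqrt (z (tgt i k))) = a i k * h (tgt i k) by
      have := (Real.sqrt_pos.2 (hz _ (hT i hi k hk))).ne'
      field_simp] at hc
    rw [sum_congr rfl fun k hk => show (a i k * Real.sqrt (z (tgt i k))) ^ 2 = a i k ^ 2 * z (tgt i k)
        by rw [mul_pow, Real.sq_sqrt (hz _ (hT i hi k hk)).le],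
      sum_congr rfl fun k hk => show (h (tgt i k) / Real.sqrt (z (tgt i k))) ^ 2
          = h (tgt i k) ^ 2 / z (tgt i k) by rw [div_pow, Real.sq_sqrt (hz _ (hT i hi k hk)).le]] at hc
    rw [div_le_iff₀ (hw i hi)]
    refine hc.trans ((mul_le_mul_of_nonneg_right (hrow i hi)
      (sum_nonneg fun k hk => div_nonneg (sq_nonneg _) (hz _ (hT i hi k hk)).le)).trans (le_of_eq ?_))
    ring
  refine (sum_le_sum h1).trans ?_
  rw [← Finset.mul_sum, mul_assoc, Finset.sum_sigma' S C fun i k => h (tgt i k) ^ 2 / z (tgt i k)]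
  refine mul_le_mul_of_nonneg_left ?_ hR
  rw [← Finset.sum_fiberwise_of_maps_to (s := S.sigma C) (t := T) (g := fun p => tgt p.1 p.2)
    fun p hp => hT p.1 (mem_sigma.1 hp).1 p.2 (mem_sigma.1 hp).2, Finset.mul_sum]
  refine sum_le_sum fun c hc => ?_
  rw [sum_congr rfl fun p hp => show h (tgt p.1 p.2) ^ 2 / z (tgt p.1 p.2) = h c ^ 2 / z c by
    rw [(mem_filter.1 hp).2], sum_const, nsmul_eq_mul]
  exact mul_le_mul_of_nonneg_right (hcol c hc) (div_nonneg (sq_nonneg _) (hz c hc).le)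

/-- Move to `l`, adding the edge. -/
def tAdd (p : Fin n × MG n) (l : Fin n) : Fin n × MG n :=
  if h : p.1 = l then p else (l, addE p.2 (mkEdge p.1 l h))

/-- Move to `l`, removing the edge. -/
def tDel (p : Fin n × MG n) (l : Fin n) : Fin n × MG n :=
  if h : p.1 = l then p else (l, delE p.2 (mkEdge p.1 l h))

/-- Multiplicity of the edge to `l`. -/
def mult (p : Fin n × MG n) (l : Fin n) : ℕ :=
  if h : p.1 = l then 0 else p.2 (mkEdge p.1 l h)

open Classical in
/-- Fresh neighbours. -/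
def freshSet (M : Finset (Fin n)) (p : Fin n × MG n) : Finset (Fin n) :=
  univ.filter fun l => p.1 ≠ l ∧ Fresh M p.2 l

/-- Old neighbours. -/
def oldSet (M : Finset (Fin n)) (p : Fin n × MG n) : Finset (Fin n) :=
  univ.filter fun l => p.1 ≠ l ∧ ¬ Fresh M p.2 l

/-- Neighbours through an edge. -/
def nbrSet (p : Fin n × MG n) : Finset (Fin n) :=
  univ.filter fun l => p.1 ≠ l ∧ 0 < mult p l

/-- A fresh step. -/
def opNew (M : Finset (Fin n)) (h : Fin n × MG n → ℝ) (p : Fin n × MG n) : ℝ :=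
  ∑ l ∈ freshSet M p, 1 / Real.sqrt n * h (tAdd p l)

/-- A step adding an edge to an old vertex. -/
def opOld (M : Finset (Fin n)) (h : Fin n × MG n → ℝ) (p : Fin n × MG n) : ℝ :=
  ∑ l ∈ oldSet M p, Real.sqrt ((mult p l : ℝ) + 1) / Real.sqrt n * h (tAdd p l)

/-- A step deleting an edge. -/
def opDel (h : Fin n × MG n → ℝ) (p : Fin n × MG n) : ℝ :=
  ∑ l ∈ nbrSet p, Real.sqrt (mult p l : ℝ) / Real.sqrt n * h (tDel p l)

lemma tAdd_of_ne {p : Fin n × MG n} {l : Fin n} (h : p.1 ≠ l) :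
    tAdd p l = (l, addE p.2 (mkEdge p.1 l h)) := by rw [tAdd, dif_neg h]

lemma tDel_of_ne {p : Fin n × MG n} {l : Fin n} (h : p.1 ≠ l) :
    tDel p l = (l, delE p.2 (mkEdge p.1 l h)) := by rw [tDel, dif_neg h]

lemma mult_of_ne {p : Fin n × MG n} {l : Fin n} (h : p.1 ≠ l) :
    mult p l = p.2 (mkEdge p.1 l h) := by rw [mult, dif_neg h]

/-! ### The change of the potential -/

lemma psiA_addE_le (G : MG n) {u l : Fin n} (h : u ≠ l) :
    psiA (addE G (mkEdge u l h)) ≤ psiA G + (if 2 ≤ deg G u then 1 else 0)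
      + (if 2 ≤ deg G l then 1 else 0) := by
  unfold psiA
  have e : ∀ v, deg (addE G (mkEdge u l h)) v - 2 ≤ (deg G v - 2)
      + ((if v = u then (if 2 ≤ deg G u then 1 else 0) else 0)
        + (if v = l then (if 2 ≤ deg G l then 1 else 0) else 0)) := by
    intro v
    rw [deg_addE]
    simp only [inc_mkEdge]
    by_cases hu : v = u
    · subst hu
      simp only [true_or, if_true, if_neg h]
      split <;> omega
    · by_cases hl : v = l
      · subst hl
        simp only [or_true, if_true, if_neg hu]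
        split <;> omega
      · simp [hu, hl]
  refine (sum_le_sum fun v _ => e v).trans (le_of_eq ?_)
  rw [sum_add_distrib, sum_add_distrib, Finset.sum_ite_eq' univ u, Finset.sum_ite_eq' univ l]
  simp [add_assoc]

lemma psiC_addE_le (M : Finset (Fin n)) (G : MG n) {u l : Fin n} (h : u ≠ l) :
    psiC M (addE G (mkEdge u l h)) ≤ psiC M G + (if u ∈ M ∧ deg G u = 1 then 1 else 0)
      + (if l ∈ M ∧ deg G l = 1 then 1 else 0) := by
  unfold psiC
  have hsub : M.filter (fun v => 2 ≤ deg (addE G (mkEdge u l h)) v) ⊆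
      M.filter (fun v => 2 ≤ deg G v) ∪ ((if u ∈ M ∧ deg G u = 1 then {u} else ∅)
        ∪ (if l ∈ M ∧ deg G l = 1 then {l} else ∅)) := by
    intro v hv
    simp only [mem_filter, deg_addE, inc_mkEdge] at hv
    simp only [mem_union, mem_filter]
    by_cases h2 : 2 ≤ deg G v
    · exact Or.inl ⟨hv.1, h2⟩
    refine Or.inr ?_
    by_cases hu : v = u
    · subst hu
      left
      rw [if_pos ⟨hv.1, by simp at hv; omega⟩]
      exact mem_singleton_self v
    · by_cases hl : v = l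
      · subst hl
        right
        rw [if_pos ⟨hv.1, by simp at hv; omega⟩]
        exact mem_singleton_self v
      · simp [hu, hl] at hv
        omega
  refine (card_le_card hsub).trans ((card_union_le _ _).trans ?_)
  refine (Nat.add_le_add_left (card_union_le _ _) _).trans ?_
  split <;> split <;> simp [add_assoc]

lemma psi_old_le (M : Finset (Fin n)) (p : Fin n × MG n) {l : Fin n} (h : p.1 ≠ l) :
    psi M (tAdd p l) ≤ psi M p + 7 := by
  rw [tAdd_of_ne h]
  have h1 := psiA_addE_le p.2 h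
  have h2 := psiC_addE_le M p.2 h
  have h3 : psiI (addE p.2 (mkEdge p.1 l h)) l ≤ 1 := by unfold psiI; split <;> simp
  unfold psi
  dsimp only
  split_ifs at h1 h2 <;> omega

lemma psi_new_le (M : Finset (Fin n)) (p : Fin n × MG n) {l : Fin n} (h : p.1 ≠ l)
    (hl : Fresh M p.2 l) : psi M (tAdd p l) ≤ psi M p + 3 := by
  rw [tAdd_of_ne h]
  have h1 := psiA_addE_le p.2 h
  have h2 := psiC_addE_le M p.2 h
  have h3 : psiI (addE p.2 (mkEdge p.1 l h)) l = 0 := by
    unfold psiI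
    rw [deg_addE, if_pos (inc_mkEdge_right p.1 l h), hl.1]
    simp
  unfold psi
  dsimp only
  rw [hl.1] at h1 h2
  simp only [Nat.zero_ne_one, and_false, if_false, add_zero] at h1 h2
  split_ifs at h1 h2 <;> omega

lemma psi_new_eq (M : Finset (Fin n)) {b : ℕ} {p : Fin n × MG n} (hp : p ∈ domT M b) {l : Fin n}
    (h : p.1 ≠ l) (hl : Fresh M p.2 l) : psi M (tAdd p l) ≤ psi M p := by
  rw [tAdd_of_ne h]
  have h1 := psiA_addE_le p.2 h
  have h2 := psiC_addE_le M p.2 h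
  have h3 : psiI (addE p.2 (mkEdge p.1 l h)) l = 0 := by
    unfold psiI
    rw [deg_addE, if_pos (inc_mkEdge_right p.1 l h), hl.1]
    simp
  unfold psi
  dsimp only
  rw [hl.1] at h1 h2
  rcases (mem_filter.1 hp).2 with hd | hd
  · rw [hd.1] at h1 h2
    simp at h1 h2
    omega
  · rw [hd.1] at h1
    simp [hd.2] at h1 h2
    omega

lemma psiC_delE_le (M : Finset (Fin n)) (G : MG n) {e : Edge n} (he : 0 < G e) :
    psiC M (delE G e) ≤ psiC M G := by
  refine card_le_card fun v hv => ?_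
  simp only [mem_filter] at hv ⊢
  have := deg_delE G e he v
  exact ⟨hv.1, le_trans hv.2 (by omega)⟩

lemma psiA_delE_le (G : MG n) {u l : Fin n} (h : u ≠ l) (he : 0 < G (mkEdge u l h)) :
    psiA (delE G (mkEdge u l h)) + psiI (delE G (mkEdge u l h)) l ≤ psiA G := by
  unfold psiA psiI
  rw [← Finset.sum_erase_add univ (fun v => deg (delE G (mkEdge u l h)) v - 2) (mem_univ l),
    ← Finset.sum_erase_add univ (fun v => deg G v - 2) (mem_univ l)]
  have h1 : ∀ v, deg (delE G (mkEdge u l h)) v ≤ deg G v := fun v => by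
    have := deg_delE G _ he v; omega
  have h2 := Finset.sum_le_sum (s := univ.erase l) fun v _ => Nat.sub_le_sub_right (h1 v) 2
  have h3 := deg_delE G _ he l
  rw [if_pos (inc_mkEdge_right u l h)] at h3
  split <;> omega

lemma psi_del_le (M : Finset (Fin n)) (p : Fin n × MG n) {l : Fin n} (h : p.1 ≠ l)
    (he : 0 < p.2 (mkEdge p.1 l h)) :
    psi M (tDel p l) + (if 2 ≤ deg p.2 p.1 then 1 else 0) ≤ psi M p := by
  rw [tDel_of_ne h]
  have h1 := psiA_delE_le p.2 h he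
  have h2 := psiC_delE_le M p.2 he
  have h3 : (if 2 ≤ deg p.2 p.1 then 1 else 0) = psiI p.2 p.1 := rfl
  unfold psi
  dsimp only
  omega

/-! ### Norms of single steps -/

lemma back_unique {M : Finset (Fin n)} {p q : Fin n × MG n} {l l' : Fin n} (h : p.1 ≠ l)
    (h' : q.1 ≠ l') (hl : Fresh M p.2 l) (heq : tAdd p l = tAdd q l') : p = q ∧ l = l' := by
  rw [tAdd_of_ne h, tAdd_of_ne h', Prod.mk.injEq] at heq
  obtain ⟨hll, hG⟩ := heq
  subst hll
  refine ⟨?_, rfl⟩
  have hd : deg (addE p.2 (mkEdge p.1 l h)) l = 1 := by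
    rw [deg_addE, if_pos (inc_mkEdge_right p.1 l h), hl.1]
  have he : mkEdge p.1 l h = mkEdge q.1 l h' := by
    refine unique_edge_of_deg_one hd (inc_mkEdge_right p.1 l h) (inc_mkEdge_right q.1 l h') (by simp) ?_
    rw [hG]; simp
  have h1 : p.1 = q.1 := by
    rw [← mkEdge_symm p.1 l h, ← mkEdge_symm q.1 l h'] at he
    exact mkEdge_inj h.symm h'.symm he
  refine Prod.ext h1 ?_
  have := congrArg (fun G => delE G (mkEdge p.1 l h)) hG
  simpa [delE_addE, he] using this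

lemma sqrt_wsum_le {θ : ℝ} (M : Finset (Fin n)) {S T : Finset (Fin n × MG n)}
    {x h : Fin n × MG n → ℝ} {c : ℝ} (hc : wsum θ M S x ≤ c * wsum θ M T h) (hc0 : 0 ≤ c) :
    nrm θ M S x ≤ Real.sqrt c * nrm θ M T h := by
  unfold nrm
  rw [← Real.sqrt_mul hc0]
  exact Real.sqrt_le_sqrt hc

lemma nrm_opNew (hn : 0 < n) {θ : ℝ} (hθ : 1 ≤ θ) (M : Finset (Fin n)) (b : ℕ)
    (S : Finset (Fin n × MG n)) (hS : S ⊆ dom n b) (e : ℕ)
    (he : ∀ p ∈ S, ∀ l, p.1 ≠ l → Fresh M p.2 l → psi M (tAdd p l) ≤ psi M p + e)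
    (h : Fin n × MG n → ℝ) :
    nrm θ M S (opNew M h) ≤ Real.sqrt (θ ^ e) * nrm θ M (domT M (b + 1)) h := by
  have hθ0 : 0 < θ := by linarith
  have hn0 : (0 : ℝ) < n := Nat.cast_pos.2 hn
  refine sqrt_wsum_le M ?_ (by positivity)
  refine (schur_le S (domT M (b + 1)) (freshSet M) tAdd (fun _ _ => 1 / Real.sqrt n)
    (fun p => θ ^ psi M p) (fun p => θ ^ psi M p) h (θ ^ e) 1 (by positivity)
    (fun _ _ => by positivity) (fun _ _ => by positivity) ?_ ?_ ?_).trans_eq (by rw [mul_one]; rfl)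
  · intro p hp l hl
    obtain ⟨h1, h2⟩ := (mem_filter.1 hl).2
    rw [tAdd_of_ne h1, domT, mem_filter, mem_dom, size_addE]
    refine ⟨Nat.add_le_add_right (mem_dom.1 (hS hp)) 1, Or.inr ⟨?_, h2.2⟩⟩
    rw [deg_addE, if_pos (inc_mkEdge_right p.1 l h1), h2.1]
  · intro p hp
    refine (sum_le_card_nsmul _ _ (θ ^ e * θ ^ psi M p / n) fun l hl => ?_).trans ?_
    · obtain ⟨h1, h2⟩ := (mem_filter.1 hl).2
      rw [div_pow, one_pow, Real.sq_sqrt hn0.le, one_div_mul_eq_div, ← pow_add, add_comm e]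
      exact div_le_div_of_nonneg_right (pow_le_pow_right₀ hθ (he p hp l h1 h2)) hn0.le
    · rw [nsmul_eq_mul]
      refine (mul_le_mul_of_nonneg_right (Nat.cast_le.2 (card_le_univ _)) (by positivity)).trans
        (le_of_eq ?_)
      rw [Fintype.card_fin]
      field_simp
  · intro c _
    refine Nat.cast_le_one.2 (card_le_one.2 fun i hi j hj => ?_)
    obtain ⟨hi1, hi2⟩ := mem_filter.1 hi
    obtain ⟨hj1, hj2⟩ := mem_filter.1 hj
    obtain ⟨h1, h2⟩ := (mem_filter.1 (mem_sigma.1 hi1).2).2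
    obtain ⟨h3, -⟩ := (mem_filter.1 (mem_sigma.1 hj1).2).2
    obtain ⟨e1, e2⟩ := back_unique h1 h3 h2 (hi2.trans hj2.symm)
    exact Sigma.ext e1 (heq_of_eq e2)

lemma nrm_opOld (hn : 0 < n) {θ : ℝ} (hθ : 1 ≤ θ) (M : Finset (Fin n)) (b Kb : ℕ)
    (hK : 2 * b + M.card + 2 ≤ Kb) (S : Finset (Fin n × MG n)) (hS : S ⊆ dom n b)
    (h : Fin n × MG n → ℝ) :
    nrm θ M S (opOld M h) ≤ Real.sqrt ((Kb : ℝ) ^ 3 * θ ^ 7 / n) * nrm θ M (dom n (b + 1)) h := by
  have hθ0 : 0 < θ := by linarith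
  have hn0 : (0 : ℝ) < n := Nat.cast_pos.2 hn
  refine sqrt_wsum_le M ?_ (by positivity)
  refine (schur_le S (dom n (b + 1)) (oldSet M) tAdd
    (fun p l => Real.sqrt ((mult p l : ℝ) + 1) / Real.sqrt n)
    (fun p => θ ^ psi M p) (fun p => θ ^ psi M p) h ((Kb : ℝ) ^ 2 * θ ^ 7 / n) Kb (by positivity)
    (fun _ _ => by positivity) (fun _ _ => by positivity) ?_ ?_ ?_).trans_eq
      (by simp only [wsum]; ring)
  · intro p hp l hl
    obtain ⟨h1, -⟩ := (mem_filter.1 hl).2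
    rw [tAdd_of_ne h1, mem_dom, size_addE]
    exact Nat.add_le_add_right (mem_dom.1 (hS hp)) 1
  · intro p hp
    refine (sum_le_card_nsmul _ _ ((Kb : ℝ) * θ ^ 7 * θ ^ psi M p / n) fun l hl => ?_).trans ?_
    · obtain ⟨h1, -⟩ := (mem_filter.1 hl).2
      rw [div_pow, Real.sq_sqrt (by positivity), Real.sq_sqrt hn0.le, div_mul_eq_mul_div,
        mul_assoc _ (θ ^ 7), ← pow_add, add_comm 7]
      refine div_le_div_of_nonneg_right (mul_le_mul ?_ (pow_le_pow_right₀ hθ (psi_old_le M p h1))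
        (by positivity) (by positivity)) hn0.le
      rw [mult_of_ne h1]
      have h2 := (le_size p.2 (mkEdge p.1 l h1)).trans (mem_dom.1 (hS hp))
      exact_mod_cast (by omega : p.2 (mkEdge p.1 l h1) + 1 ≤ Kb)
    · rw [nsmul_eq_mul]
      have hc : (oldSet M p).card ≤ Kb := by
        refine (card_le_card fun l hl => ?_).trans ((card_old_le M p.2).trans ?_)
        · exact mem_filter.2 ⟨mem_univ _, (mem_filter.1 hl).2.2⟩
        · have := mem_dom.1 (hS hp); omega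
      refine (mul_le_mul_of_nonneg_right (Nat.cast_le.2 hc) (by positivity)).trans (le_of_eq ?_)
      ring
  · intro c hc
    have hsupp := (card_supp_le c.2).trans
      ((Nat.mul_le_mul_left 2 (mem_dom.1 hc)).trans (show 2 * (b + 1) ≤ Kb by omega))
    refine Nat.cast_le.2 (le_trans (card_le_card_of_injOn (fun i => i.1.1) ?_ ?_) hsupp)
    · intro i hi
      obtain ⟨hi1, hi2⟩ := mem_filter.1 hi
      obtain ⟨h1, -⟩ := (mem_filter.1 (mem_sigma.1 hi1).2).2
      rw [tAdd_of_ne h1] at hi2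
      refine mem_filter.2 ⟨mem_univ _, ?_⟩
      rw [← hi2]
      exact lt_of_lt_of_le (by simp) (le_deg _ (inc_mkEdge_left i.1.1 i.2 h1))
    · intro i hi j hj hij
      obtain ⟨hi1, hi2⟩ := mem_filter.1 hi
      obtain ⟨hj1, hj2⟩ := mem_filter.1 hj
      obtain ⟨h1, -⟩ := (mem_filter.1 (mem_sigma.1 hi1).2).2
      obtain ⟨h3, -⟩ := (mem_filter.1 (mem_sigma.1 hj1).2).2
      have hh := hi2.trans hj2.symm
      rw [tAdd_of_ne h1, tAdd_of_ne h3, Prod.mk.injEq] at hh
      obtain ⟨⟨u, G⟩, l⟩ := i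
      obtain ⟨⟨u', G'⟩, l'⟩ := j
      dsimp only at hij hh h1 h3
      obtain ⟨rfl, hG⟩ := hh
      subst hij
      have := congrArg (fun H => delE H (mkEdge u l h1)) hG
      simp only [delE_addE] at this
      rw [this]

lemma nrm_opDel (hn : 0 < n) {θ : ℝ} (hθ : 1 ≤ θ) (M : Finset (Fin n)) (b Kb : ℕ)
    (hK : 2 * b ≤ Kb) (S : Finset (Fin n × MG n)) (hS : S ⊆ dom n b)
    (h : Fin n × MG n → ℝ) :
    nrm θ M S (opDel h) ≤ Real.sqrt (1 + (Kb : ℝ) ^ 2 / θ) * nrm θ M (dom n (b + 1)) h := by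
  have hθ0 : 0 < θ := by linarith
  have hn0 : (0 : ℝ) < n := Nat.cast_pos.2 hn
  refine sqrt_wsum_le M ?_ (by positivity)
  set T := dom n (b + 1)
  have hcol : ∀ S' : Finset (Fin n × MG n), ∀ c ∈ T,
      (((S'.sigma nbrSet).filter fun p => tDel p.1 p.2 = c).card : ℝ) ≤ (n : ℝ) := by
    intro S' c _
    refine Nat.cast_le.2 (le_of_le_of_eq (card_le_card_of_injOn (fun i => i.1.1)
      (fun i _ => mem_univ _) ?_) (card_fin n))
    intro i hi j hj hij
    obtain ⟨hi1, hi2⟩ := mem_filter.1 hi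
    obtain ⟨hj1, hj2⟩ := mem_filter.1 hj
    obtain ⟨h1, h2⟩ := (mem_filter.1 (mem_sigma.1 hi1).2).2
    obtain ⟨h3, h4⟩ := (mem_filter.1 (mem_sigma.1 hj1).2).2
    have hh := hi2.trans hj2.symm
    rw [mult_of_ne h1] at h2
    rw [mult_of_ne h3] at h4
    rw [tDel_of_ne h1, tDel_of_ne h3, Prod.mk.injEq] at hh
    obtain ⟨⟨u, G⟩, l⟩ := i
    obtain ⟨⟨u', G'⟩, l'⟩ := j
    dsimp only at hij hh h1 h2 h3 h4
    obtain ⟨rfl, hG⟩ := hh
    subst hij
    have := congrArg (fun H => addE H (mkEdge u l h1)) hG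
    rw [addE_delE G _ h2, addE_delE G' _ h4] at this
    rw [this]
  have hmaps : ∀ p ∈ dom n b, ∀ l ∈ nbrSet p, tDel p l ∈ T := by
    intro p hp l hl
    obtain ⟨h1, -⟩ := (mem_filter.1 hl).2
    rw [tDel_of_ne h1, mem_dom]
    exact (size_delE_le _ _).trans ((mem_dom.1 hp).trans b.le_succ)
  have part : ∀ (S' : Finset (Fin n × MG n)) (R : ℝ), S' ⊆ S → 0 ≤ R →
      (∀ p ∈ S', ∑ l ∈ nbrSet p, (mult p l : ℝ) * θ ^ psi M (tDel p l) ≤ R * θ ^ psi M p) →
      wsum θ M S' (opDel h) ≤ R * wsum θ M T h := by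
    intro S' R hS' hR hrow
    refine (schur_le S' T nbrSet tDel (fun p l => Real.sqrt (mult p l : ℝ) / Real.sqrt n)
      (fun p => θ ^ psi M p) (fun p => θ ^ psi M p) h (R / n) n (by positivity)
      (fun _ _ => by positivity) (fun _ _ => by positivity)
      (fun p hp => hmaps p (hS (hS' hp))) ?_ (hcol S')).trans_eq
      (by rw [div_mul_cancel₀ _ hn0.ne']; rfl)
    intro p hp
    refine le_trans (le_of_eq ?_) (le_of_le_of_eq
      (div_le_div_of_nonneg_right (hrow p hp) hn0.le) (by ring))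
    rw [Finset.sum_div]
    refine sum_congr rfl fun l _ => ?_
    rw [div_pow, Real.sq_sqrt (Nat.cast_nonneg _), Real.sq_sqrt hn0.le]
    ring
  have hsplit : wsum θ M S (opDel h) = wsum θ M (S.filter fun p => 2 ≤ deg p.2 p.1) (opDel h)
      + wsum θ M (S.filter fun p => ¬ 2 ≤ deg p.2 p.1) (opDel h) :=
    (sum_filter_add_sum_filter_not S _ _).symm
  have hbig := part (S.filter fun p => 2 ≤ deg p.2 p.1) ((Kb : ℝ) ^ 2 / θ) (filter_subset _ _)
    (by positivity) ?_
  have hsmall := part (S.filter fun p => ¬ 2 ≤ deg p.2 p.1) 1 (filter_subset _ _) zero_le_one ?_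
  · rw [hsplit, add_mul]
    linarith
  · intro p hp
    obtain ⟨hp1, hp2⟩ := mem_filter.1 hp
    rw [one_mul]
    rcases (nbrSet p).eq_empty_or_nonempty with he | ⟨l, hl⟩
    · rw [he, sum_empty]; positivity
    obtain ⟨h1, h2⟩ := (mem_filter.1 hl).2
    rw [mult_of_ne h1] at h2
    have hd : deg p.2 p.1 = 1 := by
      have := le_deg p.2 (inc_mkEdge_left p.1 l h1); omega
    have hone : nbrSet p = {l} := by
      refine eq_singleton_iff_unique_mem.2 ⟨hl, fun l' hl' => ?_⟩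
      obtain ⟨h3, h4⟩ := (mem_filter.1 hl').2
      rw [mult_of_ne h3] at h4
      exact mkEdge_inj h3 h1 (unique_edge_of_deg_one hd (inc_mkEdge_left p.1 l' h3)
        (inc_mkEdge_left p.1 l h1) h4 h2)
    rw [hone, sum_singleton, mult_of_ne h1]
    have hm : p.2 (mkEdge p.1 l h1) = 1 := by
      have := le_deg p.2 (inc_mkEdge_left p.1 l h1); omega
    rw [hm, Nat.cast_one, one_mul]
    exact pow_le_pow_right₀ hθ (le_trans (Nat.le_add_right _ _) (psi_del_le M p h1 h2))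
  · intro p hp
    obtain ⟨hp1, hp2⟩ := mem_filter.1 hp
    refine (sum_le_card_nsmul _ _ ((Kb : ℝ) * (θ ^ psi M p / θ)) fun l hl => ?_).trans ?_
    · obtain ⟨h1, h2⟩ := (mem_filter.1 hl).2
      rw [mult_of_ne h1] at h2
      rw [mult_of_ne h1]
      refine mul_le_mul (Nat.cast_le.2 ?_) ?_ (by positivity) (by positivity)
      · exact (le_size p.2 _).trans ((mem_dom.1 (hS hp1)).trans (by omega))
      · rw [le_div_iff₀ hθ0, ← pow_succ]
        have := psi_del_le M p h1 h2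
        rw [if_pos hp2] at this
        exact pow_le_pow_right₀ hθ this
    · rw [nsmul_eq_mul]
      have hc : (nbrSet p).card ≤ Kb := by
        refine le_trans (card_le_card fun l hl => ?_)
          ((card_supp_le p.2).trans ((Nat.mul_le_mul_left 2 (mem_dom.1 (hS hp1))).trans hK))
        obtain ⟨h1, h2⟩ := (mem_filter.1 hl).2
        rw [mult_of_ne h1] at h2
        exact mem_filter.2 ⟨mem_univ _, lt_of_lt_of_le h2 (le_deg _ (inc_mkEdge_right p.1 l h1))⟩
      refine (mul_le_mul_of_nonneg_right (Nat.cast_le.2 hc) (by positivity)).trans (le_of_eq ?_)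
      ring

end

end Vale.Agent.P146.Super
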