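import Vale.Agent.P146.Super.Mass
import Vale.Agent.P146.Super.Moment
import Vale.Agent.P146.Super.NB

/-!
# P146, superconcentration: the choice of the parameters

For `K ^ 300 ≤ n` and `log n ≤ K / 2000` all numerical hypotheses of the bootstrap hold with the
weight `θ = K ^ 17`.
-/

namespace Vale.Agent.P146.Super

open MeasureTheory ProbabilityTheory Finset

noncomputable section

variable {n : ℕ}

lemma pow_le_div_pow {K : ℝ} (hK : 1 ≤ K) {a b : ℕ} (h : a ≤ b) : K ^ a / K ^ b ≤ 1 :=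
  (div_le_one (pow_pos (zero_lt_one.trans_le hK) b)).2 (pow_le_pow_right₀ hK h)

/-- Transfer parameters with weight `K ^ 17` and growth `1 + 1 / K ^ 4`. -/
lemma exists_par {K : ℕ} (hK : 40 ≤ K) (hn : (K : ℝ) ^ 300 ≤ n) {Rr Kb : ℕ}
    (hR : Rr ≤ 16 * K ^ 3) (hKb : Kb ≤ 35 * K ^ 3) :
    ∃ P : Par n, P.θ = (K : ℝ) ^ 17 ∧ P.Kb = Kb ∧ P.R = Rr ∧
      P.q = 1 + 1 / (K : ℝ) ^ 4 ∧ P.ε ≤ 1 / (K : ℝ) ^ 80 := by
  have hk : (40 : ℝ) ≤ K := by exact_mod_cast hK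
  have hk1 : (1 : ℝ) ≤ K := by linarith
  have hk0 : (0 : ℝ) < K := by linarith
  have hn0 : (0 : ℝ) < n := (pow_pos hk0 300).trans_le hn
  have hKbR : (Kb : ℝ) ≤ 35 * (K : ℝ) ^ 3 := by exact_mod_cast hKb
  have hRR : (Rr : ℝ) ≤ 16 * (K : ℝ) ^ 3 := by exact_mod_cast hR
  set θ : ℝ := (K : ℝ) ^ 17 with hθdef
  have hθ1 : 1 ≤ θ := one_le_pow₀ hk1
  -- an old step
  have hε2 : (Kb : ℝ) ^ 3 * θ ^ 7 / n ≤ (1 / (K : ℝ) ^ 80) ^ 2 := by
    have h1 : (Kb : ℝ) ^ 3 * θ ^ 7 ≤ (K : ℝ) ^ 140 := by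
      calc (Kb : ℝ) ^ 3 * θ ^ 7 ≤ (35 * (K : ℝ) ^ 3) ^ 3 * θ ^ 7 :=
            mul_le_mul_of_nonneg_right (pow_le_pow_left₀ (Nat.cast_nonneg _) hKbR 3) (by positivity)
        _ = 42875 * (K : ℝ) ^ 128 := by rw [hθdef]; ring
        _ ≤ (K : ℝ) ^ 12 * (K : ℝ) ^ 128 := by
            refine mul_le_mul_of_nonneg_right ?_ (by positivity)
            refine le_trans ?_ ((pow_le_pow_left₀ (by norm_num) hk 3).trans
              (pow_le_pow_right₀ hk1 (by norm_num : 3 ≤ 12)))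
            norm_num
        _ = (K : ℝ) ^ 140 := by ring
    calc (Kb : ℝ) ^ 3 * θ ^ 7 / n ≤ (K : ℝ) ^ 140 / (K : ℝ) ^ 300 :=
          div_le_div₀ (by positivity) h1 (by positivity) hn
      _ = (1 / (K : ℝ) ^ 80) ^ 2 := by field_simp
  have hε : Real.sqrt ((Kb : ℝ) ^ 3 * θ ^ 7 / n) ≤ 1 / (K : ℝ) ^ 80 :=
    (Real.sqrt_le_sqrt hε2).trans_eq (Real.sqrt_sq (by positivity))
  have hlam : Real.sqrt (θ ^ 3) ≤ (K : ℝ) ^ 34 := by
    refine (Real.sqrt_le_sqrt (pow_le_pow_right₀ hθ1 (by norm_num : 3 ≤ 4))).trans_eq ?_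
    rw [hθdef, ← pow_mul, show 17 * 4 = 34 * 2 by norm_num, pow_mul, Real.sqrt_sq (by positivity)]
  have h4 : (0 : ℝ) < (K : ℝ) ^ 4 := by positivity
  have hq1 : 1 + Real.sqrt ((Kb : ℝ) ^ 3 * θ ^ 7 / n) * (1 + (Rr : ℝ) * Real.sqrt (θ ^ 3))
      ≤ 1 + 1 / (K : ℝ) ^ 4 := by
    refine add_le_add le_rfl ?_
    have h1 : 1 + (Rr : ℝ) * Real.sqrt (θ ^ 3) ≤ (K : ℝ) ^ 39 := by
      have h2 : (Rr : ℝ) * Real.sqrt (θ ^ 3) ≤ 16 * (K : ℝ) ^ 3 * (K : ℝ) ^ 34 :=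
        mul_le_mul hRR hlam (Real.sqrt_nonneg _) (by positivity)
      have h3 : (1 : ℝ) ≤ (K : ℝ) ^ 37 := one_le_pow₀ hk1
      have h5 : (17 : ℝ) * (K : ℝ) ^ 37 ≤ (K : ℝ) ^ 39 := by
        rw [show (K : ℝ) ^ 39 = (K : ℝ) ^ 2 * (K : ℝ) ^ 37 by ring]
        refine mul_le_mul_of_nonneg_right ?_ (by positivity)
        nlinarith
      linarith [show (K : ℝ) ^ 3 * (K : ℝ) ^ 34 = (K : ℝ) ^ 37 by ring]
    refine (mul_le_mul hε h1 (by positivity) (by positivity)).trans ?_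
    rw [one_div_mul_eq_div, div_le_div_iff₀ (by positivity) h4, one_mul, ← pow_add]
    exact pow_le_pow_right₀ hk1 (by norm_num)
  have hq2 : Real.sqrt (1 + (Kb : ℝ) ^ 2 / θ) + Real.sqrt ((Kb : ℝ) ^ 3 * θ ^ 7 / n)
      ≤ 1 + 1 / (K : ℝ) ^ 4 := by
    have h1 : Real.sqrt (1 + (Kb : ℝ) ^ 2 / θ) ≤ 1 + (Kb : ℝ) ^ 2 / θ := by
      have : 0 ≤ (Kb : ℝ) ^ 2 / θ := by positivity
      rw [Real.sqrt_le_left (by linarith)]
      nlinarith
    have h2 : (Kb : ℝ) ^ 2 / θ ≤ 1225 / (K : ℝ) ^ 11 := by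
      rw [div_le_div_iff₀ (by positivity) (by positivity), hθdef]
      calc (Kb : ℝ) ^ 2 * (K : ℝ) ^ 11 ≤ (35 * (K : ℝ) ^ 3) ^ 2 * (K : ℝ) ^ 11 :=
            mul_le_mul_of_nonneg_right (pow_le_pow_left₀ (Nat.cast_nonneg _) hKbR 2) (by positivity)
        _ = 1225 * (K : ℝ) ^ 17 := by ring
    have h3 : 1 / (K : ℝ) ^ 80 ≤ 1 / (K : ℝ) ^ 11 :=
      one_div_le_one_div_of_le (by positivity) (pow_le_pow_right₀ hk1 (by norm_num))
    have h5 : 1226 / (K : ℝ) ^ 11 ≤ 1 / (K : ℝ) ^ 4 := by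
      rw [div_le_div_iff₀ (by positivity) h4, one_mul,
        show (K : ℝ) ^ 11 = (K : ℝ) ^ 7 * (K : ℝ) ^ 4 by ring]
      refine mul_le_mul_of_nonneg_right ?_ h4.le
      refine le_trans ?_ (pow_le_pow_left₀ (by norm_num) hk 7)
      norm_num
    have h6 : 1226 / (K : ℝ) ^ 11 = 1225 / (K : ℝ) ^ 11 + 1 / (K : ℝ) ^ 11 := by ring
    linarith
  exact ⟨⟨θ, Kb, Rr, 1 + 1 / (K : ℝ) ^ 4, by exact_mod_cast hn0, hθ1, hq1, hq2⟩,
    rfl, rfl, rfl, rfl, hε⟩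

/-- Powers of the growth factor stay below `2`. -/
lemma growth_pow_le {K : ℕ} (hK : 100 ≤ K) {r : ℕ} (hr : r ≤ 32 * K ^ 3) :
    (1 + 1 / (K : ℝ) ^ 4) ^ r ≤ 2 := by
  have hk : (100 : ℝ) ≤ K := by exact_mod_cast hK
  have hk0 : (0 : ℝ) < K := by linarith
  refine (pow_le_pow_left₀ (by positivity)
    ((add_comm _ _).trans_le (Real.add_one_le_exp _)) r).trans ?_
  rw [← Real.exp_nat_mul, ← Real.exp_log (by norm_num : (0 : ℝ) < 2)]
  refine Real.exp_le_exp.2 (le_trans ?_ (Real.log_two_gt_d9.le.trans' (by norm_num :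
    (1 / 3 : ℝ) ≤ 0.6931471803)))
  have hr' : (r : ℝ) ≤ 32 * (K : ℝ) ^ 3 := by exact_mod_cast hr
  calc (r : ℝ) * (1 / (K : ℝ) ^ 4) ≤ 32 * (K : ℝ) ^ 3 * (1 / (K : ℝ) ^ 4) :=
        mul_le_mul_of_nonneg_right hr' (by positivity)
    _ = 32 / (K : ℝ) := by field_simp
    _ ≤ 1 / 3 := by rw [div_le_iff₀ hk0]; linarith

/-- One item that is not clean costs little. -/
lemma cost_le {K : ℕ} (hK : 100 ≤ K) (hn : (K : ℝ) ^ 300 ≤ n) {P : Par n}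
    (hθ : P.θ = (K : ℝ) ^ 17) (hKb : P.Kb = 8 * K + 16) (hR : P.R = K)
    (hq : P.q = 1 + 1 / (K : ℝ) ^ 4) (hε : P.ε ≤ 1 / (K : ℝ) ^ 80) :
    ((2 : ℝ) * K + 4) ^ 4 * P.cost ≤ 1 / 1000 := by
  have hk : (100 : ℝ) ≤ K := by exact_mod_cast hK
  have hk1 : (1 : ℝ) ≤ K := by linarith
  have hk0 : (0 : ℝ) < K := by linarith
  have hn0 : (0 : ℝ) < n := (pow_pos hk0 300).trans_le hn
  have hlam : P.lam ≤ (K : ℝ) ^ 34 := by
    rw [Par.lam, hθ]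
    refine (Real.sqrt_le_sqrt
      (pow_le_pow_right₀ (one_le_pow₀ hk1) (by norm_num : 3 ≤ 4))).trans_eq ?_
    rw [← pow_mul, show 17 * 4 = 34 * 2 by norm_num, pow_mul, Real.sqrt_sq (by positivity)]
  have hlam0 := P.lam_nonneg
  have hqR : P.q ^ P.R ≤ 2 := by
    rw [hq, hR]
    exact growth_pow_le hK ((Nat.le_mul_of_pos_left K (by norm_num : 0 < 32)).trans
      (Nat.mul_le_mul_left 32 (Nat.le_self_pow (by norm_num) K)))
  have hq0 : 0 ≤ P.q ^ P.R := pow_nonneg (zero_le_one.trans P.one_le_q) _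
  have hone : 1 + (P.R : ℝ) * P.lam ≤ 2 * (K : ℝ) ^ 35 := by
    rw [hR]
    have h1 := mul_le_mul_of_nonneg_left hlam hk0.le
    have h2 : (1 : ℝ) ≤ (K : ℝ) ^ 35 := one_le_pow₀ hk1
    linarith [show (K : ℝ) * (K : ℝ) ^ 34 = (K : ℝ) ^ 35 by ring]
  have hA : (P.R : ℝ) * (P.ε * (1 + P.R * P.lam) * P.q ^ P.R) ≤ 4 / (K : ℝ) ^ 44 := by
    refine (mul_le_mul_of_nonneg_left
      (mul_le_mul (mul_le_mul hε hone (by positivity) (by positivity)) hqR hq0 (by positivity))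
      (Nat.cast_nonneg _)).trans ?_
    rw [hR]
    apply le_of_eq
    field_simp
    ring
  have hB : (P.Kb : ℝ) * P.θ ^ 4 / n * (P.q ^ P.R * (1 + P.R * P.lam)) ^ 2
      ≤ 16 / (K : ℝ) ^ 88 := by
    have h1 : (P.Kb : ℝ) ≤ 9 * (K : ℝ) := by rw [hKb]; push_cast; linarith
    have h2 : (P.q ^ P.R * (1 + P.R * P.lam)) ^ 2 ≤ (2 * (2 * (K : ℝ) ^ 35)) ^ 2 :=
      pow_le_pow_left₀ (by positivity) (mul_le_mul hqR hone (by positivity) (by norm_num)) 2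
    have h3 : (P.Kb : ℝ) * P.θ ^ 4 / n ≤ 9 * (K : ℝ) * (K : ℝ) ^ 68 / (K : ℝ) ^ 300 := by
      refine div_le_div₀ (by positivity) ?_ (by positivity) hn
      rw [hθ, ← pow_mul]
      exact mul_le_mul_of_nonneg_right h1 (by positivity)
    refine (mul_le_mul h3 h2 (sq_nonneg _) (by positivity)).trans ?_
    rw [div_mul_eq_mul_div, div_le_div_iff₀ (by positivity) (by positivity)]
    calc 9 * (K : ℝ) * (K : ℝ) ^ 68 * (2 * (2 * (K : ℝ) ^ 35)) ^ 2 * (K : ℝ) ^ 88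
        = 16 * (9 * (K : ℝ) ^ 227) := by ring
      _ ≤ 16 * ((K : ℝ) ^ 73 * (K : ℝ) ^ 227) := by
          refine mul_le_mul_of_nonneg_left (mul_le_mul_of_nonneg_right ?_ (by positivity))
            (by norm_num)
          exact le_trans (by linarith) (le_self_pow₀ hk1 (by norm_num))
      _ = 16 * (K : ℝ) ^ 300 := by ring
  have hA2 : ((P.R : ℝ) * (P.ε * (1 + P.R * P.lam) * P.q ^ P.R)) ^ 2 ≤ 16 / (K : ℝ) ^ 88 := by
    refine (pow_le_pow_left₀ (by have := P.ε_nonneg; positivity) hA 2).trans_eq ?_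
    ring
  have hcost : P.cost ≤ 64 / (K : ℝ) ^ 54 := by
    rw [Par.cost]
    refine (mul_le_mul_of_nonneg_left (add_le_add hA2 hB) (by positivity)).trans ?_
    rw [hθ]
    apply le_of_eq
    field_simp
    ring
  have hL : ((2 : ℝ) * K + 4) ^ 4 ≤ 81 * (K : ℝ) ^ 4 := by
    have := pow_le_pow_left₀ (by positivity) (show (2 : ℝ) * K + 4 ≤ 3 * K by linarith) 4
    linarith [show (3 * (K : ℝ)) ^ 4 = 81 * (K : ℝ) ^ 4 by ring]
  refine (mul_le_mul hL hcost P.cost_nonneg (by positivity)).trans ?_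
  rw [mul_div_assoc', div_le_div_iff₀ (by positivity) (by norm_num)]
  calc 81 * (K : ℝ) ^ 4 * 64 * 1000 = 5184000 * (K : ℝ) ^ 4 := by ring
    _ ≤ (K : ℝ) ^ 50 * (K : ℝ) ^ 4 := by
        refine mul_le_mul_of_nonneg_right ?_ (by positivity)
        refine le_trans ?_ ((pow_le_pow_left₀ (by norm_num) hk 4).trans
          (pow_le_pow_right₀ hk1 (by norm_num : 4 ≤ 50)))
        norm_num
    _ = 1 * (K : ℝ) ^ 54 := by ring

/-- The branch step contracts once `K` is large compared with `β ^ 2`. -/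
lemma step_le {K : ℕ} (hK : 100 ≤ K) (hn : (K : ℝ) ^ 300 ≤ n) {β : ℝ}
    (hβ : 30000000000 * β ^ 2 ≤ K) :
    β ^ 2 * (((2 : ℝ) * K + 4) * ((2 : ℝ) * K + 4)) ^ 4
      * (((K : ℝ) ^ 17) ^ 2 / n + 1 / (K : ℝ) ^ 17)
      * (1 + 16 * (2 * (K : ℝ) + 2) * ((K : ℝ) + 1) ^ 3) ^ 2 ≤ 1 / 8 := by
  have hk : (100 : ℝ) ≤ K := by exact_mod_cast hK
  have hk1 : (1 : ℝ) ≤ K := by linarith
  have hk0 : (0 : ℝ) < K := by linarith
  have hn0 : (0 : ℝ) < n := (pow_pos hk0 300).trans_le hn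
  have h1 : (((2 : ℝ) * K + 4) * ((2 : ℝ) * K + 4)) ^ 4 ≤ 6561 * (K : ℝ) ^ 8 := by
    refine (pow_le_pow_left₀ (by positivity) (show ((2 : ℝ) * K + 4) * ((2 : ℝ) * K + 4)
      ≤ 9 * (K : ℝ) ^ 2 by nlinarith) 4).trans_eq ?_
    ring
  have h2 : ((K : ℝ) ^ 17) ^ 2 / n + 1 / (K : ℝ) ^ 17 ≤ 2 / (K : ℝ) ^ 17 := by
    have h : ((K : ℝ) ^ 17) ^ 2 / n ≤ 1 / (K : ℝ) ^ 17 := by
      rw [div_le_div_iff₀ hn0 (by positivity), one_mul, ← pow_mul, ← pow_add]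
      exact (pow_le_pow_right₀ hk1 (by norm_num)).trans hn
    linarith [show 2 / (K : ℝ) ^ 17 = 1 / (K : ℝ) ^ 17 + 1 / (K : ℝ) ^ 17 by ring]
  have h3 : (1 + 16 * (2 * (K : ℝ) + 2) * ((K : ℝ) + 1) ^ 3) ^ 2 ≤ 263169 * (K : ℝ) ^ 8 := by
    have e : 1 + 16 * (2 * (K : ℝ) + 2) * ((K : ℝ) + 1) ^ 3 ≤ 513 * (K : ℝ) ^ 4 := by
      have h4 : ((K : ℝ) + 1) ^ 4 ≤ (2 * (K : ℝ)) ^ 4 :=
        pow_le_pow_left₀ (by positivity) (by linarith) 4
      have h5 : (1 : ℝ) ≤ (K : ℝ) ^ 4 := one_le_pow₀ hk1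
      linarith [show 1 + 16 * (2 * (K : ℝ) + 2) * ((K : ℝ) + 1) ^ 3
        = 1 + 32 * ((K : ℝ) + 1) ^ 4 by ring, show (2 * (K : ℝ)) ^ 4 = 16 * (K : ℝ) ^ 4 by ring]
    refine (pow_le_pow_left₀ (by positivity) e 2).trans_eq ?_
    ring
  have hκ : 0 ≤ ((K : ℝ) ^ 17) ^ 2 / n + 1 / (K : ℝ) ^ 17 := by positivity
  refine (mul_le_mul (mul_le_mul (mul_le_mul_of_nonneg_left h1 (sq_nonneg β)) h2 hκ
    (by positivity)) h3 (sq_nonneg _) (by positivity)).trans ?_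
  rw [show β ^ 2 * (6561 * (K : ℝ) ^ 8) * (2 / (K : ℝ) ^ 17) * (263169 * (K : ℝ) ^ 8)
    = 3453303618 * β ^ 2 / (K : ℝ) by field_simp; ring, div_le_iff₀ hk0]
  nlinarith [sq_nonneg β]

/-- The probability of the bad event beats the crude bound. -/
lemma bad_le {K : ℕ} (hK : 100 ≤ K) (hn : (K : ℝ) ^ 300 ≤ n)
    (hlog : Real.log n ≤ (K : ℝ) / 2000) :
    ((n : ℝ) + 3 * K + 4) ^ (12 * (3 * K + 3)) * Real.sqrt (Real.exp (-(K : ℝ) ^ 2 / 8)) ≤ 1 := by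
  have hk : (100 : ℝ) ≤ K := by exact_mod_cast hK
  have hk1 : (1 : ℝ) ≤ K := by linarith
  have hKn : (K : ℝ) ≤ n := (le_self_pow₀ hk1 (by norm_num)).trans hn
  have hn0 : (0 : ℝ) < n := by linarith
  have h2 : (n : ℝ) + 3 * K + 4 ≤ Real.exp (2 * Real.log n) := by
    rw [two_mul, Real.exp_add, Real.exp_log hn0]
    nlinarith
  refine (mul_le_mul_of_nonneg_right (pow_le_pow_left₀ (by positivity) h2 _)
    (Real.sqrt_nonneg _)).trans ?_
  rw [← Real.exp_nat_mul, ← Real.exp_half, ← Real.exp_add, ← Real.exp_zero]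
  refine Real.exp_le_exp.2 ?_
  push_cast
  have h3 : 0 ≤ 12 * (3 * (K : ℝ) + 3) := by positivity
  have h4 := mul_le_mul_of_nonneg_left hlog h3
  nlinarith

/-- Fresh placements lose little. -/
lemma placements_le {K : ℕ} (hK : 100 ≤ K) (hn : (K : ℝ) ^ 300 ≤ n) :
    (1 + 1 / (2 * (K : ℝ) + 2) ^ 2) ^ (2 * K + 2) ≤ 2 ∧
    ∀ j ≤ K, (n : ℝ) ^ (j + 1)
      ≤ (1 + 1 / (2 * (K : ℝ) + 2) ^ 2) * ((n : ℝ) - (6 * K + 6 : ℕ)) ^ (j + 1) := by
  have hk : (100 : ℝ) ≤ K := by exact_mod_cast hK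
  have hk1 : (1 : ℝ) ≤ K := by linarith
  set L : ℝ := 2 * (K : ℝ) + 2 with hL
  have hL2 : 2 ≤ L := by linarith
  set t : ℝ := 1 / L ^ 2 with ht
  have ht0 : 0 < t := by positivity
  constructor
  · refine (pow_le_pow_left₀ (by positivity)
      ((add_comm _ _).trans_le (Real.add_one_le_exp t)) _).trans ?_
    rw [← Real.exp_nat_mul, ← Real.exp_log (by norm_num : (0 : ℝ) < 2)]
    refine Real.exp_le_exp.2 (le_trans ?_ (Real.log_two_gt_d9.le.trans' (by norm_num :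
      (1 / 2 : ℝ) ≤ 0.6931471803)))
    push_cast
    rw [← hL, ht, mul_one_div, sq, div_mul_cancel_left₀ (by positivity), one_div]
    exact inv_anti₀ two_pos hL2
  · intro j hj
    push_cast
    have hj' : (j : ℝ) + 1 ≤ L / 2 := by
      have : (j : ℝ) ≤ K := by exact_mod_cast hj
      linarith
    have hn' : 12 * L ^ 4 ≤ (n : ℝ) := by
      refine le_trans ?_ hn
      have h1 : L ^ 4 ≤ (4 * (K : ℝ)) ^ 4 := pow_le_pow_left₀ (by linarith) (by linarith) 4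
      have h2 : (3072 : ℝ) * (K : ℝ) ^ 4 ≤ (K : ℝ) ^ 300 := by
        rw [show (K : ℝ) ^ 300 = (K : ℝ) ^ 296 * (K : ℝ) ^ 4 by ring]
        refine mul_le_mul_of_nonneg_right ?_ (by positivity)
        refine le_trans ?_ ((pow_le_pow_left₀ (by norm_num) hk 2).trans
          (pow_le_pow_right₀ hk1 (by norm_num : 2 ≤ 296)))
        norm_num
      linarith [show (4 * (K : ℝ)) ^ 4 = 256 * (K : ℝ) ^ 4 by ring]
    have hn0 : (0 : ℝ) < n := lt_of_lt_of_le (by positivity) hn'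
    set a : ℝ := (6 * (K : ℝ) + 6) / n with ha
    have ha0 : 0 ≤ a := by positivity
    have haL : ((j : ℝ) + 1) * a ≤ t / 2 := by
      have h6 : a ≤ 3 * L / (12 * L ^ 4) := by
        rw [ha]
        exact div_le_div₀ (by positivity) (by linarith) (by positivity) hn'
      refine (mul_le_mul hj' h6 ha0 (by positivity)).trans ?_
      rw [ht]
      field_simp
      nlinarith
    have ha1 : a ≤ 1 := by
      have ht1 : t ≤ 1 := by rw [ht, div_le_one (by positivity)]; nlinarith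
      have h7 := mul_le_mul_of_nonneg_right
        (show (1 : ℝ) ≤ (j : ℝ) + 1 by linarith [(Nat.cast_nonneg j : (0 : ℝ) ≤ j)]) ha0
      linarith
    have hB := one_add_mul_le_pow (show -2 ≤ -a by linarith) (j + 1)
    push_cast at hB
    have e : (n : ℝ) - (6 * (K : ℝ) + 6) = n * (1 + -a) := by rw [ha]; field_simp; ring
    rw [e, mul_pow, ← mul_assoc, mul_comm (1 + t), mul_assoc]
    refine le_mul_of_one_le_right (by positivity)
      (le_trans ?_ (mul_le_mul_of_nonneg_left hB (by positivity)))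
    have ht1 : t ≤ 1 := by rw [ht, div_le_one (by positivity)]; nlinarith
    nlinarith

/-- **The parameters exist.** -/
theorem exists_setting (β : ℝ) : ∃ K0 : ℕ, ∀ K, K0 ≤ K → ∀ n : ℕ, (K : ℝ) ^ 300 ≤ n →
    Real.log n ≤ (K : ℝ) / 2000 → ∃ s : Setting n, s.β = β ∧ s.K = K := by
  refine ⟨max 100 ⌈30000000000 * β ^ 2⌉₊, fun K hK n hn hlog => ?_⟩
  have hK100 : 100 ≤ K := (le_max_left _ _).trans hK
  have hβ : 30000000000 * β ^ 2 ≤ (K : ℝ) :=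
    Nat.ceil_le.1 ((le_max_right _ _).trans hK)
  have hk : (100 : ℝ) ≤ K := by exact_mod_cast hK100
  have hk1 : (1 : ℝ) ≤ K := by linarith
  have h3 : K ≤ K ^ 3 := Nat.le_self_pow (by norm_num) K
  obtain ⟨P, hPθ, hPKb, hPR, hPq, hPε⟩ := exists_par (Rr := K) (Kb := 8 * K + 16)
    (by omega : 40 ≤ K) hn (by omega) (by omega)
  obtain ⟨Q, -, hQKb, hQR, hQq, -⟩ := exists_par (Rr := 16 * K ^ 3) (Kb := 32 * K ^ 3 + 3)
    (by omega : 40 ≤ K) hn le_rfl (by omega)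
  have hlog2 : Real.log n ≤ (K : ℝ) ^ 2 := hlog.trans (by nlinarith)
  obtain ⟨S, hSm, hSδ, hS⟩ := exists_good_set (by omega : 5 ≤ K) hn hlog2 fun r hr =>
    (sum_integral_nbw_sq_le Q (by omega) (by omega)).trans (by
      rw [mul_comm 4 (n : ℝ)]
      refine mul_le_mul_of_nonneg_left ?_ (Nat.cast_nonneg n)
      rw [hQq, two_mul, pow_add]
      have h2 := growth_pow_le hK100 (show r ≤ 32 * K ^ 3 by omega)
      have h0 : 0 ≤ (1 + 1 / (K : ℝ) ^ 4) ^ r := by positivity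
      nlinarith)
  obtain ⟨hq0m, hq0n⟩ := placements_le hK100 hn
  refine ⟨{ β := β, K := K, P := P, Good := S, δ := Real.exp (-(K : ℝ) ^ 2 / 8),
            q0 := 1 + 1 / (2 * (K : ℝ) + 2) ^ 2, Kb0 := 6 * K + 6,
            hPR := hPR, hKb := hPKb.ge, hKb0 := le_rfl, hKn := ?_, hθn := ?_, hθm := ?_,
            hGm := hSm, hδ := hSδ, hGood := hS, hbad := bad_le hK100 hn hlog,
            hq0 := le_add_of_nonneg_right (by positivity), hq0m := hq0m, hq0n := hq0n,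
            hcost := cost_le hK100 hn hPθ hPKb hPR hPq hPε, hstep := ?_ }, rfl, rfl⟩
  · have h1 : ((6 * K + 6 : ℕ) : ℝ) < (n : ℝ) := by
      push_cast
      have h2 : (K : ℝ) ^ 2 ≤ n := (pow_le_pow_right₀ hk1 (by norm_num)).trans hn
      nlinarith
    exact_mod_cast h1
  · rw [hPθ, ← pow_mul]
    exact (pow_le_pow_right₀ hk1 (by norm_num)).trans hn
  · rw [hPθ, ← pow_mul]
    refine le_trans ?_ (pow_le_pow_right₀ hk1 (by norm_num : 3 ≤ 17 * 2))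
    nlinarith
  · rw [hPθ]
    exact step_le hK100 hn hβ

end

end Vale.Agent.P146.Super
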